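import Vale.Agent.P028.MathlibUsed

set_option linter.all false

section

/-!
# Overlap of the sets `A_q = {y : ‖q y - γ‖ < ψ(q)}` on the circle
-/

namespace Vale.P028

open MeasureTheory Set

/-- The set of points `y` of the circle with `‖q y - a‖ < α`. -/
def arcSet (q : ℕ) (a α : ℝ) : Set UnitAddCircle :=
  {y | ‖q • y - (a : UnitAddCircle)‖ < α}

theorem exists_lift (z : UnitAddCircle) : ∃ P : ℝ, (P : UnitAddCircle) = z ∧ |P| = ‖z‖ := by
  induction z using QuotientAddGroup.induction_on with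
  | H x =>
    refine ⟨x - round x, ?_, ?_⟩
    · rw [AddCircle.coe_sub]
      have : ((round x : ℝ) : UnitAddCircle) = 0 := by
        rw [AddCircle.coe_eq_zero_iff]
        exact ⟨round x, by simp only [zsmul_eq_mul, mul_one]⟩
      rw [this, sub_zero]
    · exact (UnitAddCircle.norm_eq).symm

theorem norm_coe_le (x : ℝ) : ‖(x : UnitAddCircle)‖ ≤ |x| := by
  rw [UnitAddCircle.norm_eq]
  have := round_le x 0
  simpa only [ge_iff_le, Int.cast_zero, sub_zero] using this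

theorem measurableSet_arcSet (q : ℕ) (a α : ℝ) : MeasurableSet (arcSet q a α) := by
  apply IsOpen.measurableSet
  exact isOpen_lt (by (clear * -; fun_prop)) continuous_const

/-- Points of the intersection lie in one of few small arcs. -/
theorem arcSet_inter_subset (u v : ℕ) (hu : 0 < u) (huv : Nat.Coprime u v)
    (a b α β : ℝ) :
    ∃ c : ℤ → ℝ, arcSet u a α ∩ arcSet v b β ⊆
      ⋃ m ∈ {m : ℤ | |(m : ℝ) - (v * a - u * b)| < v * α + u * β},
        Metric.ball ((c m : ℝ) : UnitAddCircle) (α / u) := by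
  obtain ⟨s, t, hst⟩ : IsCoprime (u : ℤ) (v : ℤ) := Nat.isCoprime_iff_coprime.mpr huv
  have hstR : (s : ℝ) * u + t * v = 1 := by exact_mod_cast hst
  have huR : (0 : ℝ) < u := by exact_mod_cast hu
  refine ⟨fun m => -t * (m - (v * a - u * b)) / u + s * a + t * b, ?_⟩
  rintro y ⟨hy1, hy2⟩
  obtain ⟨P, hP, hP'⟩ := exists_lift (u • y - (a : UnitAddCircle))
  obtain ⟨Q, hQ, hQ'⟩ := exists_lift (v • y - (b : UnitAddCircle))
  have hPα : |P| < α := by rw [hP']; exact hy1
  have hQβ : |Q| < β := by rw [hQ']; exact hy2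
  have h1 : ((v * P - u * Q + (v * a - u * b) : ℝ) : UnitAddCircle) = 0 := by
    have e : ((v * P - u * Q + (v * a - u * b) : ℝ) : UnitAddCircle)
        = v • ((P : UnitAddCircle) + (a : UnitAddCircle))
          - u • ((Q : UnitAddCircle) + (b : UnitAddCircle)) := by
      rw [← AddCircle.coe_add, ← AddCircle.coe_add, ← AddCircle.coe_nsmul, ← AddCircle.coe_nsmul,
        ← AddCircle.coe_sub]
      congr 1
      simp only [nsmul_eq_mul]
      ring
    rw [e, hP, hQ, sub_add_cancel, sub_add_cancel, ← mul_nsmul, ← mul_nsmul, Nat.mul_comm, sub_self]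
  rw [AddCircle.coe_eq_zero_iff] at h1
  obtain ⟨m, hm⟩ := h1
  have hm' : (m : ℝ) = v * P - u * Q + (v * a - u * b) := by
    rw [← hm]; simp
  simp only [mem_iUnion]
  refine ⟨m, ?_, ?_⟩
  · change |(m : ℝ) - (v * a - u * b)| < v * α + u * β
    have e : (m : ℝ) - (v * a - u * b) = v * P - u * Q := by rw [hm']; ring
    rw [e]
    rcases Nat.eq_zero_or_pos v with hv | hv
    · subst hv
      have : (u : ℝ) * |Q| < u * β := by (clear * - hQβ hu; gcongr)
      simp only [CharP.cast_eq_zero, zero_mul, zero_sub, abs_neg, abs_mul, zero_add]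
      rw [abs_of_pos huR]
      exact this
    · have hvR : (0 : ℝ) < v := by exact_mod_cast hv
      calc |v * P - u * Q| ≤ |v * P| + |u * Q| := abs_sub _ _
        _ = v * |P| + u * |Q| := by rw [abs_mul, abs_mul, abs_of_pos hvR, abs_of_pos huR]
        _ < v * α + u * β := by (clear * - hPα hv hQβ hu; gcongr)
  · rw [mem_ball_iff_norm]
    have e1 : y = ((P / u + (-t * (m - (v * a - u * b)) / u + s * a + t * b) : ℝ) :
        UnitAddCircle) := by
      have : y = s • (u • y) + t • (v • y) := by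
        have h2 : s • (u • y) + t • (v • y) = (s * u + t * v) • y := by
          rw [add_smul, mul_smul, mul_smul, natCast_zsmul, natCast_zsmul]
        rw [h2, hst, one_smul]
      rw [this]
      have h3 : u • y = ((P + a : ℝ) : UnitAddCircle) := by
        rw [AddCircle.coe_add, hP, sub_add_cancel]
      have h4 : v • y = ((Q + b : ℝ) : UnitAddCircle) := by
        rw [AddCircle.coe_add, hQ, sub_add_cancel]
      rw [h3, h4, ← AddCircle.coe_zsmul, ← AddCircle.coe_zsmul, ← AddCircle.coe_add]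
      congr 1
      simp only [zsmul_eq_mul]
      rw [hm']
      field_simp
      linear_combination (P) * hstR
    have e2 : y - ((-t * (m - (v * a - u * b)) / u + s * a + t * b : ℝ) : UnitAddCircle)
        = ((P / u : ℝ) : UnitAddCircle) := by
      rw [e1, AddCircle.coe_add, add_sub_cancel_right]
    rw [e2]
    refine lt_of_le_of_lt (norm_coe_le _) ?_
    rw [abs_div, abs_of_pos huR]
    (clear * - hPα hu; gcongr)

/-- Integers in an open interval. -/
theorem int_set_card (κ R : ℝ) (hR : 0 ≤ R) :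
    ∃ M : Finset ℤ, (∀ m : ℤ, |(m : ℝ) - κ| < R → m ∈ M) ∧ (∀ m ∈ M, |(m : ℝ) - κ| ≤ R) ∧
      (M.card : ℝ) ≤ 2 * R + 1 := by
  refine ⟨Finset.Icc ⌈κ - R⌉ ⌊κ + R⌋, ?_, ?_, ?_⟩
  · intro m hm
    rw [abs_lt] at hm
    rw [Finset.mem_Icc]
    exact ⟨Int.ceil_le.mpr (by linarith only [hm]), Int.le_floor.mpr (by linarith only [hm])⟩
  · intro m hm
    rw [Finset.mem_Icc] at hm
    have h1 := Int.ceil_le.mp hm.1
    have h2 := Int.le_floor.mp hm.2
    rw [abs_le]
    constructor <;> linarith only [h1, h2]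
  · rw [Int.card_Icc]
    have h1 : κ - R ≤ ⌈κ - R⌉ := Int.le_ceil _
    have h2 : (⌊κ + R⌋ : ℝ) ≤ κ + R := Int.floor_le _
    rcases le_total 0 (⌊κ + R⌋ + 1 - ⌈κ - R⌉) with h | h
    · have : (((⌊κ + R⌋ + 1 - ⌈κ - R⌉).toNat : ℤ) : ℝ) = ((⌊κ + R⌋ + 1 - ⌈κ - R⌉ : ℤ) : ℝ) := by
        rw [Int.toNat_of_nonneg h]
      rw [Int.cast_natCast] at this
      rw [this]
      push_cast
      linarith only [h1, h2]
    · rw [Int.toNat_of_nonpos h]
      push_cast
      linarith only [hR]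

theorem volume_arcSet_inter_le_aux (u v : ℕ) (hu : 0 < u) (huv : Nat.Coprime u v)
    (a b α β : ℝ) (M : Finset ℤ)
    (hM : ∀ m : ℤ, |(m : ℝ) - (v * a - u * b)| < v * α + u * β → m ∈ M) :
    volume (arcSet u a α ∩ arcSet v b β) ≤ ENNReal.ofReal (M.card * (2 * (α / u))) := by
  obtain ⟨c, hc⟩ := arcSet_inter_subset u v hu huv a b α β
  calc volume (arcSet u a α ∩ arcSet v b β)
      ≤ volume (⋃ m ∈ M, Metric.closedBall ((c m : ℝ) : UnitAddCircle) (α / u)) := by
        apply measure_mono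
        refine hc.trans ?_
        intro y hy
        simp only [mem_iUnion] at hy ⊢
        obtain ⟨m, hm, hy⟩ := hy
        exact ⟨m, hM m hm, Metric.ball_subset_closedBall hy⟩
    _ ≤ ∑ m ∈ M, volume (Metric.closedBall ((c m : ℝ) : UnitAddCircle) (α / u)) :=
        measure_biUnion_finset_le _ _
    _ ≤ ∑ m ∈ M, ENNReal.ofReal (2 * (α / u)) := by
        apply Finset.sum_le_sum
        intro m _
        rw [AddCircle.volume_closedBall]
        exact ENNReal.ofReal_le_ofReal (min_le_right _ _)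
    _ = ENNReal.ofReal (M.card * (2 * (α / u))) := by
        rw [Finset.sum_const, nsmul_eq_mul, ENNReal.ofReal_mul (Nat.cast_nonneg _),
          ENNReal.ofReal_natCast]

/-- Main overlap bound for coprime multipliers. -/
theorem volume_arcSet_inter_le (u v : ℕ) (hu : 0 < u) (hv : 0 < v) (huv : Nat.Coprime u v)
    (a b α β : ℝ) (M : Finset ℤ)
    (hM : ∀ m : ℤ, |(m : ℝ) - (v * a - u * b)| < v * α + u * β → m ∈ M) :
    volume (arcSet u a α ∩ arcSet v b β) ≤
      ENNReal.ofReal (M.card * (2 * min (α / u) (β / v))) := by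
  have h1 := volume_arcSet_inter_le_aux u v hu huv a b α β M hM
  have h2 := volume_arcSet_inter_le_aux v u hv huv.symm b a β α (M.image Neg.neg) (by
    intro m hm
    rw [Finset.mem_image]
    refine ⟨-m, hM (-m) ?_, by simp⟩
    push_cast
    have e : -(m : ℝ) - (v * a - u * b) = -((m : ℝ) - (u * b - v * a)) := by ring
    rw [e, abs_neg]
    linarith only [hm])
  rw [inter_comm] at h2
  have hc : (M.image Neg.neg).card = M.card :=
    Finset.card_image_of_injective _ neg_injective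
  rw [hc] at h2
  rcases min_cases (α / u) (β / v) with ⟨e, _⟩ | ⟨e, _⟩
  · rw [e]; exact h1
  · rw [e]; exact h2

theorem arcSet_gcd (q r : ℕ) (hq : 0 < q) (a b α β : ℝ) :
    volume (arcSet q a α ∩ arcSet r b β) =
      volume (arcSet (q / Nat.gcd q r) a α ∩ arcSet (r / Nat.gcd q r) b β) := by
  have hg : 0 < Nat.gcd q r := Nat.gcd_pos_of_pos_left _ hq
  have hmp : MeasurePreserving (fun y : UnitAddCircle => ((Nat.gcd q r : ℕ) : ℤ) • y)
      volume volume := MeasureTheory.Measure.measurePreserving_zsmul volume (by exact_mod_cast hg.ne')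
  have h := hmp.measure_preimage
    (s := arcSet (q / Nat.gcd q r) a α ∩ arcSet (r / Nat.gcd q r) b β)
    ((measurableSet_arcSet _ _ _).inter (measurableSet_arcSet _ _ _)).nullMeasurableSet
  rw [← h]
  congr 1
  ext y
  simp only [arcSet, mem_inter_iff, mem_preimage, mem_ofPred_eq, natCast_zsmul, ← mul_nsmul,
    Nat.mul_div_cancel' (Nat.gcd_dvd_left q r), Nat.mul_div_cancel' (Nat.gcd_dvd_right q r)]

/-- `D(q,r) = max(r α, q β) / gcd(q,r)`. -/
noncomputable def DD (q r : ℕ) (α β : ℝ) : ℝ := max (r * α) (q * β) / Nat.gcd q r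

theorem DD_eq (q r : ℕ) (hq : 0 < q) (α β : ℝ) :
    DD q r α β = max (((r / Nat.gcd q r : ℕ) : ℝ) * α) (((q / Nat.gcd q r : ℕ) : ℝ) * β) := by
  have hg : 0 < Nat.gcd q r := Nat.gcd_pos_of_pos_left _ hq
  have hgR : (0 : ℝ) < Nat.gcd q r := by exact_mod_cast hg
  rw [DD, Nat.cast_div (Nat.gcd_dvd_right q r) hgR.ne', Nat.cast_div (Nat.gcd_dvd_left q r) hgR.ne',
    ← max_div_div_right hgR.le]
  congr 1 <;> ring

theorem volume_inter_le_of_quarter_le (q r : ℕ) (hq : 0 < q) (hr : 0 < r) (a b α β : ℝ)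
    (hα : 0 ≤ α) (hβ : 0 ≤ β) (hD : 1 / 4 ≤ DD q r α β) :
    volume (arcSet q a α ∩ arcSet r b β) ≤ ENNReal.ofReal (16 * α * β) := by
  have hg : 0 < Nat.gcd q r := Nat.gcd_pos_of_pos_left _ hq
  rw [arcSet_gcd q r hq]
  rw [DD_eq q r hq] at hD
  have hu : 0 < q / Nat.gcd q r := Nat.div_pos (Nat.gcd_le_left _ hq) hg
  have hv : 0 < r / Nat.gcd q r := Nat.div_pos (Nat.gcd_le_right _ hr) hg
  have huv : Nat.Coprime (q / Nat.gcd q r) (r / Nat.gcd q r) := Nat.coprime_div_gcd_div_gcd hg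
  generalize q / Nat.gcd q r = u at *
  generalize r / Nat.gcd q r = v at *
  have huR : (0 : ℝ) < u := by exact_mod_cast hu
  have hvR : (0 : ℝ) < v := by exact_mod_cast hv
  obtain ⟨M, hM1, hM2, hM3⟩ := int_set_card (v * a - u * b) (v * α + u * β) (by (clear * - hv hα hu hβ; positivity))
  refine (volume_arcSet_inter_le u v hu hv huv a b α β M hM1).trans ?_
  apply ENNReal.ofReal_le_ofReal
  have h1 : (M.card : ℝ) ≤ 8 * max (v * α) (u * β) := by
    have h2 := le_max_left (v * α) (u * β)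
    have h3 := le_max_right (v * α) (u * β)
    linarith only [hD, hM3, h2, h3]
  have h4 : max (v * α) (u * β) * min (α / u) (β / v) = α * β := by
    rcases le_total (v * α) (u * β) with h | h
    · rw [max_eq_right h, min_eq_left]
      · (clear * - hu; field_simp)
      · rw [div_le_div_iff₀ huR hvR]; linarith only [h]
    · rw [max_eq_left h, min_eq_right]
      · (clear * - hv; field_simp)
      · rw [div_le_div_iff₀ hvR huR]; linarith only [h]
  have h5 : 0 ≤ min (α / u) (β / v) := by (clear * - hα hu hβ hv; positivity)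
  calc (M.card : ℝ) * (2 * min (α / u) (β / v))
      ≤ (8 * max (v * α) (u * β)) * (2 * min (α / u) (β / v)) := by (clear * - h1 hα hu hβ hv; gcongr)
    _ = 16 * (max (v * α) (u * β) * min (α / u) (β / v)) := by ring
    _ = 16 * α * β := by rw [h4]; ring

theorem volume_inter_le_of_lt_quarter (q r : ℕ) (hq : 0 < q) (hr : 0 < r) (a b α β : ℝ)
    (hα : 0 ≤ α) (hβ : 0 ≤ β) (hD0 : 0 < DD q r α β) (hD : DD q r α β < 1 / 4) :
    volume (arcSet q a α ∩ arcSet r b β) ≤ ENNReal.ofReal (2 * α * β / DD q r α β) := by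
  have hg : 0 < Nat.gcd q r := Nat.gcd_pos_of_pos_left _ hq
  rw [arcSet_gcd q r hq]
  rw [DD_eq q r hq] at hD hD0 ⊢
  have hu : 0 < q / Nat.gcd q r := Nat.div_pos (Nat.gcd_le_left _ hq) hg
  have hv : 0 < r / Nat.gcd q r := Nat.div_pos (Nat.gcd_le_right _ hr) hg
  have huv : Nat.Coprime (q / Nat.gcd q r) (r / Nat.gcd q r) := Nat.coprime_div_gcd_div_gcd hg
  generalize q / Nat.gcd q r = u at *
  generalize r / Nat.gcd q r = v at *
  have huR : (0 : ℝ) < u := by exact_mod_cast hu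
  have hvR : (0 : ℝ) < v := by exact_mod_cast hv
  obtain ⟨M, hM1, hM2, hM3⟩ := int_set_card (v * a - u * b) (v * α + u * β) (by (clear * - hv hα hu hβ; positivity))
  refine (volume_arcSet_inter_le u v hu hv huv a b α β M hM1).trans ?_
  apply ENNReal.ofReal_le_ofReal
  have h1 : (M.card : ℝ) < 2 := by
    have h2 := le_max_left (v * α) (u * β)
    have h3 := le_max_right (v * α) (u * β)
    linarith only [hD, hM3, h2, h3]
  have h1' : (M.card : ℝ) ≤ 1 := by
    have : M.card < 2 := by exact_mod_cast h1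
    have : M.card ≤ 1 := by omega
    exact_mod_cast this
  have h4 : max (v * α) (u * β) * min (α / u) (β / v) = α * β := by
    rcases le_total (v * α) (u * β) with h | h
    · rw [max_eq_right h, min_eq_left]
      · (clear * - hu; field_simp)
      · rw [div_le_div_iff₀ huR hvR]; linarith only [h]
    · rw [max_eq_left h, min_eq_right]
      · (clear * - hv; field_simp)
      · rw [div_le_div_iff₀ hvR huR]; linarith only [h]
  have h5 : 0 ≤ min (α / u) (β / v) := by (clear * - hα hu hβ hv; positivity)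
  rw [le_div_iff₀ hD0]
  calc (M.card : ℝ) * (2 * min (α / u) (β / v)) * max (v * α) (u * β)
      ≤ 1 * (2 * min (α / u) (β / v)) * max (v * α) (u * β) := by (clear * - h1' hα hu hβ hv hD0; gcongr)
    _ = 2 * (max (v * α) (u * β) * min (α / u) (β / v)) := by ring
    _ = 2 * α * β := by rw [h4]; ring

/-- If the sets meet then the shift is well approximated. -/
theorem exists_int_of_inter_nonempty (q r : ℕ) (hq : 0 < q) (a b α β : ℝ)
    (hne : volume (arcSet q a α ∩ arcSet r b β) ≠ 0) :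
    ∃ m : ℤ, |(m : ℝ) - ((r / Nat.gcd q r : ℕ) * a - (q / Nat.gcd q r : ℕ) * b)|
      < (r / Nat.gcd q r : ℕ) * α + (q / Nat.gcd q r : ℕ) * β := by
  have hg : 0 < Nat.gcd q r := Nat.gcd_pos_of_pos_left _ hq
  rw [arcSet_gcd q r hq] at hne
  have hu : 0 < q / Nat.gcd q r := Nat.div_pos (Nat.gcd_le_left _ hq) hg
  have huv : Nat.Coprime (q / Nat.gcd q r) (r / Nat.gcd q r) := Nat.coprime_div_gcd_div_gcd hg
  generalize q / Nat.gcd q r = u at *
  generalize r / Nat.gcd q r = v at *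
  obtain ⟨c, hc⟩ := arcSet_inter_subset u v hu huv a b α β
  by_contra hcon
  push Not at hcon
  apply hne
  have : arcSet u a α ∩ arcSet v b β = ∅ := by
    apply Set.eq_empty_of_subset_empty
    refine hc.trans ?_
    intro y hy
    simp only [mem_iUnion] at hy
    obtain ⟨m, hm, _⟩ := hy
    exact absurd hm (not_lt.mpr (hcon m))
  rw [this, measure_empty]

end Vale.P028
end

section

/-!
# Full measure of a limsup set from a global second moment bound
-/

namespace Vale.P028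

open MeasureTheory Set Filter Topology

/-- Weak convergence in a Hilbert space can be tested on a Hilbert basis. -/
theorem weak_conv {H : Type*} [NormedAddCommGroup H] [InnerProductSpace ℂ H] {ι : Type*}
    (b : HilbertBasis ι ℂ H) (f : ℕ → H) (f0 : H) (C : ℝ)
    (hC : ∀ j, ‖f j‖ ≤ C)
    (hconv : ∀ n, Tendsto (fun j => inner ℂ (f j) (b n)) atTop (𝓝 (inner ℂ f0 (b n)))) (g : H) :
    Tendsto (fun j => inner ℂ (f j) g) atTop (𝓝 (inner ℂ f0 g)) := by
  have key : ∀ p ∈ Submodule.span ℂ (range b),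
      Tendsto (fun j => inner ℂ (f j) p) atTop (𝓝 (inner ℂ f0 p)) := by
    intro p hp
    induction hp using Submodule.span_induction with
    | mem x hx =>
      obtain ⟨n, rfl⟩ := hx
      exact hconv n
    | zero => simp
    | add x y _ _ hx hy =>
      simp only [inner_add_right]
      exact hx.add hy
    | smul a x _ hx =>
      simp only [inner_smul_right]
      exact hx.const_mul a
  have hC0 : 0 ≤ C := (norm_nonneg _).trans (hC 0)
  rw [Metric.tendsto_atTop]
  intro ε hε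
  set δ : ℝ := ε / (2 * (C + ‖f0‖ + 1)) with hδ
  have hδ0 : 0 < δ := by (clear * - hε hC0; positivity)
  have hg : g ∈ closure ((Submodule.span ℂ (range b) : Submodule ℂ H) : Set H) := by
    have h := b.dense_span
    have h2 : g ∈ ((Submodule.span ℂ (range b)).topologicalClosure : Set H) := by
      rw [h]; trivial
    exact h2
  obtain ⟨p, hp, hgp⟩ := Metric.mem_closure_iff.mp hg δ hδ0
  obtain ⟨J, hJ⟩ := (Metric.tendsto_atTop.mp (key p hp)) (ε / 2) (by positivity)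
  refine ⟨J, fun j hj => ?_⟩
  have h1 := hJ j hj
  rw [dist_eq_norm] at h1 hgp ⊢
  have e : inner ℂ (f j) g - inner ℂ f0 g
      = (inner ℂ (f j) p - inner ℂ f0 p) + (inner ℂ (f j) (g - p) - inner ℂ f0 (g - p)) := by
    rw [inner_sub_right, inner_sub_right]; ring
  rw [e]
  have h2 : ‖inner ℂ (f j) (g - p)‖ ≤ C * δ :=
    (norm_inner_le_norm _ _).trans (mul_le_mul (hC j) hgp.le (norm_nonneg _) hC0)
  have h3 : ‖inner ℂ f0 (g - p)‖ ≤ ‖f0‖ * δ :=
    (norm_inner_le_norm _ _).trans (mul_le_mul le_rfl hgp.le (norm_nonneg _) (norm_nonneg _))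
  have h4 : (C + ‖f0‖) * δ < ε / 2 := by
    rw [hδ, mul_div_assoc', div_lt_iff₀ (by positivity)]
    nlinarith only [hε]
  calc ‖(inner ℂ (f j) p - inner ℂ f0 p) + (inner ℂ (f j) (g - p) - inner ℂ f0 (g - p))‖
      ≤ ‖inner ℂ (f j) p - inner ℂ f0 p‖ + (‖inner ℂ (f j) (g - p)‖ + ‖inner ℂ f0 (g - p)‖) :=
        (norm_add_le _ _).trans (add_le_add le_rfl (norm_sub_le _ _))
    _ ≤ ‖inner ℂ (f j) p - inner ℂ f0 p‖ + (C * δ + ‖f0‖ * δ) := by (clear * - h2 h3; gcongr)
    _ < ε := by linarith only [h1, h4]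

/-- The general principle: nonnegative bounded test functions supported on tails, bounded in `L²`,
of mean tending to one and with vanishing nonzero Fourier coefficients, force full measure. -/
theorem ae_infinite_of_test (A : ℕ → Set UnitAddCircle) (F : ℕ → UnitAddCircle → ℝ)
    (hA : ∀ q, MeasurableSet (A q))
    (hFm : ∀ j, Measurable (F j)) (B : ℕ → ℝ) (hFb : ∀ j x, |F j x| ≤ B j)
    (hsupp : ∀ j x, F j x ≠ 0 → ∃ q, j ≤ q ∧ x ∈ A q)
    (C : ℝ) (h2 : ∀ j, ∫ x, (F j x) ^ 2 ≤ C)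
    (h1 : Tendsto (fun j => ∫ x, F j x) atTop (𝓝 1))
    (hfour : ∀ n : ℤ, n ≠ 0 → Tendsto (fun j => ∫ x, (F j x : ℂ) * fourier n x) atTop (𝓝 0)) :
    ∀ᵐ x : UnitAddCircle, {q | x ∈ A q}.Infinite := by
  have hvol : (volume : Measure UnitAddCircle) = AddCircle.haarAddCircle := by
    rw [AddCircle.volume_eq_smul_haarAddCircle]; simp
  have hprob : IsProbabilityMeasure (volume : Measure UnitAddCircle) := by
    rw [hvol]; infer_instance
  simp only [hvol] at h1 h2 hfour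
  rw [hvol]
  -- the L² elements
  have hmem : ∀ j, MemLp (fun x => (F j x : ℂ)) 2 (AddCircle.haarAddCircle (T := 1)) := by
    intro j
    apply MemLp.of_bound (Complex.measurable_ofReal.comp (hFm j)).aestronglyMeasurable (B j)
    filter_upwards with x
    change ‖((F j x : ℝ) : ℂ)‖ ≤ B j
    rw [Complex.norm_real, Real.norm_eq_abs]
    exact hFb j x
  have hint : ∀ j, Integrable (F j) (AddCircle.haarAddCircle (T := 1)) := by
    intro j
    apply Integrable.of_bound (hFm j).aestronglyMeasurable (B j)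
    filter_upwards with x
    rw [Real.norm_eq_abs]
    exact hFb j x
  set f : ℕ → Lp ℂ 2 (AddCircle.haarAddCircle (T := 1)) := fun j => (hmem j).toLp with hf
  have hone : MemLp (fun _ : UnitAddCircle => (1 : ℂ)) 2 (AddCircle.haarAddCircle (T := 1)) :=
    memLp_const _
  set f0 : Lp ℂ 2 (AddCircle.haarAddCircle (T := 1)) := hone.toLp with hf0
  -- inner products as integrals
  have hinner : ∀ j (g : Lp ℂ 2 (AddCircle.haarAddCircle (T := 1))),
      inner ℂ (f j) g = ∫ x, (F j x : ℂ) * g x ∂(AddCircle.haarAddCircle (T := 1)) := by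
    intro j g
    rw [L2.inner_def]
    apply integral_congr_ae
    filter_upwards [(hmem j).coeFn_toLp] with x hx
    simp only [hf, hx]
    simp only [RCLike.inner_apply, Complex.conj_ofReal, mul_comm]
  have hinner0 : ∀ (g : Lp ℂ 2 (AddCircle.haarAddCircle (T := 1))),
      inner ℂ f0 g = ∫ x, g x ∂(AddCircle.haarAddCircle (T := 1)) := by
    intro g
    rw [L2.inner_def]
    apply integral_congr_ae
    filter_upwards [hone.coeFn_toLp] with x hx
    simp only [hf0, hx]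
    simp only [RCLike.inner_apply, map_one, mul_one]
  have hnorm : ∀ j, ‖f j‖ ≤ Real.sqrt C := by
    intro j
    apply Real.le_sqrt_of_sq_le
    have e : ((‖f j‖ ^ 2 : ℝ) : ℂ) = inner ℂ (f j) (f j) := by
      rw [inner_self_eq_norm_sq_to_K]; norm_cast
    have e2 : inner ℂ (f j) (f j)
        = ((∫ x, (F j x) ^ 2 ∂(AddCircle.haarAddCircle (T := 1)) : ℝ) : ℂ) := by
      rw [hinner, ← integral_complex_ofReal]
      apply integral_congr_ae
      filter_upwards [(hmem j).coeFn_toLp] with x hx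
      simp only [hf, hx]
      push_cast
      ring
    rw [e2] at e
    have e3 : ‖f j‖ ^ 2 = ∫ x, (F j x) ^ 2 ∂(AddCircle.haarAddCircle (T := 1)) := by
      exact_mod_cast e
    rw [e3]
    exact h2 j
  have hweak := weak_conv (fourierBasis (T := 1)) f f0 (Real.sqrt C) hnorm (by
    intro n
    rw [coe_fourierBasis, hinner0]
    have e0 : (∫ x, (fourierLp 2 n : Lp ℂ 2 (AddCircle.haarAddCircle (T := 1))) x
        ∂(AddCircle.haarAddCircle (T := 1))) = if n = 0 then 1 else 0 := by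
      have h := fourierCoeff_fourier (T := 1) n
      have h' := congrFun h 0
      rw [fourierCoeff] at h'
      have e : (∫ x, (fourierLp 2 n : Lp ℂ 2 (AddCircle.haarAddCircle (T := 1))) x
        ∂(AddCircle.haarAddCircle (T := 1)))
          = ∫ x, fourier n x ∂(AddCircle.haarAddCircle (T := 1)) := by
        apply integral_congr_ae
        filter_upwards [coeFn_fourierLp (T := 1) 2 n] with x hx
        rw [hx]
      rw [e]
      simp only [neg_zero, fourier_zero, one_smul] at h'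
      rw [h']
      simp only [Pi.single_apply, eq_comm]
    have e1 : ∀ j, inner ℂ (f j) (fourierLp 2 n : Lp ℂ 2 (AddCircle.haarAddCircle (T := 1)))
        = ∫ x, (F j x : ℂ) * fourier n x ∂(AddCircle.haarAddCircle (T := 1)) := by
      intro j
      rw [hinner]
      apply integral_congr_ae
      filter_upwards [coeFn_fourierLp (T := 1) 2 n] with x hx
      rw [hx]
    simp only [e1, e0]
    split_ifs with hn
    · subst hn
      have : ∀ j, (∫ x, (F j x : ℂ) * fourier 0 x ∂(AddCircle.haarAddCircle (T := 1)))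
          = ((∫ x, F j x ∂(AddCircle.haarAddCircle (T := 1)) : ℝ) : ℂ) := by
        intro j
        rw [← integral_complex_ofReal]
        congr 1
        ext x
        simp only [fourier_apply, zero_smul, AddCircle.toCircle_zero, Circle.coe_one, mul_one]
      simp only [this]
      exact_mod_cast (Complex.continuous_ofReal.tendsto 1).comp h1
    · exact hfour n hn)
  -- the set of points lying in no `A q`, `q ≥ N`, is null
  have hnull : ∀ N : ℕ, (AddCircle.haarAddCircle (T := 1)) {x | ∀ q, N ≤ q → x ∉ A q} = 0 := by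
    intro N
    have hmeas : MeasurableSet {x | ∀ q, N ≤ q → x ∉ A q} := by
      have e : {x | ∀ q, N ≤ q → x ∉ A q} = ⋂ q, ⋂ (_ : N ≤ q), (A q)ᶜ := by
        ext x; simp only [mem_ofPred_eq, mem_iInter, mem_compl_iff]
      rw [e]
      exact MeasurableSet.iInter fun q => MeasurableSet.iInter fun _ => (hA q).compl
    set E : Set UnitAddCircle := {x | ∀ q, N ≤ q → x ∉ A q} with hE
    have hgm : MemLp (E.indicator (fun _ => (1 : ℂ))) 2 (AddCircle.haarAddCircle (T := 1)) :=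
      (memLp_const _).indicator hmeas
    have hw := hweak hgm.toLp
    have e0 : inner ℂ f0 (hgm.toLp) = (((AddCircle.haarAddCircle (T := 1)).real E : ℝ) : ℂ) := by
      rw [hinner0]
      have : (∫ x, (hgm.toLp : Lp ℂ 2 (AddCircle.haarAddCircle (T := 1))) x
          ∂(AddCircle.haarAddCircle (T := 1)))
          = ∫ x, E.indicator (fun _ => (1 : ℂ)) x ∂(AddCircle.haarAddCircle (T := 1)) := by
        apply integral_congr_ae
        exact hgm.coeFn_toLp
      rw [this, integral_indicator hmeas, setIntegral_const]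
      simp only [Complex.real_smul, mul_one]
    have e1 : ∀ j, N ≤ j → inner ℂ (f j) (hgm.toLp) = 0 := by
      intro j hj
      rw [hinner]
      rw [integral_eq_zero_of_ae]
      filter_upwards [hgm.coeFn_toLp] with x hx
      rw [hx]
      by_cases hxE : x ∈ E
      · have : F j x = 0 := by
          by_contra hne
          obtain ⟨q, hq, hxq⟩ := hsupp j x hne
          exact hxE q (hj.trans hq) hxq
        simp [this]
      · simp [Set.indicator_of_notMem hxE]
    have hlim : Tendsto (fun j => inner ℂ (f j) (hgm.toLp)) atTop (𝓝 (0 : ℂ)) := by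
      apply tendsto_const_nhds.congr'
      filter_upwards [eventually_ge_atTop N] with j hj
      exact (e1 j hj).symm
    have := tendsto_nhds_unique hw hlim
    rw [e0] at this
    have h0 : (AddCircle.haarAddCircle (T := 1)).real E = 0 := by exact_mod_cast this
    rwa [measureReal_eq_zero_iff] at h0
  rw [ae_iff]
  have hsub : {x | ¬ {q | x ∈ A q}.Infinite} ⊆ ⋃ N : ℕ, {x | ∀ q, N ≤ q → x ∉ A q} := by
    intro x hx
    have hfin : {q | x ∈ A q}.Finite := not_infinite.mp hx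
    obtain ⟨N, hN⟩ := hfin.bddAbove
    rw [mem_iUnion]
    refine ⟨N + 1, fun q hq hxq => ?_⟩
    have := hN hxq
    omega
  exact measure_mono_null hsub (measure_iUnion_null hnull)

end Vale.P028
end

section

/-!
# The block criterion: a global second moment bound on arbitrarily late finite blocks gives
full measure
-/

namespace Vale.P028

open MeasureTheory Set Filter Topology

instance : IsProbabilityMeasure (volume : Measure UnitAddCircle) := by
  have hvol : (volume : Measure UnitAddCircle) = AddCircle.haarAddCircle := by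
    rw [AddCircle.volume_eq_smul_haarAddCircle]; simp
  rw [hvol]; infer_instance

theorem fourier_inv_ne_one (q : ℕ) (hq : 0 < q) (n : ℤ) (hn : ¬ (q : ℤ) ∣ n) :
    fourier (T := 1) n (((1 / q : ℝ)) : UnitAddCircle) ≠ 1 := by
  intro h
  rw [fourier_coe_apply] at h
  rw [Complex.exp_eq_one_iff] at h
  obtain ⟨m, hm⟩ := h
  apply hn
  have hqC : (q : ℂ) ≠ 0 := by exact_mod_cast hq.ne'
  have hpi : (2 * Real.pi * Complex.I : ℂ) ≠ 0 := Complex.two_pi_I_ne_zero
  have h1 : (n : ℂ) = m * q := by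
    have h2 : (2 * Real.pi * Complex.I : ℂ) * ((n : ℂ) / q) = (2 * Real.pi * Complex.I) * m := by
      rw [mul_comm (2 * (Real.pi : ℂ) * Complex.I) (m : ℂ), ← hm]
      push_cast
      (clear * - hqC; field_simp)
    have h3 := mul_left_cancel₀ hpi h2
    rw [div_eq_iff hqC] at h3
    exact h3
  have h4 : n = m * q := by exact_mod_cast h1
  exact ⟨m, by rw [h4]; ring⟩

theorem integral_mul_fourier_eq_zero (q : ℕ) (hq : 0 < q) (g : UnitAddCircle → ℂ)
    (hinv : ∀ x, g (x + ((1 / q : ℝ) : UnitAddCircle)) = g x) (n : ℤ) (hn : ¬ (q : ℤ) ∣ n) :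
    ∫ x, g x * fourier n x = 0 := by
  have h1 := integral_add_right_eq_self (μ := (volume : Measure UnitAddCircle))
    (fun x => g x * fourier n x) (((1 / q : ℝ)) : UnitAddCircle)
  have h2 : ∀ x : UnitAddCircle, g (x + ((1 / q : ℝ) : UnitAddCircle)) *
      fourier n (x + ((1 / q : ℝ) : UnitAddCircle))
      = (g x * fourier n x) * fourier n (((1 / q : ℝ)) : UnitAddCircle) := by
    intro x
    rw [hinv]
    have : fourier (T := 1) n (x + ((1 / q : ℝ) : UnitAddCircle))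
        = fourier n x * fourier n (((1 / q : ℝ)) : UnitAddCircle) := by
      simp only [fourier_apply, smul_add, AddCircle.toCircle_add, Circle.coe_mul]
    rw [this]; ring
  simp only [h2] at h1
  rw [integral_mul_const] at h1
  have h3 := fourier_inv_ne_one q hq n hn
  have h4 : (∫ x : UnitAddCircle, g x * fourier n x) *
      (fourier n (((1 / q : ℝ)) : UnitAddCircle) - 1) = 0 := by
    rw [mul_sub, h1]; ring
  rcases mul_eq_zero.mp h4 with h | h
  · exact h
  · exact absurd (sub_eq_zero.mp h) h3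

theorem arcSet_add_inv (q : ℕ) (hq : 0 < q) (a α : ℝ) (x : UnitAddCircle) :
    x + ((1 / q : ℝ) : UnitAddCircle) ∈ arcSet q a α ↔ x ∈ arcSet q a α := by
  have : q • (x + ((1 / q : ℝ) : UnitAddCircle)) = q • x := by
    rw [nsmul_add, ← AddCircle.coe_nsmul]
    have h : ((q • (1 / q : ℝ) : ℝ) : UnitAddCircle) = 0 := by
      rw [AddCircle.coe_eq_zero_iff]
      refine ⟨1, ?_⟩
      have : (q : ℝ) ≠ 0 := by exact_mod_cast hq.ne'
      simp only [one_smul, nsmul_eq_mul]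
      field_simp
    rw [h, add_zero]
  change ‖q • (x + ((1 / q : ℝ) : UnitAddCircle)) - (a : UnitAddCircle)‖ < α ↔
    ‖q • x - (a : UnitAddCircle)‖ < α
  rw [this]

/-- The measure of `arcSet`. -/
theorem volume_arcSet (q : ℕ) (hq : 0 < q) (a α : ℝ) :
    volume (arcSet q a α) = ENNReal.ofReal (min 1 (2 * α)) := by
  have hmp : MeasurePreserving (fun y : UnitAddCircle => (q : ℤ) • y)
      volume volume := MeasureTheory.Measure.measurePreserving_zsmul volume (by exact_mod_cast hq.ne')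
  have h := hmp.measure_preimage (s := Metric.ball ((a : UnitAddCircle)) α)
    Metric.isOpen_ball.measurableSet.nullMeasurableSet
  have e : arcSet q a α = (fun y : UnitAddCircle => (q : ℤ) • y) ⁻¹'
      (Metric.ball ((a : UnitAddCircle)) α) := by
    ext y
    simp only [arcSet, mem_ofPred_eq, natCast_zsmul, mem_preimage, Metric.mem_ball, dist_eq_norm]
  rw [e, h, ← AddCircle.volume_closedBall (T := 1) (x := (a : UnitAddCircle))]
  exact measure_congr AddCircle.closedBall_ae_eq_ball.symm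

/-- **Block criterion.** -/
theorem ae_infinite_of_blocks (a α : ℕ → ℝ) (C : ℝ)
    (h : ∀ N : ℕ, ∃ (S : Finset ℕ) (w : ℕ → ℝ), (∀ q ∈ S, N ≤ q) ∧ (∀ q ∈ S, 0 ≤ w q) ∧
      0 < ∑ q ∈ S, w q * (volume : Measure UnitAddCircle).real (arcSet q (a q) (α q)) ∧
      ∑ q ∈ S, ∑ r ∈ S, w q * w r * (volume : Measure UnitAddCircle).real
        (arcSet q (a q) (α q) ∩ arcSet r (a r) (α r)) ≤
      C * (∑ q ∈ S, w q * (volume : Measure UnitAddCircle).real (arcSet q (a q) (α q))) ^ 2) :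
    ∀ᵐ x : UnitAddCircle, {q | 0 < q ∧ x ∈ arcSet q (a q) (α q)}.Infinite := by
  choose S w hS hw hpos hsec using fun N => h (N + 1)
  set A : ℕ → Set UnitAddCircle := fun q => arcSet q (a q) (α q) with hA
  set I : ℕ → ℝ := fun j => ∑ q ∈ S j, w j q * (volume : Measure UnitAddCircle).real (A q) with hI
  set F : ℕ → UnitAddCircle → ℝ := fun j x =>
    (I j)⁻¹ * ∑ q ∈ S j, w j q * (A q).indicator (fun _ => (1 : ℝ)) x with hF
  have hAm : ∀ q, MeasurableSet (A q) := fun q => measurableSet_arcSet _ _ _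
  have hindm : ∀ q, Measurable ((A q).indicator (fun _ => (1 : ℝ))) := fun q =>
    measurable_const.indicator (hAm q)
  have hindi : ∀ q, Integrable ((A q).indicator (fun _ => (1 : ℝ)))
      (volume : Measure UnitAddCircle) := fun q => (integrable_const _).indicator (hAm q)
  have hFm : ∀ j, Measurable (F j) := by
    intro j
    apply Measurable.const_mul
    apply Finset.measurable_fun_sum
    intro q _
    exact (hindm q).const_mul _
  have hvolreal : ∀ B : Set UnitAddCircle, MeasurableSet B →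
      ∫ x, B.indicator (fun _ => (1 : ℝ)) x = (volume : Measure UnitAddCircle).real B := by
    intro B hB
    rw [integral_indicator hB, setIntegral_const]
    simp
  have main := ae_infinite_of_test (fun q => if 0 < q then A q else ∅) F (by
      intro q
      by_cases hq : 0 < q
      · simp only [hq, if_true]; exact hAm q
      · simp only [hq, if_false]; exact MeasurableSet.empty) hFm
    (fun j => (I j)⁻¹ * ∑ q ∈ S j, w j q) (by
      intro j x
      have h0 : 0 ≤ ∑ q ∈ S j, w j q * (A q).indicator (fun _ => (1 : ℝ)) x := by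
        apply Finset.sum_nonneg
        intro q hq
        exact mul_nonneg (hw j q hq) (Set.indicator_nonneg (fun _ _ => zero_le_one) _)
      rw [hF]
      dsimp only
      rw [abs_of_nonneg (mul_nonneg (inv_nonneg.mpr (hpos j).le) h0)]
      apply mul_le_mul_of_nonneg_left _ (inv_nonneg.mpr (hpos j).le)
      apply Finset.sum_le_sum
      intro q hq
      calc w j q * (A q).indicator (fun _ => (1 : ℝ)) x ≤ w j q * 1 := by
            apply mul_le_mul_of_nonneg_left _ (hw j q hq)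
            by_cases hx : x ∈ A q
            · simp [hx]
            · simp only [hx, not_false_eq_true, indicator_of_notMem, zero_le_one]
        _ = w j q := mul_one _) (by
      intro j x hx
      have : ∑ q ∈ S j, w j q * (A q).indicator (fun _ => (1 : ℝ)) x ≠ 0 := by
        intro h0
        apply hx
        rw [hF]
        dsimp only
        rw [h0, mul_zero]
      obtain ⟨q, hq, hq2⟩ := Finset.exists_ne_zero_of_sum_ne_zero this
      have hqN := hS j q hq
      refine ⟨q, by omega, ?_⟩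
      rw [if_pos (by omega)]
      by_contra hxA
      apply hq2
      rw [Set.indicator_of_notMem hxA, mul_zero]) C (by
      intro j
      have e : ∀ x, (F j x) ^ 2 = ((I j)⁻¹) ^ 2 * ∑ q ∈ S j, ∑ r ∈ S j, w j q * w j r *
          ((A q ∩ A r).indicator (fun _ => (1 : ℝ)) x) := by
        intro x
        rw [hF]
        dsimp only
        rw [mul_pow, sq (∑ q ∈ S j, _), Finset.sum_mul_sum]
        congr 1
        apply Finset.sum_congr rfl
        intro q _
        apply Finset.sum_congr rfl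
        intro r _
        by_cases h1 : x ∈ A q <;> by_cases h2 : x ∈ A r <;> simp [h1, h2]
      have hint : ∀ q r, Integrable (fun x => (A q ∩ A r).indicator (fun _ => (1 : ℝ)) x)
          (volume : Measure UnitAddCircle) := fun q r =>
        (integrable_const _).indicator ((hAm q).inter (hAm r))
      simp only [e]
      rw [integral_const_mul, integral_finsetSum _ (fun q _ =>
        integrable_finsetSum _ (fun r _ => (hint q r).const_mul _))]
      have e2 : ∀ q ∈ S j, ∫ x, ∑ r ∈ S j, w j q * w j r *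
          ((A q ∩ A r).indicator (fun _ => (1 : ℝ)) x)
          = ∑ r ∈ S j, w j q * w j r * (volume : Measure UnitAddCircle).real (A q ∩ A r) := by
        intro q _
        rw [integral_finsetSum _ (fun r _ => (hint q r).const_mul _)]
        apply Finset.sum_congr rfl
        intro r _
        rw [integral_const_mul, hvolreal _ ((hAm q).inter (hAm r))]
      rw [Finset.sum_congr rfl e2]
      have h3 := hsec j
      have h4 := hpos j
      calc ((I j)⁻¹) ^ 2 * ∑ q ∈ S j, ∑ r ∈ S j, w j q * w j r *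
            (volume : Measure UnitAddCircle).real (A q ∩ A r)
          ≤ ((I j)⁻¹) ^ 2 * (C * (I j) ^ 2) :=
            mul_le_mul_of_nonneg_left h3 (by (clear * - h4; positivity))
        _ = C := by
            have : I j ≠ 0 := h4.ne'
            (clear * - this; field_simp)) (by
      have e : ∀ j, ∫ x, F j x = 1 := by
        intro j
        rw [hF]
        dsimp only
        rw [integral_const_mul, integral_finsetSum _ (fun q _ => (hindi q).const_mul _)]
        have : ∀ q ∈ S j, ∫ x, w j q * (A q).indicator (fun _ => (1 : ℝ)) x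
            = w j q * (volume : Measure UnitAddCircle).real (A q) := by
          intro q _
          rw [integral_const_mul, hvolreal _ (hAm q)]
        rw [Finset.sum_congr rfl this]
        exact inv_mul_cancel₀ (hpos j).ne'
      simp only [e]
      exact tendsto_const_nhds) (by
      intro n hn
      apply tendsto_const_nhds.congr'
      filter_upwards [eventually_ge_atTop n.natAbs] with j hj
      symm
      have e : ∀ x, (F j x : ℂ) * fourier n x = ((I j)⁻¹ : ℂ) * ∑ q ∈ S j, (w j q : ℂ) *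
          ((((A q).indicator (fun _ => (1 : ℝ)) x : ℝ) : ℂ) * fourier n x) := by
        intro x
        rw [hF]
        push_cast
        rw [mul_assoc, Finset.sum_mul]
        congr 1
        apply Finset.sum_congr rfl
        intro q _
        ring
      simp only [e]
      rw [integral_const_mul, integral_finsetSum]
      · have : ∀ q ∈ S j, ∫ x, (w j q : ℂ) *
            ((((A q).indicator (fun _ => (1 : ℝ)) x : ℝ) : ℂ) * fourier n x) = 0 := by
          intro q hq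
          have hqN := hS j q hq
          rw [integral_const_mul, integral_mul_fourier_eq_zero q (by omega)
            (fun x => (((A q).indicator (fun _ => (1 : ℝ)) x : ℝ) : ℂ)) _ n, mul_zero]
          · intro hdvd
            have := Int.natAbs_dvd_natAbs.mpr hdvd
            rw [Int.natAbs_natCast] at this
            have h5 := Nat.le_of_dvd (Int.natAbs_pos.mpr hn) this
            omega
          · intro x
            have h6 := arcSet_add_inv q (by omega) (a q) (α q) x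
            by_cases hx : x ∈ A q
            · have hx' : x + ((1 / q : ℝ) : UnitAddCircle) ∈ A q := h6.mpr hx
              rw [Set.indicator_of_mem hx, Set.indicator_of_mem hx']
            · have hx' : x + ((1 / q : ℝ) : UnitAddCircle) ∉ A q := fun h => hx (h6.mp h)
              rw [Set.indicator_of_notMem hx, Set.indicator_of_notMem hx']
        rw [Finset.sum_eq_zero this, mul_zero]
      · intro q _
        apply Integrable.const_mul
        apply Integrable.of_bound (C := 1)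
        · exact ((Complex.measurable_ofReal.comp (hindm q)).mul
            (fourier n).continuous.measurable).aestronglyMeasurable
        · filter_upwards with x
          rw [norm_mul]
          have h7 : ‖fourier (T := 1) n x‖ = 1 := by
            rw [fourier_apply]; exact Circle.norm_coe _
          rw [h7, mul_one, Complex.norm_real]
          by_cases hx : x ∈ A q
          · rw [Set.indicator_of_mem hx]; simp
          · rw [Set.indicator_of_notMem hx]; simp only [norm_zero, zero_le_one])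
  filter_upwards [main] with x hx
  apply hx.mono
  intro q hq
  simp only [mem_ofPred_eq] at hq ⊢
  by_cases hq0 : 0 < q
  · rw [if_pos hq0] at hq
    exact ⟨hq0, hq⟩
  · rw [if_neg hq0] at hq
    exact absurd hq (Set.notMem_empty _)

end Vale.P028
end

section

/-!
# From the circle to the line
-/

namespace Vale.P028

open MeasureTheory Set Filter Topology

/-- The distance from `t` to the nearest integer. -/
noncomputable def distInt (t : ℝ) : ℝ := |t - round t|

/-- `W γ ψ` is the set of real `x` such that `‖q x - γ‖ < ψ q` for infinitely many positive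
integers `q`, where `‖·‖` is the distance to the nearest integer. -/
def W (γ : ℝ) (ψ : ℕ → ℝ) : Set ℝ :=
  {x : ℝ | {q : ℕ | 0 < q ∧ distInt (q * x - γ) < ψ q}.Infinite}

theorem ae_real_of_ae_circle {P : UnitAddCircle → Prop} (h : ∀ᵐ x : UnitAddCircle, P x) :
    ∀ᵐ x : ℝ, P (x : UnitAddCircle) := by
  have h1 : ∀ n : ℤ, ∀ᵐ x : ℝ ∂(volume.restrict (Ioc (n : ℝ) (n + 1))), P (x : UnitAddCircle) := by
    intro n
    exact (UnitAddCircle.measurePreserving_mk (n : ℝ)).quasiMeasurePreserving.ae h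
  have h2 : ∀ᵐ x : ℝ ∂(volume.restrict (⋃ n : ℤ, Ioc (n : ℝ) (n + 1))),
      P (x : UnitAddCircle) := by
    rw [ae_restrict_iUnion_iff]
    exact h1
  rwa [iUnion_Ioc_intCast, Measure.restrict_univ] at h2

theorem mem_arcSet_coe (q : ℕ) (a α x : ℝ) :
    (x : UnitAddCircle) ∈ arcSet q a α ↔ distInt (q * x - a) < α := by
  change ‖q • (x : UnitAddCircle) - (a : UnitAddCircle)‖ < α ↔ _
  rw [← AddCircle.coe_nsmul, ← AddCircle.coe_sub, UnitAddCircle.norm_eq, nsmul_eq_mul, distInt]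

theorem volume_compl_W_eq_zero (γ : ℝ) (ψ : ℕ → ℝ)
    (h : ∀ᵐ x : UnitAddCircle, {q | 0 < q ∧ x ∈ arcSet q γ (ψ q)}.Infinite) :
    volume (W γ ψ)ᶜ = 0 := by
  have h1 := ae_real_of_ae_circle h
  have h2 : ∀ᵐ x : ℝ, x ∈ W γ ψ := by
    filter_upwards [h1] with x hx
    have e : {q : ℕ | 0 < q ∧ (x : UnitAddCircle) ∈ arcSet q γ (ψ q)}
        = {q : ℕ | 0 < q ∧ distInt (q * x - γ) < ψ q} := by
      ext q
      simp only [mem_ofPred_eq, mem_arcSet_coe]
    rw [e] at hx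
    exact hx
  exact mem_ae_iff.mp h2

/-- Second moment criterion, everything in terms of real sums.  `D(q,r)` is
`max (r ψ(q), q ψ(r)) / gcd (q,r)`; only pairs with `D < 1/4` for which `(r-q)/gcd(q,r) * γ` is
within `2 D` of an integer matter. -/
theorem fullMeasure_of_blocks (γ : ℝ) (ψ : ℕ → ℝ) (C : ℝ) (hC : 0 ≤ C)
    (h : ∀ N : ℕ, ∃ (S : Finset ℕ) (w : ℕ → ℝ), (∀ q ∈ S, N ≤ q ∧ 0 < ψ q ∧ ψ q ≤ 1 / 2) ∧
      (∀ q ∈ S, 0 ≤ w q) ∧ 0 < ∑ q ∈ S, w q * ψ q ∧
      ∀ T : Finset (ℕ × ℕ), (∀ p ∈ T, p.1 ∈ S ∧ p.2 ∈ S ∧ DD p.1 p.2 (ψ p.1) (ψ p.2) < 1 / 4 ∧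
        ∃ m : ℤ, |(m : ℝ) - (((p.2 / Nat.gcd p.1 p.2 : ℕ) : ℝ) - (p.1 / Nat.gcd p.1 p.2 : ℕ)) * γ|
          < 2 * DD p.1 p.2 (ψ p.1) (ψ p.2)) →
      ∑ p ∈ T, w p.1 * w p.2 * (ψ p.1 * ψ p.2 / DD p.1 p.2 (ψ p.1) (ψ p.2)) ≤
      C * (∑ q ∈ S, w q * ψ q) ^ 2) :
    volume (W γ ψ)ᶜ = 0 := by
  apply volume_compl_W_eq_zero
  apply ae_infinite_of_blocks (fun _ => γ) ψ (4 + C)
  intro N
  obtain ⟨S, w, hS, hw, hpos, hT⟩ := h (N + 1)
  have hvol : ∀ q ∈ S, (volume : Measure UnitAddCircle).real (arcSet q γ (ψ q)) = 2 * ψ q := by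
    intro q hq
    obtain ⟨h1, h2, h3⟩ := hS q hq
    rw [Measure.real, volume_arcSet q (by omega), min_eq_right (by linarith only [h3]),
      ENNReal.toReal_ofReal (by linarith only [h2])]
  have hsum : ∑ q ∈ S, w q * (volume : Measure UnitAddCircle).real (arcSet q γ (ψ q))
      = 2 * ∑ q ∈ S, w q * ψ q := by
    rw [Finset.mul_sum]
    apply Finset.sum_congr rfl
    intro q hq
    rw [hvol q hq]; ring
  refine ⟨S, w, fun q hq => by have := (hS q hq).1; omega, hw, by rw [hsum]; linarith only [hpos], ?_⟩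
  rw [hsum]
  classical
  set T : Finset (ℕ × ℕ) := (S ×ˢ S).filter (fun p => DD p.1 p.2 (ψ p.1) (ψ p.2) < 1 / 4 ∧
        ∃ m : ℤ, |(m : ℝ) - (((p.2 / Nat.gcd p.1 p.2 : ℕ) : ℝ) - (p.1 / Nat.gcd p.1 p.2 : ℕ)) * γ|
          < 2 * DD p.1 p.2 (ψ p.1) (ψ p.2)) with hTdef
  have hTb := hT T (by
    intro p hp
    rw [hTdef, Finset.mem_filter, Finset.mem_product] at hp
    exact ⟨hp.1.1, hp.1.2, hp.2.1, hp.2.2⟩)
  have hDpos : ∀ q ∈ S, ∀ r ∈ S, 0 < DD q r (ψ q) (ψ r) := by
    intro q hq r hr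
    obtain ⟨h1, h2, _⟩ := hS q hq
    obtain ⟨h3, h4, _⟩ := hS r hr
    have hg : 0 < Nat.gcd q r := Nat.gcd_pos_of_pos_left _ (by omega)
    have hrR : (0 : ℝ) < r := by exact_mod_cast (by omega : 0 < r)
    rw [DD]
    apply div_pos _ (by exact_mod_cast hg)
    exact lt_max_of_lt_left (mul_pos hrR h2)
  have hpair : ∀ q ∈ S, ∀ r ∈ S,
      (volume : Measure UnitAddCircle).real (arcSet q γ (ψ q) ∩ arcSet r γ (ψ r))
      ≤ 16 * (ψ q * ψ r) + (if (q, r) ∈ T then 2 * (ψ q * ψ r / DD q r (ψ q) (ψ r)) else 0) := by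
    intro q hq r hr
    obtain ⟨h1, h2, h2'⟩ := hS q hq
    obtain ⟨h3, h4, h4'⟩ := hS r hr
    have hD0 := hDpos q hq r hr
    rcases le_or_gt (1 / 4) (DD q r (ψ q) (ψ r)) with hD | hD
    · have := volume_inter_le_of_quarter_le q r (by omega) (by omega) γ γ (ψ q) (ψ r) h2.le h4.le hD
      have h5 : (volume : Measure UnitAddCircle).real (arcSet q γ (ψ q) ∩ arcSet r γ (ψ r))
          ≤ 16 * ψ q * ψ r := ENNReal.toReal_le_of_le_ofReal (by (clear * - h2 h4; positivity)) this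
      have h6 : 0 ≤ (if (q, r) ∈ T then 2 * (ψ q * ψ r / DD q r (ψ q) (ψ r)) else 0) := by
        split_ifs
        · (clear * - h2 h4 hD0; positivity)
        · exact le_rfl
      linarith only [h5, h6]
    · by_cases hT' : (q, r) ∈ T
      · rw [if_pos hT']
        have := volume_inter_le_of_lt_quarter q r (by omega) (by omega) γ γ (ψ q) (ψ r) h2.le h4.le
          hD0 hD
        have h5 : (volume : Measure UnitAddCircle).real (arcSet q γ (ψ q) ∩ arcSet r γ (ψ r))
            ≤ 2 * ψ q * ψ r / DD q r (ψ q) (ψ r) :=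
          ENNReal.toReal_le_of_le_ofReal (by (clear * - h2 h4 hD0; positivity)) this
        have h6 : 2 * ψ q * ψ r / DD q r (ψ q) (ψ r) = 2 * (ψ q * ψ r / DD q r (ψ q) (ψ r)) := by
          ring
        have h7 : 0 ≤ ψ q * ψ r := by (clear * - h2 h4; positivity)
        linarith only [h5, h6, h7]
      · rw [if_neg hT']
        have h0 : volume (arcSet q γ (ψ q) ∩ arcSet r γ (ψ r)) = 0 := by
          by_contra hne
          apply hT'
          rw [hTdef, Finset.mem_filter, Finset.mem_product]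
          refine ⟨⟨hq, hr⟩, hD, ?_⟩
          obtain ⟨m, hm⟩ := exists_int_of_inter_nonempty q r (by omega) γ γ (ψ q) (ψ r) hne
          refine ⟨m, ?_⟩
          dsimp only
          have e : (m : ℝ) - (((r / Nat.gcd q r : ℕ) : ℝ) - (q / Nat.gcd q r : ℕ)) * γ
              = (m : ℝ) - ((r / Nat.gcd q r : ℕ) * γ - (q / Nat.gcd q r : ℕ) * γ) := by ring
          rw [e]
          refine hm.trans_le ?_
          rw [DD_eq q r (by omega)]
          have h5 := le_max_left (((r / Nat.gcd q r : ℕ) : ℝ) * ψ q)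
            (((q / Nat.gcd q r : ℕ) : ℝ) * ψ r)
          have h6 := le_max_right (((r / Nat.gcd q r : ℕ) : ℝ) * ψ q)
            (((q / Nat.gcd q r : ℕ) : ℝ) * ψ r)
          linarith only [h5, h6]
        have h5 : (volume : Measure UnitAddCircle).real (arcSet q γ (ψ q) ∩ arcSet r γ (ψ r)) = 0 := by
          rw [Measure.real, h0]; rfl
        rw [h5]
        (clear * - h2 h4; positivity)
  calc ∑ q ∈ S, ∑ r ∈ S, w q * w r * (volume : Measure UnitAddCircle).real
        (arcSet q γ (ψ q) ∩ arcSet r γ (ψ r))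
      ≤ ∑ q ∈ S, ∑ r ∈ S, w q * w r * (16 * (ψ q * ψ r) +
        (if (q, r) ∈ T then 2 * (ψ q * ψ r / DD q r (ψ q) (ψ r)) else 0)) := by
        apply Finset.sum_le_sum
        intro q hq
        apply Finset.sum_le_sum
        intro r hr
        exact mul_le_mul_of_nonneg_left (hpair q hq r hr) (mul_nonneg (hw q hq) (hw r hr))
    _ = 16 * (∑ q ∈ S, w q * ψ q) ^ 2 + 2 * ∑ p ∈ T, w p.1 * w p.2 *
        (ψ p.1 * ψ p.2 / DD p.1 p.2 (ψ p.1) (ψ p.2)) := by
        simp only [mul_add, Finset.sum_add_distrib]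
        congr 1
        · rw [sq, Finset.sum_mul_sum, Finset.mul_sum]
          apply Finset.sum_congr rfl
          intro q _
          rw [Finset.mul_sum]
          apply Finset.sum_congr rfl
          intro r _
          ring
        · have hTs : T ⊆ S ×ˢ S := Finset.filter_subset _ _
          have e1 : ∑ p ∈ T, w p.1 * w p.2 * (ψ p.1 * ψ p.2 / DD p.1 p.2 (ψ p.1) (ψ p.2))
              = ∑ p ∈ S ×ˢ S, if p ∈ T then
                w p.1 * w p.2 * (ψ p.1 * ψ p.2 / DD p.1 p.2 (ψ p.1) (ψ p.2)) else 0 := by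
            rw [Finset.sum_ite_mem, Finset.inter_eq_right.mpr hTs]
          rw [e1, Finset.sum_product, Finset.mul_sum]
          apply Finset.sum_congr rfl
          intro q _
          rw [Finset.mul_sum]
          apply Finset.sum_congr rfl
          intro r _
          split_ifs
          · ring
          · ring
    _ ≤ 16 * (∑ q ∈ S, w q * ψ q) ^ 2 + 2 * (C * (∑ q ∈ S, w q * ψ q) ^ 2) := by (clear * - hTb; gcongr)
    _ ≤ (4 + C) * (2 * ∑ q ∈ S, w q * ψ q) ^ 2 := by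
        have : 0 ≤ C * (∑ q ∈ S, w q * ψ q) ^ 2 := by (clear * - hC hpos; positivity)
        linarith

end Vale.P028
end

section

/-!
# Definitions for the bilinear (l^rho -> l^kappa) method

`θ ∈ (1/2, 1)` is `1/rho`, `1 - θ` is `1/kappa`.
-/

namespace Vale.P028

open Finset

/-- `cofac q r = q / gcd(q,r)`. -/
def cofac (q r : ℕ) : ℕ := q / Nat.gcd q r

/-- `|i - j|` for natural numbers. -/
def ad (i j : ℕ) : ℕ := (i - j) + (j - i)

/-- Edge condition for the pair `(q,r)` in the state `(a,b)`: the gcd is composed of primes of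
`P`, the pair of (multiplied) cofactors is allowed by `Ω`, and the two size conditions hold. -/
def Edge (Ω : ℕ → ℕ → Prop) (P : Finset ℕ) (a b : ℕ) (ψ₁ ψ₂ : ℕ → ℝ) (s₁ s₂ : ℝ) (q r : ℕ) :
    Prop :=
  (∀ p : ℕ, p.Prime → p ∣ Nat.gcd q r → p ∈ P) ∧ Ω (a * cofac q r) (b * cofac r q) ∧
  (b : ℝ) * (cofac r q : ℝ) * ψ₁ q ≤ s₁ ∧ (a : ℝ) * (cofac q r : ℝ) * ψ₂ r ≤ s₂

open Classical in
/-- The bilinear sum over the pairs of `R` in `[1,N]²`. -/
noncomputable def psum (R : ℕ → ℕ → Prop) (N : ℕ) (f h : ℕ → ℝ) : ℝ :=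
  ∑ q ∈ Icc 1 N, ∑ r ∈ Icc 1 N, if R q r then f q * h r else 0

/-- The bilinear sum over the edges. -/
noncomputable def Lam (Ω : ℕ → ℕ → Prop) (P : Finset ℕ) (a b : ℕ) (ψ₁ ψ₂ : ℕ → ℝ) (s₁ s₂ : ℝ)
    (N : ℕ) (f h : ℕ → ℝ) : ℝ :=
  psum (Edge Ω P a b ψ₁ ψ₂ s₁ s₂) N f h

/-- Single prime inequality: for all nonnegative sequences either the exact decomposition into
cells `(i,j)` or, for some `k`, the decomposition into the `L`-shaped cell `min i j = k` and the
remaining exact cells gives the bound `c`. -/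
def SP (θ b x c : ℝ) : Prop :=
  ∀ (N : ℕ) (φ χ : ℕ → ℝ), (∀ i, 0 ≤ φ i) → (∀ i, 0 ≤ χ i) →
    (∑ i ∈ range (N + 1), ∑ j ∈ range (N + 1), b ^ ad i j * (φ i * χ j) ^ θ
      ≤ c * ((∑ i ∈ range (N + 1), φ i) * ∑ j ∈ range (N + 1), χ j) ^ θ) ∨
    ∃ k ≤ N, (if k = 0 then (1 : ℝ) else (1 - x) ^ (2 * (1 - θ))) *
        ((∑ i ∈ Icc k N, φ i) * ∑ j ∈ Icc k N, χ j) ^ θ
      + ∑ i ∈ range (N + 1), ∑ j ∈ range (N + 1),
          (if min i j = k then 0 else b ^ ad i j * (φ i * χ j) ^ θ)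
      ≤ c * ((∑ i ∈ range (N + 1), φ i) * ∑ j ∈ range (N + 1), χ j) ^ θ

/-- Single prime inequality of the tensor theorem. -/
def SPn (θ μ ε c : ℝ) : Prop :=
  ∀ (N : ℕ) (φ χ : ℕ → ℝ) (ν : ℤ → ℝ), (∀ i, 0 ≤ φ i) → (∀ i, 0 ≤ χ i) → (∀ l, 0 ≤ ν l) →
    ∑ i ∈ range (N + 1), ∑ j ∈ range (N + 1),
        ε ^ ad i j * (φ i * χ j) ^ θ * (ν ((i : ℤ) - (j : ℤ))) ^ μ
      ≤ c * ((∑ i ∈ range (N + 1), φ i) * ∑ j ∈ range (N + 1), χ j) ^ θ *
          (∑ l ∈ Icc (-(N : ℤ)) N, ν l) ^ μ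

/-- Base case bound (no prime divides the gcd of an edge). -/
def BaseBound (Ω : ℕ → ℕ → Prop) (θ : ℝ) (K : ℕ → ℕ → ℝ) : Prop :=
  ∀ (a b : ℕ), 0 < a → 0 < b → ∀ (ψ₁ ψ₂ f h : ℕ → ℝ) (s₁ s₂ : ℝ) (N : ℕ),
    0 < s₁ → 0 < s₂ → (∀ q, 0 ≤ f q ∧ f q ≤ ψ₁ q) → (∀ r, 0 ≤ h r ∧ h r ≤ ψ₂ r) →
    Lam Ω ∅ a b ψ₁ ψ₂ s₁ s₂ N f h ≤
      (s₁ * s₂) ^ (1 - θ) * K a b * ((∑ q ∈ Icc 1 N, f q) * ∑ r ∈ Icc 1 N, h r) ^ θ

/-- The pairs `(q,r)` (with `q ≠ r`) that can collide at level `s`: `D(q,r) ≤ s` and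
`‖(u-v)γ‖ < 2 s`, where `u = q/gcd`, `v = r/gcd`. -/
def Rel (γ : ℝ) (ψ : ℕ → ℝ) (s : ℝ) (q r : ℕ) : Prop :=
  cofac q r ≠ cofac r q ∧ (cofac r q : ℝ) * ψ q ≤ s ∧ (cofac q r : ℝ) * ψ r ≤ s ∧
  distInt (((cofac q r : ℝ) - (cofac r q : ℝ)) * γ) < 2 * s

/-- Lower bound for `‖n γ‖`. -/
def Dioph (γ c₀ τ : ℝ) : Prop := ∀ n : ℕ, 0 < n → c₀ * (n : ℝ) ^ (-τ) ≤ distInt (n * γ)

end Vale.P028
end

section

/-!
# From level sets `D ≤ s` to the second moment
-/

namespace Vale.P028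

open Finset

theorem psum_nonneg (R : ℕ → ℕ → Prop) (N : ℕ) (f h : ℕ → ℝ) (hf : ∀ q, 0 ≤ f q)
    (hh : ∀ q, 0 ≤ h q) : 0 ≤ psum R N f h := by
  classical
  unfold psum
  refine sum_nonneg fun q _ => sum_nonneg fun r _ => ?_
  split_ifs
  · exact mul_nonneg (hf q) (hh r)
  · exact le_rfl

theorem psum_mono (R R' : ℕ → ℕ → Prop) (N : ℕ) (f h f' h' : ℕ → ℝ)
    (hf' : ∀ q, 0 ≤ f' q) (hh' : ∀ q, 0 ≤ h' q)
    (H : ∀ q ∈ Icc 1 N, ∀ r ∈ Icc 1 N, R q r → f q * h r ≠ 0 →
      R' q r ∧ f q * h r ≤ f' q * h' r) : psum R N f h ≤ psum R' N f' h' := by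
  classical
  unfold psum
  refine sum_le_sum fun q hq => sum_le_sum fun r hr => ?_
  by_cases h0 : f q * h r = 0
  · have h1 : 0 ≤ (if R' q r then f' q * h' r else 0) := by
      split_ifs
      · exact mul_nonneg (hf' q) (hh' r)
      · exact le_rfl
    rw [h0]
    simpa only [ite_self, ge_iff_le] using h1
  · by_cases hR : R q r
    · obtain ⟨h1, h2⟩ := H q hq r hr hR h0
      rw [if_pos hR, if_pos h1]
      exact h2
    · rw [if_neg hR]
      split_ifs
      · exact mul_nonneg (hf' q) (hh' r)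
      · exact le_rfl

theorem psum_or_le (R R₁ R₂ : ℕ → ℕ → Prop) (N : ℕ) (f h : ℕ → ℝ) (hf : ∀ q, 0 ≤ f q)
    (hh : ∀ q, 0 ≤ h q) (H : ∀ q r, R q r → R₁ q r ∨ R₂ q r) :
    psum R N f h ≤ psum R₁ N f h + psum R₂ N f h := by
  classical
  unfold psum
  rw [← sum_add_distrib]
  refine sum_le_sum fun q _ => ?_
  rw [← sum_add_distrib]
  refine sum_le_sum fun r _ => ?_
  have h0 := mul_nonneg (hf q) (hh r)
  by_cases hR : R q r
  · rcases H q r hR with h1 | h1
    · rw [if_pos hR, if_pos h1]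
      split_ifs <;> linarith
    · rw [if_pos hR, if_pos h1]
      split_ifs <;> linarith
  · rw [if_neg hR]
    split_ifs <;> linarith

theorem sum_le_psum (R : ℕ → ℕ → Prop) (N : ℕ) (f h : ℕ → ℝ) (hf : ∀ q, 0 ≤ f q)
    (hh : ∀ q, 0 ≤ h q) (T : Finset (ℕ × ℕ))
    (hT : ∀ p ∈ T, p.1 ∈ Icc 1 N ∧ p.2 ∈ Icc 1 N ∧ R p.1 p.2) :
    ∑ p ∈ T, f p.1 * h p.2 ≤ psum R N f h := by
  classical
  unfold psum
  rw [← sum_product' (f := fun q r => if R q r then f q * h r else 0)]
  have h1 : ∑ p ∈ T, f p.1 * h p.2 = ∑ p ∈ T, (if R p.1 p.2 then f p.1 * h p.2 else 0) := by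
    refine sum_congr rfl fun p hp => ?_
    rw [if_pos (hT p hp).2.2]
  rw [h1]
  refine sum_le_sum_of_subset_of_nonneg ?_ ?_
  · intro p hp
    rw [mem_product]
    exact ⟨(hT p hp).1, (hT p hp).2.1⟩
  · intro p _ _
    split_ifs
    · exact mul_nonneg (hf _) (hh _)
    · exact le_rfl

theorem eq_of_cofac_eq {q r : ℕ} (h : cofac q r = cofac r q) : q = r := by
  unfold cofac at h
  have h1 := Nat.div_mul_cancel (Nat.gcd_dvd_left q r)
  have h2 := Nat.div_mul_cancel (Nat.gcd_dvd_left r q)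
  rw [Nat.gcd_comm r q] at h2 h
  calc q = q / q.gcd r * q.gcd r := h1.symm
    _ = r / q.gcd r * q.gcd r := by rw [h]
    _ = r := h2

theorem distInt_le_of_int {t ε : ℝ} (m : ℤ) (h : |(m : ℝ) - t| < ε) : distInt t < ε := by
  unfold distInt
  have h1 := round_le t m
  rw [abs_sub_comm] at h
  linarith only [h, h1]

theorem distInt_neg (t : ℝ) : distInt (-t) = distInt t := by
  unfold distInt
  apply le_antisymm
  · have h1 := round_le (-t) (-(round t))
    push_cast at h1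
    have : |-t - -(round t : ℝ)| = |t - round t| := by
      rw [show -t - -(round t : ℝ) = -(t - round t) by ring, abs_neg]
    rw [this] at h1
    exact h1
  · have h1 := round_le t (-(round (-t)))
    push_cast at h1
    have : |t - -(round (-t) : ℝ)| = |-t - round (-t)| := by
      rw [show t - -(round (-t) : ℝ) = -(-t - round (-t)) by ring, abs_neg]
    rw [this] at h1
    exact h1

/-- Dyadic summation over the levels. -/
theorem dyadic_sum {γ : ℝ} {ψ f : ℕ → ℝ} {N : ℕ} {C c : ℝ} (hC : 0 ≤ C) (hc : 0 < c)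
    (S : Finset ℕ) (hS : ∀ q ∈ S, 0 < q ∧ q ≤ N ∧ 0 < ψ q) (hf0 : ∀ q, 0 ≤ f q)
    (hf : ∀ q, f q ≤ ψ q)
    (hyp : ∀ s : ℝ, 0 < s → s ≤ 1 / 4 →
      psum (fun q r => Rel γ ψ s q r ∧
        s / 2 < max ((cofac r q : ℝ) * ψ q) ((cofac q r : ℝ) * ψ r)) N f f ≤
        C * s ^ (1 + c) * ∑ q ∈ Icc 1 N, f q)
    (T : Finset (ℕ × ℕ)) (hT : ∀ p ∈ T, p.1 ∈ S ∧ p.2 ∈ S ∧ DD p.1 p.2 (ψ p.1) (ψ p.2) < 1 / 4 ∧
        ∃ m : ℤ, |(m : ℝ) - (((p.2 / Nat.gcd p.1 p.2 : ℕ) : ℝ) - (p.1 / Nat.gcd p.1 p.2 : ℕ)) * γ|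
          < 2 * DD p.1 p.2 (ψ p.1) (ψ p.2)) :
    ∑ p ∈ T, f p.1 * f p.2 / DD p.1 p.2 (ψ p.1) (ψ p.2) ≤
      (1 + 2 * C / (1 - (1 / 2 : ℝ) ^ c)) * ∑ q ∈ Icc 1 N, f q := by
  classical
  set F : ℝ := ∑ q ∈ Icc 1 N, f q with hF
  have hF0 : 0 ≤ F := sum_nonneg fun q _ => hf0 q
  have hDpos : ∀ p ∈ T, 0 < DD p.1 p.2 (ψ p.1) (ψ p.2) := by
    intro p hp
    obtain ⟨h1, h2, _⟩ := hT p hp
    rw [DD_eq _ _ (hS _ h1).1]
    apply lt_max_of_lt_left
    apply mul_pos _ (hS _ h1).2.2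
    have : 0 < p.2 / Nat.gcd p.1 p.2 :=
      Nat.div_pos (Nat.gcd_le_right _ (hS _ h2).1) (Nat.gcd_pos_of_pos_left _ (hS _ h1).1)
    exact_mod_cast this
  set T₁ := T.filter (fun p => p.1 = p.2) with hT₁
  set T₂ := T.filter (fun p => ¬ p.1 = p.2) with hT₂
  have hsplit : ∑ p ∈ T, f p.1 * f p.2 / DD p.1 p.2 (ψ p.1) (ψ p.2) =
      ∑ p ∈ T₁, f p.1 * f p.2 / DD p.1 p.2 (ψ p.1) (ψ p.2) +
      ∑ p ∈ T₂, f p.1 * f p.2 / DD p.1 p.2 (ψ p.1) (ψ p.2) :=
    (sum_filter_add_sum_filter_not T (fun p => p.1 = p.2) _).symm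
  -- diagonal
  have hdiag : ∑ p ∈ T₁, f p.1 * f p.2 / DD p.1 p.2 (ψ p.1) (ψ p.2) ≤ F := by
    have h1 : ∑ p ∈ T₁, f p.1 * f p.2 / DD p.1 p.2 (ψ p.1) (ψ p.2) ≤ ∑ p ∈ T₁, f p.1 := by
      refine sum_le_sum fun p hp => ?_
      rw [hT₁, mem_filter] at hp
      obtain ⟨hpT, hpe⟩ := hp
      obtain ⟨h1, h2, _⟩ := hT p hpT
      have hq := (hS _ h1).1
      have hψ := (hS _ h1).2.2
      have e : DD p.1 p.2 (ψ p.1) (ψ p.2) = ψ p.1 := by
        rw [DD_eq _ _ hq, ← hpe, Nat.gcd_self, Nat.div_self hq]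
        simp
      rw [e, ← hpe, div_le_iff₀ hψ]
      exact mul_le_mul_of_nonneg_left (hf _) (hf0 _)
    have h2 : ∑ p ∈ T₁, f p.1 ≤ F := by
      have hinj : Set.InjOn (Prod.fst : ℕ × ℕ → ℕ) (T₁ : Set (ℕ × ℕ)) := by
        intro p hp p' hp' he
        rw [mem_coe, hT₁, mem_filter] at hp hp'
        ext
        · exact he
        · rw [← hp.2, ← hp'.2]; exact he
      rw [← sum_image (f := f) (g := Prod.fst) hinj]
      refine sum_le_sum_of_subset_of_nonneg ?_ fun q _ _ => hf0 q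
      intro q hq
      rw [mem_image] at hq
      obtain ⟨p, hp, rfl⟩ := hq
      rw [hT₁, mem_filter] at hp
      have := hS _ (hT p hp.1).1
      rw [mem_Icc]
      exact ⟨this.1, this.2.1⟩
    exact h1.trans h2
  -- off-diagonal
  have hj : ∀ p ∈ T₂, ∃ j : ℕ, 2 ≤ j ∧ (1 / 2 : ℝ) ^ (j + 1) < DD p.1 p.2 (ψ p.1) (ψ p.2) ∧
      DD p.1 p.2 (ψ p.1) (ψ p.2) ≤ (1 / 2 : ℝ) ^ j := by
    intro p hp
    rw [hT₂, mem_filter] at hp
    obtain ⟨h1, h2, h3, _⟩ := hT p hp.1
    obtain ⟨j, hj1, hj2⟩ := exists_nat_pow_near_of_lt_one (hDpos p hp.1) (by linarith only [h3])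
      (by norm_num : (0 : ℝ) < 1 / 2) (by norm_num : (1 / 2 : ℝ) < 1)
    refine ⟨j, ?_, hj1, hj2⟩
    by_contra hlt
    push Not at hlt
    have h4 : (1 / 2 : ℝ) ^ 2 ≤ (1 / 2 : ℝ) ^ (j + 1) :=
      pow_le_pow_of_le_one (by norm_num) (by norm_num) (by omega)
    norm_num at h4
    norm_num at hj1 h3
    linarith only [h4, hj1, h3]
  choose! jj hjj2 hjj3 hjj4 using hj
  have hoff : ∑ p ∈ T₂, f p.1 * f p.2 / DD p.1 p.2 (ψ p.1) (ψ p.2) ≤
      2 * C / (1 - (1 / 2 : ℝ) ^ c) * F := by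
    obtain ⟨J, hJ⟩ : ∃ J : ℕ, ∀ p ∈ T₂, jj p < J := by
      refine ⟨(T₂.sup jj) + 1, fun p hp => ?_⟩
      have := le_sup (f := jj) hp
      omega
    have h1 : ∑ p ∈ T₂, f p.1 * f p.2 / DD p.1 p.2 (ψ p.1) (ψ p.2) =
        ∑ j ∈ range J, ∑ p ∈ T₂ with jj p = j, f p.1 * f p.2 / DD p.1 p.2 (ψ p.1) (ψ p.2) :=
      (sum_fiberwise_of_maps_to (fun p hp => mem_range.mpr (hJ p hp)) _).symm
    have hc1 : (1 / 2 : ℝ) ^ c < 1 := Real.rpow_lt_one (by norm_num) (by norm_num) hc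
    have hc0 : 0 < (1 / 2 : ℝ) ^ c := Real.rpow_pos_of_pos (by norm_num) _
    have h2 : ∀ j ∈ range J, ∑ p ∈ T₂ with jj p = j,
        f p.1 * f p.2 / DD p.1 p.2 (ψ p.1) (ψ p.2) ≤ 2 * C * F * ((1 / 2 : ℝ) ^ c) ^ j := by
      intro j _
      by_cases hj2 : 2 ≤ j
      · set s : ℝ := (1 / 2 : ℝ) ^ j with hs
        have hs0 : 0 < s := by positivity
        have hs4 : s ≤ 1 / 4 := by
          have : (1 / 2 : ℝ) ^ j ≤ (1 / 2 : ℝ) ^ 2 :=
            pow_le_pow_of_le_one (by norm_num) (by norm_num) hj2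
          rw [hs]; norm_num at this ⊢; linarith only [this]
        have h3 : ∑ p ∈ T₂ with jj p = j, f p.1 * f p.2 / DD p.1 p.2 (ψ p.1) (ψ p.2) ≤
            (2 / s) * ∑ p ∈ T₂ with jj p = j, f p.1 * f p.2 := by
          rw [mul_sum]
          refine sum_le_sum fun p hp => ?_
          rw [mem_filter] at hp
          have h4 := hjj3 p hp.1
          rw [hp.2, pow_succ, ← hs] at h4
          have h5 := mul_nonneg (hf0 p.1) (hf0 p.2)
          rw [div_le_iff₀ (by linarith only [hs0, h4])]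
          calc f p.1 * f p.2 = 2 / s * (f p.1 * f p.2) * (s * (1 / 2)) := by
                (clear * - hs0; field_simp)
            _ ≤ 2 / s * (f p.1 * f p.2) * DD p.1 p.2 (ψ p.1) (ψ p.2) := by
                (clear * - h4 h5; gcongr)
        have h6 : ∑ p ∈ T₂ with jj p = j, f p.1 * f p.2 ≤ C * s ^ (1 + c) * F := by
          refine le_trans ?_ (hyp s hs0 hs4)
          refine sum_le_psum _ N f f hf0 hf0 _ ?_
          intro p hp
          rw [mem_filter] at hp
          obtain ⟨hp1, hp2⟩ := hp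
          have hD1 := hjj3 p hp1
          have hD2 := hjj4 p hp1
          rw [hp2] at hD1 hD2
          rw [← hs] at hD2
          rw [pow_succ, ← hs] at hD1
          rw [hT₂, mem_filter] at hp1
          obtain ⟨h7, h8, h9, m, hm⟩ := hT p hp1.1
          have hq := hS _ h7
          have hr := hS _ h8
          have hD := DD_eq p.1 p.2 hq.1 (ψ p.1) (ψ p.2)
          have hcv : cofac p.2 p.1 = p.2 / Nat.gcd p.1 p.2 := by
            unfold cofac; rw [Nat.gcd_comm]
          have hcu : cofac p.1 p.2 = p.1 / Nat.gcd p.1 p.2 := rfl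
          rw [← hcv, ← hcu] at hD hm
          refine ⟨mem_Icc.mpr ⟨hq.1, hq.2.1⟩, mem_Icc.mpr ⟨hr.1, hr.2.1⟩, ⟨?_, ?_, ?_, ?_⟩, ?_⟩
          · intro he
            exact hp1.2 (eq_of_cofac_eq he)
          · exact (le_max_left _ _).trans (hD ▸ hD2)
          · exact (le_max_right _ _).trans (hD ▸ hD2)
          · have h10 := distInt_le_of_int m hm
            have e : ((cofac p.1 p.2 : ℝ) - (cofac p.2 p.1 : ℝ)) * γ
                = -(((cofac p.2 p.1 : ℝ) - (cofac p.1 p.2 : ℝ)) * γ) := by ring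
            rw [e, distInt_neg]
            linarith only [hD2, h10]
          · rw [← hD]; linarith only [hD1]
        have h11 : s ^ (1 + c) = s * ((1 / 2 : ℝ) ^ c) ^ j := by
          rw [Real.rpow_add hs0, Real.rpow_one, hs, ← Real.rpow_natCast, ← Real.rpow_natCast,
            ← Real.rpow_mul (by norm_num), ← Real.rpow_mul (by norm_num), mul_comm (j : ℝ) c]
        calc ∑ p ∈ T₂ with jj p = j, f p.1 * f p.2 / DD p.1 p.2 (ψ p.1) (ψ p.2)
            ≤ (2 / s) * ∑ p ∈ T₂ with jj p = j, f p.1 * f p.2 := h3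
          _ ≤ (2 / s) * (C * s ^ (1 + c) * F) := by (clear * - h6; gcongr)
          _ = 2 * C * F * ((1 / 2 : ℝ) ^ c) ^ j := by
              rw [h11]; (clear * - hs0; field_simp)
      · have h3 : (T₂.filter (fun p => jj p = j)) = ∅ := by
          rw [filter_eq_empty_iff]
          intro p hp he
          exact hj2 (he ▸ hjj2 p hp)
        rw [h3, sum_empty]
        (clear * - hC hF0; positivity)
    rw [h1]
    calc ∑ j ∈ range J, ∑ p ∈ T₂ with jj p = j, f p.1 * f p.2 / DD p.1 p.2 (ψ p.1) (ψ p.2)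
        ≤ ∑ j ∈ range J, 2 * C * F * ((1 / 2 : ℝ) ^ c) ^ j := sum_le_sum h2
      _ = 2 * C * F * ∑ j ∈ range J, ((1 / 2 : ℝ) ^ c) ^ j := (mul_sum _ _ _).symm
      _ ≤ 2 * C * F * (1 - (1 / 2 : ℝ) ^ c)⁻¹ := by
          have h12 : ∑ j ∈ range J, ((1 / 2 : ℝ) ^ c) ^ j ≤ (1 - (1 / 2 : ℝ) ^ c)⁻¹ := by
            rw [← tsum_geometric_of_lt_one hc0.le hc1]
            exact (summable_geometric_of_lt_one hc0.le hc1).sum_le_tsum _
              (fun j _ => by positivity)
          (clear * - h12 hC hF0; gcongr)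
      _ = 2 * C / (1 - (1 / 2 : ℝ) ^ c) * F := by ring
  rw [hsplit]
  calc _ ≤ F + 2 * C / (1 - (1 / 2 : ℝ) ^ c) * F := add_le_add hdiag hoff
    _ = _ := by ring

end Vale.P028
end

section

/-!
# Theorem L: induction over the primes of `P`
-/

namespace Vale.P028

open Finset

theorem psum_le_psum {R R' : ℕ → ℕ → Prop} {N : ℕ} {f h f' h' : ℕ → ℝ}
    (hf : ∀ q, 0 ≤ f' q) (hh : ∀ r, 0 ≤ h' r)
    (hR : ∀ q r, 0 < q → 0 < r → R q r → f q * h r ≤ f' q * h' r ∧ (R' q r ∨ f' q * h' r = 0)) :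
    psum R N f h ≤ psum R' N f' h' := by
  classical
  unfold psum
  refine sum_le_sum fun q hq => sum_le_sum fun r hr => ?_
  have hq0 : 0 < q := (mem_Icc.mp hq).1
  have hr0 : 0 < r := (mem_Icc.mp hr).1
  by_cases h1 : R q r
  · obtain ⟨h2, h3⟩ := hR q r hq0 hr0 h1
    rw [if_pos h1]
    rcases h3 with h3 | h3
    · rwa [if_pos h3]
    · split_ifs
      · exact h2
      · linarith only [h2, h3]
  · rw [if_neg h1]
    split_ifs
    · exact mul_nonneg (hf q) (hh r)
    · exact le_refl _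

theorem sum_reindex (p k N : ℕ) (hp : 0 < p) (G : ℕ → ℝ) (hG : ∀ q, ¬ p ^ k ∣ q → G q = 0) :
    ∑ q ∈ Icc 1 N, G q = ∑ q' ∈ Icc 1 N, if p ^ k * q' ≤ N then G (p ^ k * q') else 0 := by
  have hpk : 0 < p ^ k := pow_pos hp k
  have h1 : ∑ q ∈ Icc 1 N, G q = ∑ q ∈ (Icc 1 N).filter (fun q => p ^ k ∣ q), G q := by
    rw [Finset.sum_filter]
    refine sum_congr rfl fun q _ => ?_
    split_ifs with h
    · rfl
    · exact hG q h
  rw [← Finset.sum_filter, h1]
  symm
  refine Finset.sum_nbij' (fun q' => p ^ k * q') (fun q => q / p ^ k) ?_ ?_ ?_ ?_ ?_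
  · intro q hq
    simp only [mem_filter, mem_Icc] at hq ⊢
    exact ⟨⟨Nat.mul_pos hpk hq.1.1, hq.2⟩, dvd_mul_right _ _⟩
  · intro q hq
    simp only [mem_filter, mem_Icc] at hq ⊢
    obtain ⟨⟨h2, h3⟩, m, rfl⟩ := hq
    rw [Nat.mul_div_cancel_left _ hpk]
    refine ⟨⟨Nat.pos_of_mul_pos_left h2 |> fun h => ?_, ?_⟩, h3⟩
    · rcases Nat.eq_zero_or_pos m with h0 | h0
      · subst h0; simp at h2
      · exact h0
    · exact le_trans (Nat.le_mul_of_pos_left m hpk) h3
  · intro q _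
    exact Nat.mul_div_cancel_left _ hpk
  · intro q hq
    simp only [mem_filter] at hq
    exact Nat.mul_div_cancel' hq.2
  · intro q _
    rfl

theorem psum_reindex (p i j N : ℕ) (hp : 0 < p) (R : ℕ → ℕ → Prop) (f h : ℕ → ℝ)
    (hR : ∀ q r, 0 < q → 0 < r → R q r → p ^ i ∣ q ∧ p ^ j ∣ r) :
    psum R N f h = psum (fun q r => R (p ^ i * q) (p ^ j * r)) N
      (fun q => if p ^ i * q ≤ N then f (p ^ i * q) else 0)
      (fun r => if p ^ j * r ≤ N then h (p ^ j * r) else 0) := by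
  classical
  unfold psum
  have h1 : ∑ q ∈ Icc 1 N, ∑ r ∈ Icc 1 N, (if R q r then f q * h r else 0)
      = ∑ q ∈ Icc 1 N, if 0 < q then ∑ r ∈ Icc 1 N, (if R q r then f q * h r else 0) else 0 := by
    refine sum_congr rfl fun q hq => ?_
    have hq0 : 0 < q := (mem_Icc.mp hq).1
    rw [if_pos hq0]
  rw [h1, sum_reindex p i N hp]
  · refine sum_congr rfl fun q hq => ?_
    have hq0 : 0 < q := (mem_Icc.mp hq).1
    split_ifs with h2 h3
    · have h4 : ∑ r ∈ Icc 1 N, (if R (p ^ i * q) r then f (p ^ i * q) * h r else 0)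
          = ∑ r ∈ Icc 1 N, if 0 < r then (if R (p ^ i * q) r then f (p ^ i * q) * h r else 0)
              else 0 := by
        refine sum_congr rfl fun r hr => ?_
        have hr0 : 0 < r := (mem_Icc.mp hr).1
        rw [if_pos hr0]
      rw [h4, sum_reindex p j N hp]
      · refine sum_congr rfl fun r hr => ?_
        have hr0 : 0 < r := (mem_Icc.mp hr).1
        have h5 : 0 < p ^ j * r := Nat.mul_pos (pow_pos hp j) hr0
        simp only [h5, if_true]
        split_ifs <;> simp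
      · intro r hr
        split_ifs with h5 h6
        · exact absurd (hR _ _ h3 h5 h6).2 hr
        · rfl
        · rfl
    · exact absurd (Nat.mul_pos (pow_pos hp i) hq0) h3
    · symm
      apply sum_eq_zero
      intro r _
      simp [h2]
  · intro q hq
    split_ifs with h2
    · apply sum_eq_zero
      intro r hr
      split_ifs with h6
      · exact absurd (hR _ _ h2 (mem_Icc.mp hr).1 h6).1 hq
      · rfl
    · rfl

theorem cofac_exact {p : ℕ} (hp : p.Prime) (i j q r : ℕ) (hq : ¬ p ∣ q) (hr : ¬ p ∣ r) :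
    Nat.gcd (p ^ i * q) (p ^ j * r) = p ^ min i j * Nat.gcd q r ∧
    cofac (p ^ i * q) (p ^ j * r) = p ^ (i - j) * cofac q r := by
  have hq' : ∀ k, Nat.Coprime (p ^ k) q := fun k =>
    Nat.Coprime.pow_left k ((Nat.Prime.coprime_iff_not_dvd hp).mpr hq)
  have hr' : ∀ k, Nat.Coprime (p ^ k) r := fun k =>
    Nat.Coprime.pow_left k ((Nat.Prime.coprime_iff_not_dvd hp).mpr hr)
  have hg : Nat.gcd (p ^ i * q) (p ^ j * r) = p ^ min i j * Nat.gcd q r := by
    rcases le_total i j with h | h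
    · obtain ⟨l, rfl⟩ := Nat.exists_eq_add_of_le h
      rw [min_eq_left h, pow_add, mul_assoc, Nat.gcd_mul_left]
      congr 1
      exact Nat.Coprime.gcd_mul_left_cancel_right _ (hq' l).symm.symm
    · obtain ⟨l, rfl⟩ := Nat.exists_eq_add_of_le h
      rw [min_eq_right h, pow_add, mul_assoc, Nat.gcd_mul_left]
      congr 1
      exact Nat.Coprime.gcd_mul_left_cancel _ (hr' l)
  refine ⟨hg, ?_⟩
  unfold cofac
  rw [hg]
  rcases le_total i j with h | h
  · rw [min_eq_left h, Nat.sub_eq_zero_of_le h, pow_zero, one_mul,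
      Nat.mul_div_mul_left _ _ (pow_pos hp.pos i)]
  · obtain ⟨l, rfl⟩ := Nat.exists_eq_add_of_le h
    rw [min_eq_right h, pow_add, mul_assoc, Nat.mul_div_mul_left _ _ (pow_pos hp.pos j),
      Nat.add_sub_cancel_left, Nat.mul_div_assoc _ (Nat.gcd_dvd_left q r)]

theorem edge_exact {Ω : ℕ → ℕ → Prop} {P : Finset ℕ} {a b p : ℕ} {ψ₁ ψ₂ : ℕ → ℝ} {s₁ s₂ : ℝ}
    (hp : p.Prime) {i j q r : ℕ} (hq : ¬ p ∣ q) (hr : ¬ p ∣ r)
    (h : Edge Ω (insert p P) a b ψ₁ ψ₂ s₁ s₂ (p ^ i * q) (p ^ j * r)) :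
    Edge Ω P (a * p ^ (i - j)) (b * p ^ (j - i)) (fun q => ψ₁ (p ^ i * q))
      (fun r => ψ₂ (p ^ j * r)) s₁ s₂ q r := by
  obtain ⟨h1, h2, h3, h4⟩ := h
  obtain ⟨hg, hc⟩ := cofac_exact hp i j q r hq hr
  obtain ⟨-, hc'⟩ := cofac_exact hp j i r q hr hq
  rw [hc, hc'] at h2
  rw [hc'] at h3
  rw [hc] at h4
  refine ⟨?_, ?_, ?_, ?_⟩
  · intro p' hp' hd
    have h5 := h1 p' hp' (by rw [hg]; exact Dvd.dvd.mul_left hd _)
    rcases mem_insert.mp h5 with h6 | h6
    · subst h6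
      exact absurd (dvd_trans hd (Nat.gcd_dvd_left q r)) hq
    · exact h6
  · rwa [mul_assoc, mul_assoc]
  · push_cast at h3 ⊢
    rwa [mul_assoc (b : ℝ)]
  · push_cast at h4 ⊢
    rwa [mul_assoc (a : ℝ)]

theorem edge_L {Ω : ℕ → ℕ → Prop} {P : Finset ℕ} {a b p : ℕ} {ψ₁ ψ₂ : ℕ → ℝ} {s₁ s₂ t : ℝ}
    (hp : p.Prime) {k q r : ℕ} (hg : ¬ p ∣ Nat.gcd q r) (ht : 0 ≤ t)
    (h : Edge Ω (insert p P) a b ψ₁ ψ₂ s₁ s₂ (p ^ k * q) (p ^ k * r)) :
    Edge Ω P a b (fun q => t * ψ₁ (p ^ k * q))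
      (fun r => t * ψ₂ (p ^ k * r)) (t * s₁) (t * s₂) q r := by
  obtain ⟨h1, h2, h3, h4⟩ := h
  have hpk : 0 < p ^ k := pow_pos hp.pos k
  have hc : cofac (p ^ k * q) (p ^ k * r) = cofac q r := by
    unfold cofac
    rw [Nat.gcd_mul_left, Nat.mul_div_mul_left _ _ hpk]
  have hc' : cofac (p ^ k * r) (p ^ k * q) = cofac r q := by
    unfold cofac
    rw [Nat.gcd_mul_left, Nat.mul_div_mul_left _ _ hpk]
  rw [hc, hc'] at h2
  rw [hc'] at h3
  rw [hc] at h4
  refine ⟨?_, h2, ?_, ?_⟩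
  · intro p' hp' hd
    have h5 := h1 p' hp' (by rw [Nat.gcd_mul_left]; exact Dvd.dvd.mul_left hd _)
    rcases mem_insert.mp h5 with h6 | h6
    · subst h6
      exact absurd hd hg
    · exact h6
  · calc (b : ℝ) * (cofac r q : ℝ) * (t * ψ₁ (p ^ k * q))
        = t * ((b : ℝ) * (cofac r q : ℝ) * ψ₁ (p ^ k * q)) := by ring
      _ ≤ t * s₁ := mul_le_mul_of_nonneg_left h3 ht
  · calc (a : ℝ) * (cofac q r : ℝ) * (t * ψ₂ (p ^ k * r))
        = t * ((a : ℝ) * (cofac q r : ℝ) * ψ₂ (p ^ k * r)) := by ring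
      _ ≤ t * s₂ := mul_le_mul_of_nonneg_left h4 ht

/-- the weight `∏_{p ∈ P, p ∣ q} (1 - x p)`. -/
noncomputable def wt (x : ℕ → ℝ) (P : Finset ℕ) (q : ℕ) : ℝ := ∏ p ∈ P with p ∣ q, (1 - x p)

theorem wt_insert {x : ℕ → ℝ} {p : ℕ} {P : Finset ℕ} (hpP : p ∉ P) (q : ℕ) :
    wt x (insert p P) q = (if p ∣ q then (1 - x p) else 1) * wt x P q := by
  unfold wt
  rw [filter_insert]
  split_ifs with h
  · rw [prod_insert]
    simp [hpP]
  · rw [one_mul]

theorem wt_mul_pow {x : ℕ → ℝ} {p : ℕ} {P : Finset ℕ} (hP : ∀ p' ∈ P, p'.Prime) (hp : p.Prime)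
    (hpP : p ∉ P) (i q : ℕ) : wt x P (p ^ i * q) = wt x P q := by
  unfold wt
  congr 1
  refine filter_congr fun p' hp' => ?_
  have hne : p' ≠ p := fun h => hpP (h ▸ hp')
  constructor
  · intro h
    rcases (Nat.Prime.dvd_mul (hP p' hp')).mp h with h1 | h1
    · exact absurd ((Nat.prime_dvd_prime_iff_eq (hP p' hp') hp).mp
        ((hP p' hp').dvd_of_dvd_pow h1)) hne
    · exact h1
  · intro h
    exact Dvd.dvd.mul_left h _

theorem wt_nonneg {x : ℕ → ℝ} {P : Finset ℕ} (hx : ∀ p ∈ P, x p < 1) (q : ℕ) :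
    0 ≤ wt x P q := by
  unfold wt
  refine prod_nonneg fun p hp => ?_
  have := hx p (mem_filter.mp hp).1
  linarith

/-- the conclusion of Theorem L. -/
def LBound (Ω : ℕ → ℕ → Prop) (θ : ℝ) (K : ℕ → ℕ → ℝ) (P : Finset ℕ) (x : ℕ → ℝ) (M : ℝ) :
    Prop :=
  ∀ (a b : ℕ), 0 < a → 0 < b → ∀ (ψ₁ ψ₂ f h : ℕ → ℝ) (s₁ s₂ : ℝ) (N : ℕ), 0 < s₁ → 0 < s₂ →
      (∀ q, 0 ≤ ψ₁ q) → (∀ q, 0 ≤ ψ₂ q) →
      (∀ q, 0 ≤ f q ∧ f q ≤ ψ₁ q * wt x P q) →
      (∀ r, 0 ≤ h r ∧ h r ≤ ψ₂ r * wt x P r) →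
      Lam Ω P a b ψ₁ ψ₂ s₁ s₂ N f h ≤
        M * (s₁ * s₂) ^ (1 - θ) * K a b *
          ((∑ q ∈ Icc 1 N, f q) * ∑ r ∈ Icc 1 N, h r) ^ θ

theorem fac_mul {p : ℕ} (hp : p.Prime) (i : ℕ) {q : ℕ} (hq : 0 < q) :
    (p ^ i * q).factorization p = i + q.factorization p := by
  rw [Nat.factorization_mul (pow_pos hp.pos i).ne' hq.ne', hp.factorization_pow]
  simp only [Finsupp.coe_add, Pi.add_apply, Finsupp.single_eq_same, Nat.add_left_cancel_iff]

theorem fac_eq_zero {p : ℕ} (hp : p.Prime) {q : ℕ} (hq : 0 < q) :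
    q.factorization p = 0 ↔ ¬ p ∣ q := by
  rw [Nat.factorization_eq_zero_iff]
  constructor
  · rintro (h | h | h)
    · exact absurd hp h
    · exact h
    · omega
  · intro h
    exact Or.inr (Or.inl h)

theorem pow_dvd_of_le {p k q : ℕ} (h : k ≤ q.factorization p) : p ^ k ∣ q :=
  dvd_trans (pow_dvd_pow p h) (Nat.ordProj_dvd q p)

theorem exact_cell {Ω : ℕ → ℕ → Prop} {θ : ℝ} {K : ℕ → ℕ → ℝ} {P : Finset ℕ} (hP : ∀ p ∈ P, p.Prime)
    {x : ℕ → ℝ} {M : ℝ} (hM : 0 ≤ M) (ih : LBound Ω θ K P x M) {p : ℕ} (hp : p.Prime)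
    (hpP : p ∉ P) (hxp : 0 ≤ x p ∧ x p < 1) (hx : ∀ p ∈ P, x p < 1) {Bp : ℝ} (hB : 0 ≤ Bp)
    (hgrow1 : ∀ a b l, 0 < a → 0 < b → K (a * p ^ l) b ≤ Bp ^ l * K a b)
    (hgrow2 : ∀ a b l, 0 < a → 0 < b → K a (b * p ^ l) ≤ Bp ^ l * K a b)
    {a b : ℕ} (ha : 0 < a) (hb : 0 < b) {ψ₁ ψ₂ f h : ℕ → ℝ} {s₁ s₂ : ℝ} {N : ℕ} (hs₁ : 0 < s₁)
    (hs₂ : 0 < s₂) (hψ₁ : ∀ q, 0 ≤ ψ₁ q) (hψ₂ : ∀ q, 0 ≤ ψ₂ q)
    (hf : ∀ q, 0 ≤ f q ∧ f q ≤ ψ₁ q * wt x (insert p P) q)
    (hh : ∀ r, 0 ≤ h r ∧ h r ≤ ψ₂ r * wt x (insert p P) r) (i j : ℕ) :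
    psum (fun q r => Edge Ω (insert p P) a b ψ₁ ψ₂ s₁ s₂ q r ∧ q.factorization p = i ∧
        r.factorization p = j) N f h ≤
      M * (s₁ * s₂) ^ (1 - θ) * K a b * (Bp ^ ad i j *
        ((∑ q ∈ Icc 1 N, if q.factorization p = i then f q else 0) *
          ∑ r ∈ Icc 1 N, if r.factorization p = j then h r else 0) ^ θ) := by
  have hw : ∀ k q, wt x (insert p P) (p ^ k * q) ≤ wt x P q := by
    intro k q
    rw [wt_insert hpP, wt_mul_pow hP hp hpP]
    have h0 := wt_nonneg hx q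
    split_ifs
    · (clear * - hxp h0; nlinarith [hxp.1])
    · rw [one_mul]
  have hsum : ∀ (g : ℕ → ℝ) (i : ℕ), ∑ q ∈ Icc 1 N, (if q.factorization p = i then g q else 0)
      = ∑ q ∈ Icc 1 N, (if ¬ p ∣ q ∧ p ^ i * q ≤ N then g (p ^ i * q) else 0) := by
    intro g i
    rw [sum_reindex p i N hp.pos]
    · refine sum_congr rfl fun q hq => ?_
      have hq0 : 0 < q := (mem_Icc.mp hq).1
      rw [fac_mul hp i hq0]
      have e := fac_eq_zero hp hq0
      by_cases h1 : p ∣ q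
      · have : q.factorization p ≠ 0 := fun h2 => (e.mp h2) h1
        simp only [Nat.add_eq_left, this, ↓reduceIte, ite_self, h1, not_true_eq_false, false_and]
      · have : q.factorization p = 0 := e.mpr h1
        simp only [this, add_zero, ↓reduceIte, h1, not_false_eq_true, true_and]
    · intro q hq
      rw [if_neg]
      intro h1
      exact hq (pow_dvd_of_le h1.ge)
  rw [hsum f i, hsum h j]
  set f' : ℕ → ℝ := fun q => if ¬ p ∣ q ∧ p ^ i * q ≤ N then f (p ^ i * q) else 0 with hf'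
  set h' : ℕ → ℝ := fun r => if ¬ p ∣ r ∧ p ^ j * r ≤ N then h (p ^ j * r) else 0 with hh'
  have hf'0 : ∀ q, 0 ≤ f' q ∧ f' q ≤ ψ₁ (p ^ i * q) * wt x P q := by
    intro q
    simp only [hf']
    split_ifs with h1
    · exact ⟨(hf _).1, (hf _).2.trans (mul_le_mul_of_nonneg_left (hw i q) (hψ₁ _))⟩
    · exact ⟨le_refl _, mul_nonneg (hψ₁ _) (wt_nonneg hx q)⟩
  have hh'0 : ∀ r, 0 ≤ h' r ∧ h' r ≤ ψ₂ (p ^ j * r) * wt x P r := by
    intro r
    simp only [hh']
    split_ifs with h1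
    · exact ⟨(hh _).1, (hh _).2.trans (mul_le_mul_of_nonneg_left (hw j r) (hψ₂ _))⟩
    · exact ⟨le_refl _, mul_nonneg (hψ₂ _) (wt_nonneg hx r)⟩
  have key := ih (a * p ^ (i - j)) (b * p ^ (j - i)) (Nat.mul_pos ha (pow_pos hp.pos _))
    (Nat.mul_pos hb (pow_pos hp.pos _)) (fun q => ψ₁ (p ^ i * q)) (fun r => ψ₂ (p ^ j * r))
    f' h' s₁ s₂ N hs₁ hs₂ (fun q => hψ₁ _) (fun r => hψ₂ _) hf'0 hh'0
  have h1 : psum (fun q r => Edge Ω (insert p P) a b ψ₁ ψ₂ s₁ s₂ q r ∧ q.factorization p = i ∧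
        r.factorization p = j) N f h ≤ Lam Ω P (a * p ^ (i - j)) (b * p ^ (j - i))
          (fun q => ψ₁ (p ^ i * q)) (fun r => ψ₂ (p ^ j * r)) s₁ s₂ N f' h' := by
    rw [psum_reindex p i j N hp.pos]
    · refine psum_le_psum (fun q => (hf'0 q).1) (fun r => (hh'0 r).1) ?_
      intro q r hq hr ⟨h2, h3, h4⟩
      rw [fac_mul hp i hq] at h3
      rw [fac_mul hp j hr] at h4
      have h5 : ¬ p ∣ q := (fac_eq_zero hp hq).mp (by omega)
      have h6 : ¬ p ∣ r := (fac_eq_zero hp hr).mp (by omega)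
      refine ⟨?_, Or.inl (edge_exact hp h5 h6 h2)⟩
      simp only [hf', hh', h5, h6, not_false_eq_true, true_and]
      exact le_refl _
    · intro q r _ _ ⟨_, h3, h4⟩
      exact ⟨pow_dvd_of_le h3.ge, pow_dvd_of_le h4.ge⟩
  have h2 : K (a * p ^ (i - j)) (b * p ^ (j - i)) ≤ Bp ^ ad i j * K a b := by
    have h3 := hgrow1 a (b * p ^ (j - i)) (i - j) ha (Nat.mul_pos hb (pow_pos hp.pos _))
    have h4 := hgrow2 a b (j - i) ha hb
    calc K (a * p ^ (i - j)) (b * p ^ (j - i)) ≤ Bp ^ (i - j) * K a (b * p ^ (j - i)) := h3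
      _ ≤ Bp ^ (i - j) * (Bp ^ (j - i) * K a b) :=
          mul_le_mul_of_nonneg_left h4 (pow_nonneg hB _)
      _ = Bp ^ ad i j * K a b := by unfold ad; rw [pow_add]; ring
  have hS : 0 ≤ ((∑ q ∈ Icc 1 N, f' q) * ∑ r ∈ Icc 1 N, h' r) ^ θ :=
    Real.rpow_nonneg (mul_nonneg (sum_nonneg fun q _ => (hf'0 q).1)
      (sum_nonneg fun r _ => (hh'0 r).1)) _
  have hA : 0 ≤ M * (s₁ * s₂) ^ (1 - θ) :=
    mul_nonneg hM (Real.rpow_nonneg (mul_nonneg hs₁.le hs₂.le) _)
  calc _ ≤ _ := h1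
    _ ≤ _ := key
    _ ≤ M * (s₁ * s₂) ^ (1 - θ) * (Bp ^ ad i j * K a b) *
        ((∑ q ∈ Icc 1 N, f' q) * ∑ r ∈ Icc 1 N, h' r) ^ θ :=
      mul_le_mul_of_nonneg_right (mul_le_mul_of_nonneg_left h2 hA) hS
    _ = _ := by ring

theorem L_cell {Ω : ℕ → ℕ → Prop} {θ : ℝ} {K : ℕ → ℕ → ℝ}
    {P : Finset ℕ} (hP : ∀ p ∈ P, p.Prime)
    {x : ℕ → ℝ} {M : ℝ} (ih : LBound Ω θ K P x M) {p : ℕ} (hp : p.Prime)
    (hpP : p ∉ P) (hxp : 0 ≤ x p ∧ x p < 1) (hx : ∀ p ∈ P, x p < 1)
    {a b : ℕ} (ha : 0 < a) (hb : 0 < b) {ψ₁ ψ₂ f h : ℕ → ℝ} {s₁ s₂ : ℝ} {N : ℕ} (hs₁ : 0 < s₁)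
    (hs₂ : 0 < s₂) (hψ₁ : ∀ q, 0 ≤ ψ₁ q) (hψ₂ : ∀ q, 0 ≤ ψ₂ q)
    (hf : ∀ q, 0 ≤ f q ∧ f q ≤ ψ₁ q * wt x (insert p P) q)
    (hh : ∀ r, 0 ≤ h r ∧ h r ≤ ψ₂ r * wt x (insert p P) r) (k : ℕ) :
    psum (fun q r => Edge Ω (insert p P) a b ψ₁ ψ₂ s₁ s₂ q r ∧ min (q.factorization p)
        (r.factorization p) = k) N f h ≤
      M * (s₁ * s₂) ^ (1 - θ) * K a b * ((if k = 0 then (1 : ℝ) else (1 - x p) ^ (2 * (1 - θ))) *
        ((∑ q ∈ Icc 1 N, if k ≤ q.factorization p then f q else 0) *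
          ∑ r ∈ Icc 1 N, if k ≤ r.factorization p then h r else 0) ^ θ) := by
  set t : ℝ := if k = 0 then 1 else 1 - x p with ht
  have ht0 : 0 < t := by
    rw [ht]; split_ifs
    · exact one_pos
    · linarith only [hxp]
  have ht1 : (if k = 0 then (1 : ℝ) else (1 - x p) ^ (2 * (1 - θ))) = t ^ (2 * (1 - θ)) := by
    rw [ht]; split_ifs
    · rw [Real.one_rpow]
    · rfl
  have hw : ∀ q, wt x (insert p P) (p ^ k * q) ≤ t * wt x P q := by
    intro q
    rw [wt_insert hpP, wt_mul_pow hP hp hpP, ht]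
    have h0 := wt_nonneg hx q
    split_ifs with h1 h2 h3
    · nlinarith only [hxp, h0]
    · exact le_refl _
    · exact le_refl _
    · exact absurd (Dvd.dvd.mul_right (dvd_pow_self p h3) q) h1
  have hsum : ∀ (g : ℕ → ℝ), ∑ q ∈ Icc 1 N, (if k ≤ q.factorization p then g q else 0)
      = ∑ q ∈ Icc 1 N, (if p ^ k * q ≤ N then g (p ^ k * q) else 0) := by
    intro g
    rw [sum_reindex p k N hp.pos]
    · refine sum_congr rfl fun q hq => ?_
      have hq0 : 0 < q := (mem_Icc.mp hq).1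
      rw [fac_mul hp k hq0, if_pos (Nat.le_add_right k (q.factorization p))]
    · intro q hq
      rw [if_neg]
      intro h1
      exact hq (pow_dvd_of_le h1)
  rw [hsum f, hsum h, ht1]
  have hf'0 : ∀ q, 0 ≤ (if p ^ k * q ≤ N then f (p ^ k * q) else 0) ∧
      (if p ^ k * q ≤ N then f (p ^ k * q) else 0) ≤ (t * ψ₁ (p ^ k * q)) * wt x P q := by
    intro q
    split_ifs with h1
    · refine ⟨(hf _).1, (hf _).2.trans ?_⟩
      have := mul_le_mul_of_nonneg_left (hw q) (hψ₁ (p ^ k * q))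
      linarith only [this]
    · exact ⟨le_refl _, mul_nonneg (mul_nonneg ht0.le (hψ₁ _)) (wt_nonneg hx q)⟩
  have hh'0 : ∀ r, 0 ≤ (if p ^ k * r ≤ N then h (p ^ k * r) else 0) ∧
      (if p ^ k * r ≤ N then h (p ^ k * r) else 0) ≤ (t * ψ₂ (p ^ k * r)) * wt x P r := by
    intro r
    split_ifs with h1
    · refine ⟨(hh _).1, (hh _).2.trans ?_⟩
      have := mul_le_mul_of_nonneg_left (hw r) (hψ₂ (p ^ k * r))
      linarith only [this]
    · exact ⟨le_refl _, mul_nonneg (mul_nonneg ht0.le (hψ₂ _)) (wt_nonneg hx r)⟩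
  have key := ih a b ha hb (fun q => t * ψ₁ (p ^ k * q)) (fun r => t * ψ₂ (p ^ k * r))
    (fun q => if p ^ k * q ≤ N then f (p ^ k * q) else 0)
    (fun r => if p ^ k * r ≤ N then h (p ^ k * r) else 0) (t * s₁) (t * s₂) N
    (mul_pos ht0 hs₁) (mul_pos ht0 hs₂) (fun q => mul_nonneg ht0.le (hψ₁ _))
    (fun r => mul_nonneg ht0.le (hψ₂ _)) hf'0 hh'0
  have h1 : psum (fun q r => Edge Ω (insert p P) a b ψ₁ ψ₂ s₁ s₂ q r ∧ min (q.factorization p)
        (r.factorization p) = k) N f h ≤ Lam Ω P a b (fun q => t * ψ₁ (p ^ k * q))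
          (fun r => t * ψ₂ (p ^ k * r)) (t * s₁) (t * s₂) N
          (fun q => if p ^ k * q ≤ N then f (p ^ k * q) else 0)
          (fun r => if p ^ k * r ≤ N then h (p ^ k * r) else 0) := by
    rw [psum_reindex p k k N hp.pos]
    · refine psum_le_psum (fun q => (hf'0 q).1) (fun r => (hh'0 r).1) ?_
      intro q r hq hr ⟨h2, h3⟩
      rw [fac_mul hp k hq, fac_mul hp k hr] at h3
      refine ⟨le_refl _, Or.inl (edge_L hp ?_ ht0.le h2)⟩
      intro h4
      have h5 : q.factorization p ≠ 0 := fun h => (fac_eq_zero hp hq).mp h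
        (dvd_trans h4 (Nat.gcd_dvd_left q r))
      have h6 : r.factorization p ≠ 0 := fun h => (fac_eq_zero hp hr).mp h
        (dvd_trans h4 (Nat.gcd_dvd_right q r))
      omega
    · intro q r _ _ ⟨_, h3⟩
      exact ⟨pow_dvd_of_le (h3 ▸ min_le_left _ _), pow_dvd_of_le (h3 ▸ min_le_right _ _)⟩
  have h2 : (t * s₁ * (t * s₂)) ^ (1 - θ) = t ^ (2 * (1 - θ)) * (s₁ * s₂) ^ (1 - θ) := by
    have : t * s₁ * (t * s₂) = t ^ (2 : ℕ) * (s₁ * s₂) := by ring
    rw [this, Real.mul_rpow (pow_nonneg ht0.le 2) (mul_nonneg hs₁.le hs₂.le),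
      ← Real.rpow_natCast t 2, ← Real.rpow_mul ht0.le]
    norm_num
  rw [h2] at key
  calc _ ≤ _ := h1
    _ ≤ _ := key
    _ = _ := by ring

open Classical in
theorem cells_weighted (R : ℕ → ℕ → Prop) (N p : ℕ) (f h : ℕ → ℝ) (w : ℕ → ℕ → ℝ) :
    ∑ i ∈ range (N + 1), ∑ j ∈ range (N + 1), w i j *
      psum (fun q r => R q r ∧ q.factorization p = i ∧ r.factorization p = j) N f h =
    ∑ q ∈ Icc 1 N, ∑ r ∈ Icc 1 N, if R q r then
      w (q.factorization p) (r.factorization p) * (f q * h r) else 0 := by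
  unfold psum
  simp only [mul_sum]
  have h1 : ∀ (T : ℕ → ℕ → ℕ → ℕ → ℝ), ∑ i ∈ range (N + 1), ∑ j ∈ range (N + 1),
      ∑ q ∈ Icc 1 N, ∑ r ∈ Icc 1 N, T i j q r = ∑ q ∈ Icc 1 N, ∑ r ∈ Icc 1 N,
      ∑ i ∈ range (N + 1), ∑ j ∈ range (N + 1), T i j q r := by
    intro T
    have h2 : ∀ i ∈ range (N + 1), ∑ j ∈ range (N + 1), ∑ q ∈ Icc 1 N, ∑ r ∈ Icc 1 N, T i j q r
        = ∑ q ∈ Icc 1 N, ∑ r ∈ Icc 1 N, ∑ j ∈ range (N + 1), T i j q r := by
      intro i _
      rw [sum_comm]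
      refine sum_congr rfl fun q _ => ?_
      rw [sum_comm]
    rw [sum_congr rfl h2, sum_comm]
    refine sum_congr rfl fun q _ => ?_
    rw [sum_comm]
  rw [h1]
  refine sum_congr rfl fun q hq => sum_congr rfl fun r hr => ?_
  have hq0 : q ≠ 0 := by have := (mem_Icc.mp hq).1; omega
  have hr0 : r ≠ 0 := by have := (mem_Icc.mp hr).1; omega
  have h2 : q.factorization p ∈ range (N + 1) := by
    have := Nat.factorization_lt p hq0
    have := (mem_Icc.mp hq).2
    rw [mem_range]; omega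
  have h3 : r.factorization p ∈ range (N + 1) := by
    have := Nat.factorization_lt p hr0
    have := (mem_Icc.mp hr).2
    rw [mem_range]; omega
  rw [sum_eq_single_of_mem _ h2, sum_eq_single_of_mem _ h3]
  · by_cases h4 : R q r
    · simp [h4]
    · simp [h4]
  · intro j _ hj
    rw [if_neg, mul_zero]
    rintro ⟨_, _, h5⟩
    exact hj h5.symm
  · intro i _ hi
    apply sum_eq_zero
    intro j _
    rw [if_neg, mul_zero]
    rintro ⟨_, h5, _⟩
    exact hi h5.symm

theorem psum_eq_cells (R : ℕ → ℕ → Prop) (N p : ℕ) (f h : ℕ → ℝ) :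
    psum R N f h = ∑ i ∈ range (N + 1), ∑ j ∈ range (N + 1),
      psum (fun q r => R q r ∧ q.factorization p = i ∧ r.factorization p = j) N f h := by
  classical
  have h1 := cells_weighted R N p f h (fun _ _ => 1)
  simp only [one_mul] at h1
  rw [h1]
  unfold psum
  refine sum_congr rfl fun q _ => sum_congr rfl fun r _ => ?_
  split_ifs <;> rfl

theorem psum_eq_L (R : ℕ → ℕ → Prop) (N p k : ℕ) (f h : ℕ → ℝ) :
    psum R N f h = psum (fun q r => R q r ∧ min (q.factorization p) (r.factorization p) = k) N f h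
      + ∑ i ∈ range (N + 1), ∑ j ∈ range (N + 1), if min i j = k then 0 else
      psum (fun q r => R q r ∧ q.factorization p = i ∧ r.factorization p = j) N f h := by
  classical
  have h1 := cells_weighted R N p f h (fun i j => if min i j = k then 0 else 1)
  have h2 : ∑ i ∈ range (N + 1), ∑ j ∈ range (N + 1), (if min i j = k then 0 else
      psum (fun q r => R q r ∧ q.factorization p = i ∧ r.factorization p = j) N f h) =
      ∑ i ∈ range (N + 1), ∑ j ∈ range (N + 1), (if min i j = k then (0 : ℝ) else 1) *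
      psum (fun q r => R q r ∧ q.factorization p = i ∧ r.factorization p = j) N f h := by
    refine sum_congr rfl fun q _ => sum_congr rfl fun r _ => ?_
    split_ifs <;> simp
  rw [h2, h1]
  unfold psum
  rw [← sum_add_distrib]
  refine sum_congr rfl fun q _ => ?_
  rw [← sum_add_distrib]
  refine sum_congr rfl fun r _ => ?_
  by_cases h3 : R q r
  · by_cases h4 : min (q.factorization p) (r.factorization p) = k
    · simp only [h3, ↓reduceIte, h4, and_self, zero_mul, add_zero]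
    · simp only [h3, ↓reduceIte, h4, and_false, one_mul, zero_add]
  · simp only [h3, ↓reduceIte, false_and, add_zero]

theorem sum_cells (N p : ℕ) (f : ℕ → ℝ) (k : ℕ) :
    ∑ i ∈ Icc k N, ∑ q ∈ Icc 1 N, (if q.factorization p = i then f q else 0) =
      ∑ q ∈ Icc 1 N, if k ≤ q.factorization p then f q else 0 := by
  rw [sum_comm]
  refine sum_congr rfl fun q hq => ?_
  have hq0 : q ≠ 0 := by have := (mem_Icc.mp hq).1; omega
  have h2 := Nat.factorization_lt p hq0
  have h3 := (mem_Icc.mp hq).2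
  rw [sum_ite_eq]
  by_cases h : k ≤ q.factorization p
  · rw [if_pos h, if_pos]
    rw [mem_Icc]; omega
  · rw [if_neg h, if_neg]
    rw [mem_Icc]; omega

theorem theoremL (Ω : ℕ → ℕ → Prop) {θ : ℝ} (_hθ : 1 / 2 < θ) (_hθ1 : θ < 1) (K : ℕ → ℕ → ℝ)
    (hK0 : ∀ a b, 0 ≤ K a b) (hbase : BaseBound Ω θ K) (P : Finset ℕ) (hP : ∀ p ∈ P, p.Prime)
    (B x c : ℕ → ℝ) (hb : ∀ p ∈ P, 0 ≤ B p) (hx : ∀ p ∈ P, 0 ≤ x p ∧ x p < 1)
    (hc : ∀ p ∈ P, 0 ≤ c p)
    (hgrow1 : ∀ p ∈ P, ∀ a b l, 0 < a → 0 < b → K (a * p ^ l) b ≤ B p ^ l * K a b)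
    (hgrow2 : ∀ p ∈ P, ∀ a b l, 0 < a → 0 < b → K a (b * p ^ l) ≤ B p ^ l * K a b)
    (hSP : ∀ p ∈ P, SP θ (B p) (x p) (c p)) :
    ∀ (a b : ℕ), 0 < a → 0 < b → ∀ (ψ₁ ψ₂ f h : ℕ → ℝ) (s₁ s₂ : ℝ) (N : ℕ), 0 < s₁ → 0 < s₂ →
      (∀ q, 0 ≤ ψ₁ q) → (∀ q, 0 ≤ ψ₂ q) →
      (∀ q, 0 ≤ f q ∧ f q ≤ ψ₁ q * ∏ p ∈ P with p ∣ q, (1 - x p)) →
      (∀ r, 0 ≤ h r ∧ h r ≤ ψ₂ r * ∏ p ∈ P with p ∣ r, (1 - x p)) →
      Lam Ω P a b ψ₁ ψ₂ s₁ s₂ N f h ≤
        (∏ p ∈ P, c p) * (s₁ * s₂) ^ (1 - θ) * K a b *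
          ((∑ q ∈ Icc 1 N, f q) * ∑ r ∈ Icc 1 N, h r) ^ θ := by
  change LBound Ω θ K P x (∏ p ∈ P, c p)
  induction P using Finset.induction_on with
  | empty =>
    intro a b ha hb' ψ₁ ψ₂ f h s₁ s₂ N hs₁ hs₂ hψ₁ hψ₂ hf hh
    have h1 := hbase a b ha hb' ψ₁ ψ₂ f h s₁ s₂ N hs₁ hs₂
      (fun q => ⟨(hf q).1, by simpa only [wt, filter_empty, prod_empty, mul_one] using (hf q).2⟩)
      (fun q => ⟨(hh q).1, by simpa only [wt, filter_empty, prod_empty, mul_one] using (hh q).2⟩)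
    rw [prod_empty, one_mul]
    exact h1
  | insert p P hpP ih =>
    have hmem : ∀ p' ∈ P, p' ∈ insert p P := fun p' h => mem_insert_of_mem h
    have hself : p ∈ insert p P := mem_insert_self p P
    have ih' := ih (fun p' h => hP p' (hmem p' h)) (fun p' h => hb p' (hmem p' h))
      (fun p' h => hx p' (hmem p' h)) (fun p' h => hc p' (hmem p' h))
      (fun p' h => hgrow1 p' (hmem p' h)) (fun p' h => hgrow2 p' (hmem p' h))
      (fun p' h => hSP p' (hmem p' h))
    have hM : 0 ≤ ∏ p ∈ P, c p := prod_nonneg fun p' h => hc p' (hmem p' h)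
    have hxP : ∀ p' ∈ P, x p' < 1 := fun p' h => (hx p' (hmem p' h)).2
    intro a b ha hb' ψ₁ ψ₂ f h s₁ s₂ N hs₁ hs₂ hψ₁ hψ₂ hf hh
    rw [prod_insert hpP]
    have hcell := fun i j => exact_cell (fun p' h => hP p' (hmem p' h)) hM ih'
      (hP p hself) hpP (hx p hself) hxP (hb p hself) (hgrow1 p hself) (hgrow2 p hself) ha hb'
      hs₁ hs₂ hψ₁ hψ₂ hf hh (N := N) i j
    have hL := fun k => L_cell (fun p' h => hP p' (hmem p' h)) ih'
      (hP p hself) hpP (hx p hself) hxP ha hb' hs₁ hs₂ hψ₁ hψ₂ hf hh (N := N) k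
    set φ : ℕ → ℝ := fun i => ∑ q ∈ Icc 1 N, if q.factorization p = i then f q else 0 with hφ
    set χ : ℕ → ℝ := fun j => ∑ r ∈ Icc 1 N, if r.factorization p = j then h r else 0 with hχ
    have hφ0 : ∀ i, 0 ≤ φ i := by
      intro i
      refine sum_nonneg fun q _ => ?_
      split_ifs
      · exact (hf q).1
      · exact le_refl _
    have hχ0 : ∀ i, 0 ≤ χ i := by
      intro i
      refine sum_nonneg fun q _ => ?_
      split_ifs
      · exact (hh q).1
      · exact le_refl _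
    have hφs : ∀ k, ∑ i ∈ Icc k N, φ i = ∑ q ∈ Icc 1 N, if k ≤ q.factorization p then f q else 0 :=
      fun k => sum_cells N p f k
    have hχs : ∀ k, ∑ i ∈ Icc k N, χ i = ∑ q ∈ Icc 1 N, if k ≤ q.factorization p then h q else 0 :=
      fun k => sum_cells N p h k
    have hφt : ∑ i ∈ range (N + 1), φ i = ∑ q ∈ Icc 1 N, f q := by
      rw [Nat.range_succ_eq_Icc_zero, hφs 0]
      simp only [zero_le, ↓reduceIte]
    have hχt : ∑ i ∈ range (N + 1), χ i = ∑ q ∈ Icc 1 N, h q := by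
      rw [Nat.range_succ_eq_Icc_zero, hχs 0]
      simp only [zero_le, ↓reduceIte]
    have hA : 0 ≤ (∏ p ∈ P, c p) * (s₁ * s₂) ^ (1 - θ) * K a b :=
      mul_nonneg (mul_nonneg hM (Real.rpow_nonneg (mul_nonneg hs₁.le hs₂.le) _)) (hK0 a b)
    have goal : ∀ T : ℝ, Lam Ω (insert p P) a b ψ₁ ψ₂ s₁ s₂ N f h ≤
        ((∏ p ∈ P, c p) * (s₁ * s₂) ^ (1 - θ) * K a b) * T →
        T ≤ c p * ((∑ i ∈ range (N + 1), φ i) * ∑ j ∈ range (N + 1), χ j) ^ θ →
        Lam Ω (insert p P) a b ψ₁ ψ₂ s₁ s₂ N f h ≤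
          c p * (∏ p ∈ P, c p) * (s₁ * s₂) ^ (1 - θ) * K a b *
          ((∑ q ∈ Icc 1 N, f q) * ∑ r ∈ Icc 1 N, h r) ^ θ := by
      intro T h1 h2
      rw [hφt, hχt] at h2
      calc _ ≤ _ := h1
        _ ≤ ((∏ p ∈ P, c p) * (s₁ * s₂) ^ (1 - θ) * K a b) *
            (c p * ((∑ q ∈ Icc 1 N, f q) * ∑ r ∈ Icc 1 N, h r) ^ θ) :=
          mul_le_mul_of_nonneg_left h2 hA
        _ = _ := by ring
    rcases hSP p hself N φ χ hφ0 hχ0 with hs | ⟨k, hk, hs⟩
    · refine goal _ ?_ hs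
      unfold Lam
      rw [psum_eq_cells _ N p, mul_sum]
      refine sum_le_sum fun i _ => ?_
      rw [mul_sum]
      exact sum_le_sum fun j _ => hcell i j
    · refine goal _ ?_ hs
      unfold Lam
      rw [psum_eq_L _ N p k, mul_add]
      refine add_le_add ?_ ?_
      · rw [hφs, hχs]
        exact hL k
      · rw [mul_sum]
        refine sum_le_sum fun i _ => ?_
        rw [mul_sum]
        refine sum_le_sum fun j _ => ?_
        split_ifs
        · rw [mul_zero]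
        · exact hcell i j

end Vale.P028
end
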