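import Vale.Agent.P028.MathlibUsed
import Vale.Agent.P028.Bdl.B1

set_option linter.all false

section

/-!
One dimensional inequality behind the tensor inequality: a Hoelder type inequality on the
integers with kernel weights `p^(-|d|)` and constant `1 + C/p`.
-/

namespace Vale.P028

open Finset

/-- Sum of powers of `r` over nonzero natural numbers. -/
theorem sum_pow_nat_le {r : ℝ} (h0 : 0 ≤ r) (h1 : r < 1) (G : Finset ℕ) (hG : ∀ n ∈ G, n ≠ 0) :
    ∑ n ∈ G, r ^ n ≤ r / (1 - r) := by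
  have hs : Summable (fun n : ℕ => r ^ n) := summable_geometric_of_lt_one h0 h1
  have hs' : Summable (fun n : ℕ => r ^ (n + 1)) := (summable_nat_add_iff 1).2 hs
  have ht : ∑' n : ℕ, r ^ (n + 1) = r / (1 - r) := by
    have h := hs.tsum_eq_zero_add
    rw [tsum_geometric_of_lt_one h0 h1] at h
    have : (1 - r) ≠ 0 := by linarith only [h1]
    have h2 : ∑' n : ℕ, r ^ (n + 1) = (1 - r)⁻¹ - 1 := by
      rw [pow_zero] at h
      linarith
    rw [h2]
    field_simp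
    ring
  rw [← ht]
  have himg : ∑ n ∈ G, r ^ n = ∑ n ∈ G.image (fun n => n - 1), r ^ (n + 1) := by
    rw [Finset.sum_image]
    · refine Finset.sum_congr rfl fun n hn => ?_
      have := hG n hn
      congr 1
      omega
    · intro a ha b hb hab
      have h1 := hG a ha
      have h2 := hG b hb
      simp only at hab
      omega
  rw [himg]
  exact hs'.sum_le_tsum _ (fun n _ => by (clear * - h0; positivity))

/-- Sum of powers of `r` over nonzero integers. -/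
theorem sum_pow_int_le {r : ℝ} (h0 : 0 ≤ r) (h1 : r < 1) (F : Finset ℤ) (hF : ∀ d ∈ F, d ≠ 0) :
    ∑ d ∈ F, r ^ d.natAbs ≤ 2 * (r / (1 - r)) := by
  have hsplit : ∑ d ∈ F, r ^ d.natAbs
      = ∑ d ∈ F.filter (fun d => 0 < d), r ^ d.natAbs
        + ∑ d ∈ F.filter (fun d => ¬ 0 < d), r ^ d.natAbs :=
    (Finset.sum_filter_add_sum_filter_not F _ _).symm
  have hA : ∑ d ∈ F.filter (fun d => 0 < d), r ^ d.natAbs ≤ r / (1 - r) := by
    have : ∑ d ∈ F.filter (fun d => 0 < d), r ^ d.natAbs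
        = ∑ n ∈ (F.filter (fun d => 0 < d)).image Int.natAbs, r ^ n := by
      rw [Finset.sum_image]
      intro a ha b hb hab
      simp only [Finset.coe_filter, Set.mem_ofPred_eq] at ha hb
      omega
    rw [this]
    refine sum_pow_nat_le h0 h1 _ ?_
    intro n hn
    obtain ⟨d, hd, rfl⟩ := Finset.mem_image.1 hn
    have := hF d (Finset.mem_filter.1 hd).1
    omega
  have hB : ∑ d ∈ F.filter (fun d => ¬ 0 < d), r ^ d.natAbs ≤ r / (1 - r) := by
    have : ∑ d ∈ F.filter (fun d => ¬ 0 < d), r ^ d.natAbs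
        = ∑ n ∈ (F.filter (fun d => ¬ 0 < d)).image Int.natAbs, r ^ n := by
      rw [Finset.sum_image]
      intro a ha b hb hab
      simp only [Finset.coe_filter, Set.mem_ofPred_eq] at ha hb
      omega
    rw [this]
    refine sum_pow_nat_le h0 h1 _ ?_
    intro n hn
    obtain ⟨d, hd, rfl⟩ := Finset.mem_image.1 hn
    have := hF d (Finset.mem_filter.1 hd).1
    omega
  linarith

/-- Weighted inequality between geometric and arithmetic means, three terms. -/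
theorem amgm3 {α β s c : ℝ} (hα : 0 < α) (hβ : 0 < β) (hs : 0 < s) (hsum : α + β + s = 1)
    (hc : 0 < c) {X Y Z : ℝ} (hX : 0 ≤ X) (hY : 0 ≤ Y) (hZ : 0 ≤ Z) :
    X ^ α * Y ^ β * Z ^ s ≤ c * X + c * Y + c ^ (-((α + β) / s)) * Z := by
  have hc' : 0 ≤ c ^ (-((α + β) / s)) := (Real.rpow_pos_of_pos hc _).le
  have h := Real.geom_mean_le_arith_mean3_weighted hα.le hβ.le hs.le
    (mul_nonneg hc.le hX) (mul_nonneg hc.le hY) (mul_nonneg hc' hZ) hsum
  have e : (c * X) ^ α * (c * Y) ^ β * (c ^ (-((α + β) / s)) * Z) ^ s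
      = X ^ α * Y ^ β * Z ^ s := by
    rw [Real.mul_rpow hc.le hX, Real.mul_rpow hc.le hY, Real.mul_rpow hc' hZ, ← Real.rpow_mul hc.le]
    have : -((α + β) / s) * s = -(α + β) := by (clear * - hs hα hβ; field_simp)
    rw [this]
    have h3 : c ^ α * c ^ β * c ^ (-(α + β)) = 1 := by
      rw [← Real.rpow_add hc, ← Real.rpow_add hc]
      simp
    calc c ^ α * X ^ α * (c ^ β * Y ^ β) * (c ^ (-(α + β)) * Z ^ s)
        = (c ^ α * c ^ β * c ^ (-(α + β))) * (X ^ α * Y ^ β * Z ^ s) := by ring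
      _ = _ := by rw [h3, one_mul]
  rw [e] at h
  refine h.trans ?_
  have hα1 : α ≤ 1 := by linarith only [hβ, hs, hsum]
  have hβ1 : β ≤ 1 := by linarith only [hα, hs, hsum]
  have hs1 : s ≤ 1 := by linarith only [hα, hβ, hsum]
  have i1 : α * (c * X) ≤ c * X := mul_le_of_le_one_left (mul_nonneg hc.le hX) hα1
  have i2 : β * (c * Y) ≤ c * Y := mul_le_of_le_one_left (mul_nonneg hc.le hY) hβ1
  have i3 : s * (c ^ (-((α + β) / s)) * Z) ≤ c ^ (-((α + β) / s)) * Z :=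
    mul_le_of_le_one_left (mul_nonneg hc' hZ) hs1
  linarith only [i1, i2, i3]

/-- The kernel `p^(-s |d|)`. -/
noncomputable def ker (p s : ℝ) (d : ℤ) : ℝ := (p⁻¹ ^ d.natAbs) ^ s

theorem ker_nonneg {p : ℝ} (hp : 2 ≤ p) (s : ℝ) (d : ℤ) : 0 ≤ ker p s d := by
  have : 0 ≤ p⁻¹ := by positivity
  exact Real.rpow_nonneg (pow_nonneg this _) _

theorem ker_zero (p s : ℝ) : ker p s 0 = 1 := by
  simp only [ker, Int.natAbs_zero, pow_zero, Real.one_rpow]

theorem ker_eq {p : ℝ} (hp : 2 ≤ p) (s : ℝ) (d : ℤ) : ker p s d = ((p⁻¹) ^ s) ^ d.natAbs := by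
  have h0 : 0 ≤ p⁻¹ := by positivity
  unfold ker
  rw [← Real.rpow_natCast, ← Real.rpow_natCast, ← Real.rpow_mul h0, ← Real.rpow_mul h0, mul_comm]

theorem ker_neg (p s : ℝ) (d : ℤ) : ker p s (-d) = ker p s d := by
  simp [ker]

theorem sum_ker_le {p s : ℝ} (hp : 2 ≤ p) (hs : 0 < s) (F : Finset ℤ) (hF : ∀ d ∈ F, d ≠ 0) :
    ∑ d ∈ F, ker p s d ≤ 2 * ((p⁻¹) ^ s / (1 - (p⁻¹) ^ s)) := by
  have h0 : 0 ≤ (p⁻¹) ^ s := Real.rpow_nonneg (by positivity) _
  have h1 : (p⁻¹) ^ s < 1 := by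
    refine Real.rpow_lt_one (by positivity) ?_ hs
    rw [inv_lt_one₀ (by linarith only [hp])]
    linarith only [hp]
  simp_rw [ker_eq hp]
  exact sum_pow_int_le h0 h1 F hF

/-- Off-diagonal part. -/
theorem offdiag_le {α p s : ℝ} (hp : 2 ≤ p) (hs : 0 < s) (I J : Finset ℕ)
    (x y : ℕ → ℝ) (hx : ∀ i, 0 ≤ x i) (hy : ∀ i, 0 ≤ y i) :
    ∑ i ∈ I, ∑ j ∈ J.filter (fun j => i ≠ j), x i ^ α * y j ^ α * ker p s ((i : ℤ) - j)
      ≤ 2 * ((p⁻¹) ^ s / (1 - (p⁻¹) ^ s))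
        * ((∑ i ∈ I, x i ^ (2 * α) + ∑ j ∈ J, y j ^ (2 * α)) / 2) := by
  set η := 2 * ((p⁻¹) ^ s / (1 - (p⁻¹) ^ s)) with hη
  have hsq : ∀ t : ℝ, 0 ≤ t → (t ^ α) ^ 2 = t ^ (2 * α) := by
    intro t ht
    rw [← Real.rpow_natCast, ← Real.rpow_mul ht]
    congr 1
    push_cast
    ring
  have step : ∀ i j : ℕ, x i ^ α * y j ^ α * ker p s ((i : ℤ) - j)
      ≤ x i ^ (2 * α) / 2 * ker p s ((i : ℤ) - j) + y j ^ (2 * α) / 2 * ker p s ((i : ℤ) - j) := by
    intro i j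
    have h1 : x i ^ α * y j ^ α ≤ x i ^ (2 * α) / 2 + y j ^ (2 * α) / 2 := by
      rw [← hsq _ (hx i), ← hsq _ (hy j)]
      nlinarith only [sq_nonneg (x i ^ α - y j ^ α)]
    have := mul_le_mul_of_nonneg_right h1 (ker_nonneg hp s ((i : ℤ) - j))
    linarith only [this]
  have hrow : ∀ i : ℕ, ∀ K : Finset ℕ, ∑ j ∈ K.filter (fun j => i ≠ j), ker p s ((i : ℤ) - j) ≤ η := by
    intro i K
    have : ∑ j ∈ K.filter (fun j => i ≠ j), ker p s ((i : ℤ) - j)
        = ∑ d ∈ (K.filter (fun j => i ≠ j)).image (fun j : ℕ => (i : ℤ) - j), ker p s d := by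
      rw [Finset.sum_image]
      intro a _ b _ hab
      simp only at hab
      omega
    rw [this]
    refine sum_ker_le hp hs _ ?_
    intro d hd
    obtain ⟨j, hj, rfl⟩ := Finset.mem_image.1 hd
    have := (Finset.mem_filter.1 hj).2
    omega
  have hcol : ∀ j : ℕ, ∀ K : Finset ℕ, ∑ i ∈ K.filter (fun i => i ≠ j), ker p s ((i : ℤ) - j) ≤ η := by
    intro j K
    have : ∑ i ∈ K.filter (fun i => i ≠ j), ker p s ((i : ℤ) - j)
        = ∑ d ∈ (K.filter (fun i => i ≠ j)).image (fun i : ℕ => (i : ℤ) - j), ker p s d := by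
      rw [Finset.sum_image]
      intro a _ b _ hab
      simp only at hab
      omega
    rw [this]
    refine sum_ker_le hp hs _ ?_
    intro d hd
    obtain ⟨i, hi, rfl⟩ := Finset.mem_image.1 hd
    have := (Finset.mem_filter.1 hi).2
    omega
  calc ∑ i ∈ I, ∑ j ∈ J.filter (fun j => i ≠ j), x i ^ α * y j ^ α * ker p s ((i : ℤ) - j)
      ≤ ∑ i ∈ I, ∑ j ∈ J.filter (fun j => i ≠ j), (x i ^ (2 * α) / 2 * ker p s ((i : ℤ) - j)
          + y j ^ (2 * α) / 2 * ker p s ((i : ℤ) - j)) :=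
        Finset.sum_le_sum fun i _ => Finset.sum_le_sum fun j _ => step i j
    _ = ∑ i ∈ I, ∑ j ∈ J.filter (fun j => i ≠ j), x i ^ (2 * α) / 2 * ker p s ((i : ℤ) - j)
        + ∑ i ∈ I, ∑ j ∈ J.filter (fun j => i ≠ j), y j ^ (2 * α) / 2 * ker p s ((i : ℤ) - j) := by
        simp only [Finset.sum_add_distrib]
    _ = ∑ i ∈ I, ∑ j ∈ J.filter (fun j => i ≠ j), x i ^ (2 * α) / 2 * ker p s ((i : ℤ) - j)
        + ∑ j ∈ J, ∑ i ∈ I.filter (fun i => i ≠ j), y j ^ (2 * α) / 2 * ker p s ((i : ℤ) - j) := by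
        congr 1
        simp only [Finset.sum_filter]
        rw [Finset.sum_comm]
    _ ≤ ∑ i ∈ I, x i ^ (2 * α) / 2 * η + ∑ j ∈ J, y j ^ (2 * α) / 2 * η := by
        refine add_le_add (Finset.sum_le_sum fun i _ => ?_) (Finset.sum_le_sum fun j _ => ?_)
        · rw [← Finset.mul_sum]
          exact mul_le_mul_of_nonneg_left (hrow i J)
            (div_nonneg (Real.rpow_nonneg (hx i) _) (by norm_num))
        · rw [← Finset.mul_sum]
          exact mul_le_mul_of_nonneg_left (hcol j I)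
            (div_nonneg (Real.rpow_nonneg (hy j) _) (by norm_num))
    _ = η * ((∑ i ∈ I, x i ^ (2 * α) + ∑ j ∈ J, y j ^ (2 * α)) / 2) := by
        rw [← Finset.sum_mul, ← Finset.sum_mul, ← Finset.sum_div, ← Finset.sum_div]
        ring


/-- Bound for a row or a column through the dominating index. -/
theorem cross_le {α β s c p : ℝ} (hα : 0 < α) (hβ : 0 < β) (hs : 0 < s) (hsum : α + β + s = 1)
    (hc : 0 < c) (hp : 2 ≤ p) (J : Finset ℕ) (D : Finset ℤ) (y : ℕ → ℝ) (z : ℤ → ℝ)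
    (hy : ∀ j, 0 ≤ y j) (hz : ∀ d, 0 ≤ z d) (g : ℕ → ℤ) (ginj : Function.Injective g)
    (hg0 : ∀ j ∈ J, g j ≠ 0) (hgD : ∀ j ∈ J, g j ∈ D) :
    ∑ j ∈ J, y j ^ α * z (g j) ^ β * ker p s (g j)
      ≤ c * ∑ j ∈ J, y j + c * ∑ d ∈ D.erase 0, z d + c ^ (-((α + β) / s)) * (4 / p) := by
  have hp0 : 0 < p := by linarith only [hp]
  have hc' : 0 ≤ c ^ (-((α + β) / s)) := (Real.rpow_pos_of_pos hc _).le
  have h1 : ∑ j ∈ J, y j ^ α * z (g j) ^ β * ker p s (g j)
      ≤ ∑ j ∈ J, (c * y j + c * z (g j) + c ^ (-((α + β) / s)) * (p⁻¹) ^ (g j).natAbs) := by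
    refine Finset.sum_le_sum fun j _ => ?_
    exact amgm3 hα hβ hs hsum hc (hy j) (hz _) (by positivity)
  refine h1.trans ?_
  rw [Finset.sum_add_distrib, Finset.sum_add_distrib, ← Finset.mul_sum, ← Finset.mul_sum,
    ← Finset.mul_sum]
  have hz' : ∑ j ∈ J, z (g j) ≤ ∑ d ∈ D.erase 0, z d := by
    rw [← Finset.sum_image (f := z) (s := J) (g := g) (fun a _ b _ h => ginj h)]
    refine Finset.sum_le_sum_of_subset_of_nonneg ?_ (fun d _ _ => hz d)
    intro d hd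
    obtain ⟨j, hj, rfl⟩ := Finset.mem_image.1 hd
    exact Finset.mem_erase.2 ⟨hg0 j hj, hgD j hj⟩
  have hw : ∑ j ∈ J, (p⁻¹) ^ (g j).natAbs ≤ 4 / p := by
    have e : ∑ j ∈ J, (p⁻¹) ^ (g j).natAbs = ∑ d ∈ J.image g, (p⁻¹) ^ d.natAbs := by
      rw [Finset.sum_image (fun a _ b _ h => ginj h)]
    rw [e]
    have hlt : p⁻¹ < 1 := by
      rw [inv_lt_one₀ hp0]
      linarith only [hp]
    refine (sum_pow_int_le (by positivity) hlt _ ?_).trans ?_
    · intro d hd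
      obtain ⟨j, hj, rfl⟩ := Finset.mem_image.1 hd
      exact hg0 j hj
    · have h3 : p⁻¹ / (1 - p⁻¹) = 1 / (p - 1) := by
        have : p - 1 ≠ 0 := by linarith only [hp]
        have : 1 - p⁻¹ ≠ 0 := by
          intro h
          linarith only [hlt, h]
        field_simp
      rw [h3, ← mul_div_assoc, div_le_div_iff₀ (by linarith only [hp]) hp0]
      linarith only [hp]
  have := mul_le_mul_of_nonneg_left hz' hc.le
  have := mul_le_mul_of_nonneg_left hw hc'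
  linarith

/-- Near case: both sequences are concentrated at the same index. -/
theorem near_case {α β s c θ η p : ℝ} (hα : 1 / 2 < α) (hβ : 0 < β) (hs : 0 < s)
    (hsum : α + β + s = 1) (hc : 0 < c) (hcβ : c ≤ β / 6) (hcα : c ≤ α / 6)
    (hη : 2 * ((p⁻¹) ^ s / (1 - (p⁻¹) ^ s)) ≤ η) (hη0 : 0 ≤ η)
    (hθ : (1 + η) * θ ^ (2 * α - 1) / 2 ≤ α / 6)
    (hp : 2 ≤ p) (I : Finset ℕ) (D : Finset ℤ) (x y : ℕ → ℝ) (z : ℤ → ℝ)
    (hx : ∀ j, 0 ≤ x j) (hy : ∀ j, 0 ≤ y j) (hz : ∀ d, 0 ≤ z d)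
    (hD : ∀ i ∈ I, ∀ j ∈ I, (i : ℤ) - j ∈ D) (hxs : ∑ i ∈ I, x i ≤ 1) (hys : ∑ i ∈ I, y i ≤ 1)
    (hzs : ∑ d ∈ D, z d ≤ 1) (k : ℕ) (hk : k ∈ I) (hxk : 1 - θ ≤ x k) (hyk : 1 - θ ≤ y k) :
    ∑ i ∈ I, ∑ j ∈ I, x i ^ α * y j ^ α * z ((i : ℤ) - j) ^ β * ker p s ((i : ℤ) - j)
      ≤ 1 + 2 * (c ^ (-((α + β) / s)) * (4 / p)) := by
  have hα0 : 0 < α := by linarith only [hα]
  have h0D : (0 : ℤ) ∈ D := by simpa only [sub_self] using hD k hk k hk
  set I' := I.erase k with hI'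
  set A := ∑ i ∈ I', x i with hA
  set B := ∑ i ∈ I', y i with hB
  set Z := ∑ d ∈ D.erase 0, z d with hZ
  have hxA : x k + A ≤ 1 := by
    rw [hA, hI', Finset.add_sum_erase I x hk]
    exact hxs
  have hyB : y k + B ≤ 1 := by
    rw [hB, hI', Finset.add_sum_erase I y hk]
    exact hys
  have hzZ : z 0 + Z ≤ 1 := by
    rw [hZ, Finset.add_sum_erase D z h0D]
    exact hzs
  have hA0 : 0 ≤ A := Finset.sum_nonneg fun i _ => hx i
  have hB0 : 0 ≤ B := Finset.sum_nonneg fun i _ => hy i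
  have hZ0 : 0 ≤ Z := Finset.sum_nonneg fun i _ => hz i
  have hAθ : A ≤ θ := by linarith only [hxk, hxA]
  have hBθ : B ≤ θ := by linarith only [hyk, hyB]
  have hz1 : ∀ d ∈ D, z d ≤ 1 := fun d hd =>
    (Finset.single_le_sum (fun i _ => hz i) hd).trans hzs
  have hA1 : A ≤ 1 := by linarith only [hxA, hx k]
  have hB1 : B ≤ 1 := by linarith only [hyB, hy k]
  have hZ1 : Z ≤ 1 := by linarith only [hzZ, hz 0]
  -- the corner term
  have T00 : x k ^ α * y k ^ α * z ((k : ℤ) - k) ^ β * ker p s ((k : ℤ) - k)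
      ≤ 1 - (α * A + α * B + β * Z) / 3 := by
    rw [sub_self, ker_zero, mul_one]
    have e1 : x k ^ α ≤ 1 - α * A := by
      have h1 : x k ^ α ≤ (1 + (-A)) ^ α :=
        Real.rpow_le_rpow (hx k) (by linarith only [hxA]) hα0.le
      have h2 := rpow_one_add_le_one_add_mul_self (s := -A) (by linarith only [hA1]) hα0.le
        (by linarith only [hs, hsum, hc, hcβ] : α ≤ 1)
      linarith only [h1, h2]
    have e2 : y k ^ α ≤ 1 - α * B := by
      have h1 : y k ^ α ≤ (1 + (-B)) ^ α :=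
        Real.rpow_le_rpow (hy k) (by linarith only [hyB]) hα0.le
      have h2 := rpow_one_add_le_one_add_mul_self (s := -B) (by linarith only [hB1]) hα0.le
        (by linarith only [hs, hsum, hc, hcβ] : α ≤ 1)
      linarith only [h1, h2]
    have e3 : z 0 ^ β ≤ 1 - β * Z := by
      have h1 : z 0 ^ β ≤ (1 + (-Z)) ^ β :=
        Real.rpow_le_rpow (hz 0) (by linarith only [hzZ]) hβ.le
      have h2 := rpow_one_add_le_one_add_mul_self (s := -Z) (by linarith only [hZ1]) hβ.le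
        (by linarith only [hα, hs, hsum] : β ≤ 1)
      linarith only [h1, h2]
    have f1 : 0 ≤ x k ^ α := Real.rpow_nonneg (hx k) _
    have f2 : 0 ≤ y k ^ α := Real.rpow_nonneg (hy k) _
    have f3 : 0 ≤ z 0 ^ β := Real.rpow_nonneg (hz 0) _
    have g1 : 0 ≤ α * A := by (clear * - hα hA0; positivity)
    have g2 : 0 ≤ α * B := by (clear * - hα hB0; positivity)
    have g3 : 0 ≤ β * Z := by (clear * - hβ hZ0; positivity)
    have m1 : x k ^ α * y k ^ α * z 0 ^ β ≤ x k ^ α := by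
      calc x k ^ α * y k ^ α * z 0 ^ β ≤ x k ^ α * 1 * 1 := by
            gcongr
            · linarith only [e2, g2]
            · linarith only [e3, g3]
        _ = _ := by ring
    have m2 : x k ^ α * y k ^ α * z 0 ^ β ≤ y k ^ α := by
      calc x k ^ α * y k ^ α * z 0 ^ β ≤ 1 * y k ^ α * 1 := by
            gcongr
            · linarith only [e1, g1]
            · linarith only [e3, g3]
        _ = _ := by ring
    have m3 : x k ^ α * y k ^ α * z 0 ^ β ≤ z 0 ^ β := by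
      calc x k ^ α * y k ^ α * z 0 ^ β ≤ 1 * 1 * z 0 ^ β := by
            gcongr
            · linarith only [e1, g1]
            · linarith only [e2, g2]
        _ = _ := by ring
    linarith only [e1, e2, e3, m1, m2, m3]
  -- the row
  have hcd : 0 ≤ c ^ (-((α + β) / s)) * (4 / p) := by
    have : 0 ≤ c ^ (-((α + β) / s)) := (Real.rpow_pos_of_pos hc _).le
    positivity
  have hxk1 : x k ^ α ≤ 1 := Real.rpow_le_one (hx k) (by linarith only [hxA, hA0]) hα0.le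
  have hyk1 : y k ^ α ≤ 1 := Real.rpow_le_one (hy k) (by linarith only [hyB, hB0]) hα0.le
  have T01 : ∑ j ∈ I', x k ^ α * y j ^ α * z ((k : ℤ) - j) ^ β * ker p s ((k : ℤ) - j)
      ≤ c * B + c * Z + c ^ (-((α + β) / s)) * (4 / p) := by
    have h := cross_le hα0 hβ hs hsum hc hp I' D y z hy hz (fun j : ℕ => (k : ℤ) - j)
      (fun a b h => by simp only at h; (clear * - h; omega))
      (fun j hj => by
        have := (Finset.mem_erase.1 hj).1
        omega)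
      (fun j hj => hD k hk j (Finset.mem_erase.1 hj).2)
    refine le_trans ?_ h
    refine Finset.sum_le_sum fun j _ => ?_
    have : 0 ≤ y j ^ α * z ((k : ℤ) - j) ^ β * ker p s ((k : ℤ) - j) :=
      mul_nonneg (mul_nonneg (Real.rpow_nonneg (hy j) _) (Real.rpow_nonneg (hz _) _))
        (ker_nonneg hp s _)
    calc x k ^ α * y j ^ α * z ((k : ℤ) - j) ^ β * ker p s ((k : ℤ) - j)
        = x k ^ α * (y j ^ α * z ((k : ℤ) - j) ^ β * ker p s ((k : ℤ) - j)) := by ring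
      _ ≤ 1 * (y j ^ α * z ((k : ℤ) - j) ^ β * ker p s ((k : ℤ) - j)) :=
          mul_le_mul_of_nonneg_right hxk1 this
      _ = _ := by ring
  have T10 : ∑ i ∈ I', x i ^ α * y k ^ α * z ((i : ℤ) - k) ^ β * ker p s ((i : ℤ) - k)
      ≤ c * A + c * Z + c ^ (-((α + β) / s)) * (4 / p) := by
    have h := cross_le hα0 hβ hs hsum hc hp I' D x z hx hz (fun j : ℕ => (j : ℤ) - k)
      (fun a b h => by simp only at h; omega)
      (fun j hj => by
        have := (Finset.mem_erase.1 hj).1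
        omega)
      (fun j hj => hD j (Finset.mem_erase.1 hj).2 k hk)
    refine le_trans ?_ h
    refine Finset.sum_le_sum fun j _ => ?_
    have : 0 ≤ x j ^ α * z ((j : ℤ) - k) ^ β * ker p s ((j : ℤ) - k) :=
      mul_nonneg (mul_nonneg (Real.rpow_nonneg (hx j) _) (Real.rpow_nonneg (hz _) _))
        (ker_nonneg hp s _)
    calc x j ^ α * y k ^ α * z ((j : ℤ) - k) ^ β * ker p s ((j : ℤ) - k)
        = y k ^ α * (x j ^ α * z ((j : ℤ) - k) ^ β * ker p s ((j : ℤ) - k)) := by ring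
      _ ≤ 1 * (x j ^ α * z ((j : ℤ) - k) ^ β * ker p s ((j : ℤ) - k)) :=
          mul_le_mul_of_nonneg_right hyk1 this
      _ = _ := by ring
  -- the rest
  have hpow : ∀ t : ℝ, 0 ≤ t → t ≤ θ → t ^ (2 * α) ≤ θ ^ (2 * α - 1) * t := by
    intro t ht htθ
    rcases eq_or_lt_of_le ht with h | h
    · rw [← h, Real.zero_rpow (by linarith only [hα]), mul_zero]
    · have : t ^ (2 * α) = t ^ (2 * α - 1) * t := by
        rw [← Real.rpow_add_one h.ne']
        congr 1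
        ring
      rw [this]
      exact mul_le_mul_of_nonneg_right (Real.rpow_le_rpow ht htθ (by linarith only [hα])) ht
  have hX2 : ∑ i ∈ I', x i ^ (2 * α) ≤ θ ^ (2 * α - 1) * A := by
    rw [hA, Finset.mul_sum]
    refine Finset.sum_le_sum fun i hi => hpow _ (hx i) ?_
    exact (Finset.single_le_sum (fun i _ => hx i) hi).trans hAθ
  have hY2 : ∑ i ∈ I', y i ^ (2 * α) ≤ θ ^ (2 * α - 1) * B := by
    rw [hB, Finset.mul_sum]
    refine Finset.sum_le_sum fun i hi => hpow _ (hy i) ?_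
    exact (Finset.single_le_sum (fun i _ => hy i) hi).trans hBθ
  have hsq : ∀ t : ℝ, 0 ≤ t → (t ^ α) ^ 2 = t ^ (2 * α) := by
    intro t ht
    rw [← Real.rpow_natCast, ← Real.rpow_mul ht]
    congr 1
    push_cast
    ring
  have T11 : ∑ i ∈ I', ∑ j ∈ I', x i ^ α * y j ^ α * z ((i : ℤ) - j) ^ β * ker p s ((i : ℤ) - j)
      ≤ α / 6 * (A + B) := by
    have h1 : ∑ i ∈ I', ∑ j ∈ I', x i ^ α * y j ^ α * z ((i : ℤ) - j) ^ β * ker p s ((i : ℤ) - j)
        ≤ ∑ i ∈ I', ∑ j ∈ I', x i ^ α * y j ^ α * ker p s ((i : ℤ) - j) := by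
      refine Finset.sum_le_sum fun i hi => Finset.sum_le_sum fun j hj => ?_
      have hzd : z ((i : ℤ) - j) ^ β ≤ 1 :=
        Real.rpow_le_one (hz _) (hz1 _ (hD i (Finset.mem_erase.1 hi).2 j (Finset.mem_erase.1 hj).2))
          hβ.le
      have hxy : 0 ≤ x i ^ α * y j ^ α :=
        mul_nonneg (Real.rpow_nonneg (hx i) _) (Real.rpow_nonneg (hy j) _)
      have hk' := ker_nonneg hp s ((i : ℤ) - j)
      calc x i ^ α * y j ^ α * z ((i : ℤ) - j) ^ β * ker p s ((i : ℤ) - j)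
          ≤ x i ^ α * y j ^ α * 1 * ker p s ((i : ℤ) - j) := by (clear * - hzd hxy hk'; gcongr)
        _ = _ := by ring
    have h2 : ∑ i ∈ I', ∑ j ∈ I', x i ^ α * y j ^ α * ker p s ((i : ℤ) - j)
        = ∑ i ∈ I', ∑ j ∈ I'.filter (fun j => i ≠ j), x i ^ α * y j ^ α * ker p s ((i : ℤ) - j)
          + ∑ i ∈ I', x i ^ α * y i ^ α := by
      rw [← Finset.sum_add_distrib]
      refine Finset.sum_congr rfl fun i hi => ?_
      have e := Finset.sum_filter_add_sum_filter_not I' (fun j => i ≠ j)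
        (fun j => x i ^ α * y j ^ α * ker p s ((i : ℤ) - j))
      rw [← e]
      congr 1
      have : I'.filter (fun j => ¬ i ≠ j) = {i} := by
        ext j
        simp only [Finset.mem_filter, not_not, Finset.mem_singleton]
        constructor
        · rintro ⟨_, h⟩
          exact h.symm
        · rintro rfl
          exact ⟨hi, rfl⟩
      rw [this, Finset.sum_singleton, sub_self, ker_zero, mul_one]
    have h3 := offdiag_le (α := α) hp hs I' I' x y hx hy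
    have h4 : ∑ i ∈ I', x i ^ α * y i ^ α
        ≤ (∑ i ∈ I', x i ^ (2 * α) + ∑ j ∈ I', y j ^ (2 * α)) / 2 := by
      rw [← Finset.sum_add_distrib, Finset.sum_div]
      refine Finset.sum_le_sum fun i _ => ?_
      rw [← hsq _ (hx i), ← hsq _ (hy i)]
      nlinarith only [sq_nonneg (x i ^ α - y i ^ α)]
    have hS : 0 ≤ (∑ i ∈ I', x i ^ (2 * α) + ∑ j ∈ I', y j ^ (2 * α)) / 2 := by
      have a1 : 0 ≤ ∑ i ∈ I', x i ^ (2 * α) :=
        Finset.sum_nonneg fun i _ => Real.rpow_nonneg (hx i) _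
      have a2 : 0 ≤ ∑ i ∈ I', y i ^ (2 * α) :=
        Finset.sum_nonneg fun i _ => Real.rpow_nonneg (hy i) _
      linarith only [a1, a2]
    have h5 : (∑ i ∈ I', x i ^ (2 * α) + ∑ j ∈ I', y j ^ (2 * α)) / 2
        ≤ θ ^ (2 * α - 1) * (A + B) / 2 := by
      have := add_le_add hX2 hY2
      linarith only [hX2, hY2]
    have h6 : (1 + η) * ((∑ i ∈ I', x i ^ (2 * α) + ∑ j ∈ I', y j ^ (2 * α)) / 2)
        ≤ (1 + η) * (θ ^ (2 * α - 1) * (A + B) / 2) :=
      mul_le_mul_of_nonneg_left h5 (by linarith only [hη0])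
    have h7 : 2 * ((p⁻¹) ^ s / (1 - (p⁻¹) ^ s))
        * ((∑ i ∈ I', x i ^ (2 * α) + ∑ j ∈ I', y j ^ (2 * α)) / 2)
        ≤ η * ((∑ i ∈ I', x i ^ (2 * α) + ∑ j ∈ I', y j ^ (2 * α)) / 2) :=
      mul_le_mul_of_nonneg_right hη hS
    have h8 : (1 + η) * (θ ^ (2 * α - 1) * (A + B) / 2) = ((1 + η) * θ ^ (2 * α - 1) / 2) * (A + B) := by
      ring
    have h9 : ((1 + η) * θ ^ (2 * α - 1) / 2) * (A + B) ≤ α / 6 * (A + B) :=
      mul_le_mul_of_nonneg_right hθ (by linarith only [hA0, hB0])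
    linarith only [h1, h2, h3, h4, h6, h7, h9]
  -- total
  have split : ∑ i ∈ I, ∑ j ∈ I, x i ^ α * y j ^ α * z ((i : ℤ) - j) ^ β * ker p s ((i : ℤ) - j)
      = x k ^ α * y k ^ α * z ((k : ℤ) - k) ^ β * ker p s ((k : ℤ) - k)
        + ∑ j ∈ I', x k ^ α * y j ^ α * z ((k : ℤ) - j) ^ β * ker p s ((k : ℤ) - j)
        + (∑ i ∈ I', x i ^ α * y k ^ α * z ((i : ℤ) - k) ^ β * ker p s ((i : ℤ) - k)
          + ∑ i ∈ I', ∑ j ∈ I', x i ^ α * y j ^ α * z ((i : ℤ) - j) ^ β * ker p s ((i : ℤ) - j)) := by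
    rw [← Finset.add_sum_erase I _ hk, ← Finset.add_sum_erase I (fun j => x k ^ α * y j ^ α *
      z ((k : ℤ) - j) ^ β * ker p s ((k : ℤ) - j)) hk, ← Finset.sum_add_distrib]
    congr 1
    refine Finset.sum_congr rfl fun i _ => ?_
    rw [← Finset.add_sum_erase I _ hk]
  rw [split]
  have i1 : c * B ≤ α / 6 * B := mul_le_mul_of_nonneg_right hcα hB0
  have i2 : c * A ≤ α / 6 * A := mul_le_mul_of_nonneg_right hcα hA0
  have i3 : c * Z ≤ β / 6 * Z := mul_le_mul_of_nonneg_right hcβ hZ0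
  linarith only [T00, T01, T10, T11, i1, i2, i3]

/-- Far case: no common dominating index. -/
theorem far_case {α β s θ p : ℝ} (hα : 1 / 2 < α) (hβ : 0 < β) (hs : 0 < s) (hθ1 : θ ≤ 1)
    (hp : 2 ≤ p) (I : Finset ℕ) (D : Finset ℤ) (x y : ℕ → ℝ) (z : ℤ → ℝ)
    (hx : ∀ j, 0 ≤ x j) (hy : ∀ j, 0 ≤ y j) (hz : ∀ d, 0 ≤ z d)
    (hD : ∀ i ∈ I, ∀ j ∈ I, (i : ℤ) - j ∈ D) (hxs : ∑ i ∈ I, x i ≤ 1) (hys : ∑ i ∈ I, y i ≤ 1)
    (hzs : ∑ d ∈ D, z d ≤ 1) (hfar : ∀ k ∈ I, 1 - θ ≤ x k → y k ≤ 1 - θ) :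
    ∑ i ∈ I, ∑ j ∈ I, x i ^ α * y j ^ α * z ((i : ℤ) - j) ^ β * ker p s ((i : ℤ) - j)
      ≤ (1 - θ) ^ (α - 1 / 2) + 2 * ((p⁻¹) ^ s / (1 - (p⁻¹) ^ s)) := by
  have hα0 : 0 < α := by linarith
  have hz1 : ∀ d ∈ D, z d ≤ 1 := fun d hd =>
    (Finset.single_le_sum (fun i _ => hz i) hd).trans hzs
  have hx1 : ∀ i ∈ I, x i ≤ 1 := fun i hi =>
    (Finset.single_le_sum (fun i _ => hx i) hi).trans hxs
  have hy1 : ∀ i ∈ I, y i ≤ 1 := fun i hi =>
    (Finset.single_le_sum (fun i _ => hy i) hi).trans hys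
  have h1 : ∑ i ∈ I, ∑ j ∈ I, x i ^ α * y j ^ α * z ((i : ℤ) - j) ^ β * ker p s ((i : ℤ) - j)
      ≤ ∑ i ∈ I, ∑ j ∈ I, x i ^ α * y j ^ α * ker p s ((i : ℤ) - j) := by
    refine Finset.sum_le_sum fun i hi => Finset.sum_le_sum fun j hj => ?_
    have hzd : z ((i : ℤ) - j) ^ β ≤ 1 :=
      Real.rpow_le_one (hz _) (hz1 _ (hD i hi j hj)) hβ.le
    have hxy : 0 ≤ x i ^ α * y j ^ α :=
      mul_nonneg (Real.rpow_nonneg (hx i) _) (Real.rpow_nonneg (hy j) _)
    have hk' := ker_nonneg hp s ((i : ℤ) - j)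
    calc x i ^ α * y j ^ α * z ((i : ℤ) - j) ^ β * ker p s ((i : ℤ) - j)
        ≤ x i ^ α * y j ^ α * 1 * ker p s ((i : ℤ) - j) := by (clear * - hzd hxy hk'; gcongr)
      _ = _ := by ring
  have h2 : ∑ i ∈ I, ∑ j ∈ I, x i ^ α * y j ^ α * ker p s ((i : ℤ) - j)
      = ∑ i ∈ I, ∑ j ∈ I.filter (fun j => i ≠ j), x i ^ α * y j ^ α * ker p s ((i : ℤ) - j)
        + ∑ i ∈ I, x i ^ α * y i ^ α := by
    rw [← Finset.sum_add_distrib]
    refine Finset.sum_congr rfl fun i hi => ?_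
    have e := Finset.sum_filter_add_sum_filter_not I (fun j => i ≠ j)
      (fun j => x i ^ α * y j ^ α * ker p s ((i : ℤ) - j))
    rw [← e]
    congr 1
    have : I.filter (fun j => ¬ i ≠ j) = {i} := by
      ext j
      simp only [Finset.mem_filter, not_not, Finset.mem_singleton]
      constructor
      · rintro ⟨_, h⟩
        exact h.symm
      · rintro rfl
        exact ⟨hi, rfl⟩
    rw [this, Finset.sum_singleton, sub_self, ker_zero, mul_one]
  have h3 := offdiag_le (α := α) hp hs I I x y hx hy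
  have hpow : ∀ t : ℝ, 0 ≤ t → t ≤ 1 → t ^ (2 * α) ≤ t := by
    intro t ht ht1
    rcases eq_or_lt_of_le ht with h | h
    · rw [← h, Real.zero_rpow (by linarith only [hα])]
    · calc t ^ (2 * α) ≤ t ^ (1 : ℝ) :=
          Real.rpow_le_rpow_of_exponent_ge h ht1 (by linarith only [hα])
        _ = t := Real.rpow_one t
  have hX2 : ∑ i ∈ I, x i ^ (2 * α) ≤ 1 :=
    (Finset.sum_le_sum fun i hi => hpow _ (hx i) (hx1 i hi)).trans hxs
  have hY2 : ∑ i ∈ I, y i ^ (2 * α) ≤ 1 :=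
    (Finset.sum_le_sum fun i hi => hpow _ (hy i) (hy1 i hi)).trans hys
  have hη0 : 0 ≤ 2 * ((p⁻¹) ^ s / (1 - (p⁻¹) ^ s)) := by
    have h0 : 0 ≤ (p⁻¹) ^ s := Real.rpow_nonneg (by positivity) _
    have h1 : (p⁻¹) ^ s < 1 := by
      refine Real.rpow_lt_one (by positivity) ?_ hs
      rw [inv_lt_one₀ (by linarith only [hp])]
      linarith only [hp]
    have : 0 ≤ (p⁻¹) ^ s / (1 - (p⁻¹) ^ s) := div_nonneg h0 (by linarith only [h1])
    linarith only [this]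
  have h4 : ∑ i ∈ I, ∑ j ∈ I.filter (fun j => i ≠ j), x i ^ α * y j ^ α * ker p s ((i : ℤ) - j)
      ≤ 2 * ((p⁻¹) ^ s / (1 - (p⁻¹) ^ s)) := by
    refine h3.trans ?_
    calc _ ≤ 2 * ((p⁻¹) ^ s / (1 - (p⁻¹) ^ s)) * 1 :=
          mul_le_mul_of_nonneg_left (by linarith only [hX2, hY2]) hη0
      _ = _ := mul_one _
  have h5 : ∑ i ∈ I, x i ^ α * y i ^ α ≤ (1 - θ) ^ (α - 1 / 2) := by
    have hb : 0 ≤ (1 - θ) ^ (α - 1 / 2) := Real.rpow_nonneg (by linarith only [hθ1]) _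
    have key : ∀ i ∈ I, x i ^ α * y i ^ α ≤ (1 - θ) ^ (α - 1 / 2) * ((x i + y i) / 2) := by
      intro i hi
      rw [← Real.mul_rpow (hx i) (hy i)]
      have hxy : x i * y i ≤ 1 - θ := by
        by_cases h : 1 - θ ≤ x i
        · have := hfar i hi h
          have h1 := hx1 i hi
          nlinarith only [hθ1, this, h1, h]
        · push Not at h
          have h1 := hy1 i hi
          nlinarith only [hθ1, h1, h, hy i]
      have hxy0 : 0 ≤ x i * y i := mul_nonneg (hx i) (hy i)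
      rcases eq_or_lt_of_le hxy0 with h | h
      · rw [← h, Real.zero_rpow hα0.ne']
        have := hx i
        have := hy i
        (clear β s p hα hβ hs hp I D z hz hD hxs hys hzs hfar hα0 hz1 hx1 hy1 h1 h2 h3 hpow hX2 hY2 hη0 h4 hb hi hxy hxy0 h; positivity)
      · have e : (x i * y i) ^ α = (x i * y i) ^ (α - 1 / 2) * (x i * y i) ^ (1 / 2 : ℝ) := by
          rw [← Real.rpow_add h]
          congr 1
          ring
        rw [e]
        have e1 : (x i * y i) ^ (α - 1 / 2) ≤ (1 - θ) ^ (α - 1 / 2) :=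
          Real.rpow_le_rpow hxy0 hxy (by linarith only [hα])
        have e2 : (x i * y i) ^ (1 / 2 : ℝ) ≤ (x i + y i) / 2 := by
          rw [← Real.sqrt_eq_rpow]
          rw [Real.sqrt_le_left (by linarith only [hx i, hy i])]
          nlinarith only [sq_nonneg (x i - y i)]
        exact mul_le_mul e1 e2 (Real.rpow_nonneg hxy0 _) hb
    calc ∑ i ∈ I, x i ^ α * y i ^ α
        ≤ ∑ i ∈ I, (1 - θ) ^ (α - 1 / 2) * ((x i + y i) / 2) := Finset.sum_le_sum key
      _ = (1 - θ) ^ (α - 1 / 2) * ((∑ i ∈ I, x i + ∑ i ∈ I, y i) / 2) := by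
          rw [← Finset.mul_sum, ← Finset.sum_div, Finset.sum_add_distrib]
      _ ≤ (1 - θ) ^ (α - 1 / 2) * 1 := mul_le_mul_of_nonneg_left (by linarith only [hxs, hys]) hb
      _ = _ := mul_one _
  linarith only [h1, h2, h4, h5]

/-- Normalised one dimensional inequality. -/
theorem oneDim_norm {α β s : ℝ} (hα : 1 / 2 < α) (hβ : 0 < β) (hs : 0 < s)
    (hsum : α + β + s = 1) :
    ∃ C ≥ 0, ∀ p : ℝ, 2 ≤ p → ∀ (I : Finset ℕ) (D : Finset ℤ) (x y : ℕ → ℝ) (z : ℤ → ℝ),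
      (∀ j, 0 ≤ x j) → (∀ j, 0 ≤ y j) → (∀ d, 0 ≤ z d) →
      (∀ i ∈ I, ∀ j ∈ I, (i : ℤ) - j ∈ D) → ∑ i ∈ I, x i ≤ 1 → ∑ i ∈ I, y i ≤ 1 →
      ∑ d ∈ D, z d ≤ 1 →
      ∑ i ∈ I, ∑ j ∈ I, x i ^ α * y j ^ α * z ((i : ℤ) - j) ^ β * ker p s ((i : ℤ) - j)
        ≤ 1 + C / p := by
  have hα0 : 0 < α := by linarith
  set e2 : ℝ := (2⁻¹ : ℝ) ^ s with he2
  have he20 : 0 < e2 := Real.rpow_pos_of_pos (by norm_num) _
  have he21 : e2 < 1 := Real.rpow_lt_one (by norm_num) (by norm_num) hs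
  set η : ℝ := 2 * (e2 / (1 - e2)) with hη
  have hη0 : 0 ≤ η := by
    have : 0 ≤ e2 / (1 - e2) := div_nonneg he20.le (by linarith only [he21])
    linarith only [this]
  -- the dependence on p
  have hηp : ∀ p : ℝ, 2 ≤ p → 2 * ((p⁻¹) ^ s / (1 - (p⁻¹) ^ s)) ≤ η := by
    intro p hp
    have h1 : (p⁻¹) ^ s ≤ e2 := by
      refine Real.rpow_le_rpow (by positivity) ?_ hs.le
      exact inv_anti₀ (by norm_num) hp
    have h0 : 0 ≤ (p⁻¹) ^ s := Real.rpow_nonneg (by positivity) _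
    have : (p⁻¹) ^ s / (1 - (p⁻¹) ^ s) ≤ e2 / (1 - e2) := by
      rw [div_le_div_iff₀ (by linarith only [he21, h1]) (by linarith only [he21])]
      nlinarith only [h1]
    linarith only [this]
  -- choice of θ
  obtain ⟨θ, hθ0, hθ1, hθ⟩ : ∃ θ : ℝ, 0 < θ ∧ θ ≤ 1 / 2 ∧
      (1 + η) * θ ^ (2 * α - 1) / 2 ≤ α / 6 := by
    set w : ℝ := α / (3 * (1 + η)) with hw
    have hw0 : 0 < w := by positivity
    refine ⟨min (1 / 2) (w ^ (1 / (2 * α - 1))), ?_, min_le_left _ _, ?_⟩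
    · exact lt_min (by norm_num) (Real.rpow_pos_of_pos hw0 _)
    · have hpos : 0 < 2 * α - 1 := by linarith only [hα]
      have : (min (1 / 2) (w ^ (1 / (2 * α - 1)))) ^ (2 * α - 1) ≤ w := by
        calc (min (1 / 2) (w ^ (1 / (2 * α - 1)))) ^ (2 * α - 1)
            ≤ (w ^ (1 / (2 * α - 1))) ^ (2 * α - 1) :=
              Real.rpow_le_rpow (le_min (by norm_num) (Real.rpow_nonneg hw0.le _))
                (min_le_right _ _) hpos.le
          _ = w := by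
              rw [← Real.rpow_mul hw0.le]
              rw [one_div, inv_mul_cancel₀ hpos.ne', Real.rpow_one]
      have h3 : (1 + η) * (min (1 / 2) (w ^ (1 / (2 * α - 1)))) ^ (2 * α - 1) ≤ (1 + η) * w :=
        mul_le_mul_of_nonneg_left this (by linarith only [hη0])
      have h4 : (1 + η) * w = α / 3 := by
        rw [hw]
        have : (1 + η) ≠ 0 := by linarith only [hη0]
        field_simp
      linarith only [h3, h4]
  set c : ℝ := min (β / 6) (α / 6) with hc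
  have hc0 : 0 < c := lt_min (by linarith only [hβ]) (by linarith only [hα])
  set Cc : ℝ := c ^ (-((α + β) / s)) with hCc
  have hCc0 : 0 < Cc := Real.rpow_pos_of_pos hc0 _
  set G : ℝ := (1 - θ) ^ (α - 1 / 2) with hG
  have hG0 : 0 ≤ G := Real.rpow_nonneg (by linarith only [hθ1]) _
  have hG1 : G < 1 := Real.rpow_lt_one (by linarith only [hθ1]) (by linarith only [hθ0]) (by linarith only [hα])
  set p0 : ℝ := ((3 - G) / (1 - G)) ^ (1 / s) with hp0
  have hq : 0 < (3 - G) / (1 - G) := div_pos (by linarith only [hG1]) (by linarith only [hG1])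
  have hp00 : 0 < p0 := Real.rpow_pos_of_pos hq _
  refine ⟨8 * Cc + η * p0, by (clear * - hβ hα he21 hq; positivity), ?_⟩
  intro p hp I D x y z hx hy hz hD hxs hys hzs
  have hpp : 0 < p := by linarith only [hp]
  by_cases hnear : ∃ k ∈ I, 1 - θ ≤ x k ∧ 1 - θ ≤ y k
  · obtain ⟨k, hk, hxk, hyk⟩ := hnear
    have h := near_case hα hβ hs hsum hc0 (min_le_left _ _) (min_le_right _ _)
      (hηp p hp) hη0 hθ hp I D x y z hx hy hz hD hxs hys hzs k hk hxk hyk
    refine h.trans ?_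
    have : (8 * Cc + η * p0) / p = 2 * (Cc * (4 / p)) + η * p0 / p := by
      field_simp
      ring
    rw [this]
    have : 0 ≤ η * p0 / p := by (clear * - he21 hq hp; positivity)
    linarith only [this]
  · push Not at hnear
    have hfar : ∀ k ∈ I, 1 - θ ≤ x k → y k ≤ 1 - θ := fun k hk h => (hnear k hk h).le
    have h := far_case hα hβ hs (by linarith only [hθ1] : θ ≤ 1) hp I D x y z hx hy hz hD hxs hys hzs
      hfar
    have hCp : 0 ≤ 8 * Cc / p := by positivity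
    by_cases hpl : p0 ≤ p
    · have h1 : (p⁻¹) ^ s ≤ (1 - G) / (3 - G) := by
        have : (p0)⁻¹ ^ s = (1 - G) / (3 - G) := by
          rw [hp0, Real.inv_rpow (Real.rpow_nonneg hq.le _), ← Real.rpow_mul hq.le, one_div,
            inv_mul_cancel₀ hs.ne', Real.rpow_one, inv_div]
        rw [← this]
        exact Real.rpow_le_rpow (by (clear * - hp; positivity)) (inv_anti₀ hp00 hpl) hs.le
      have h0 : 0 ≤ (p⁻¹) ^ s := Real.rpow_nonneg (by positivity) _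
      have h3G : 0 < 3 - G := by linarith only [hG1]
      have h2 : 2 * ((p⁻¹) ^ s / (1 - (p⁻¹) ^ s)) ≤ 1 - G := by
        have hlt : (1 - G) / (3 - G) < 1 := by
          rw [div_lt_one h3G]
          linarith only []
        rw [← mul_div_assoc, div_le_iff₀ (by linarith only [h1, hlt])]
        rw [le_div_iff₀ h3G] at h1
        nlinarith only [h1]
      have : 0 ≤ (8 * Cc + η * p0) / p := by (clear * - hβ hα he21 h3G hG1 hp; positivity)
      linarith only [h, h2, this]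
    · push Not at hpl
      have h1 := hηp p hp
      have h2 : η ≤ η * p0 / p := by
        rw [le_div_iff₀ hpp]
        exact mul_le_mul_of_nonneg_left hpl.le hη0
      have h3 : (8 * Cc + η * p0) / p = 8 * Cc / p + η * p0 / p := by
        rw [add_div]
      rw [h3]
      linarith only [hG1, h, hCp, h1, h2]

end Vale.P028
end

section

/-!
# Single prime inequalities
-/

namespace Vale.P028

open Finset

theorem ad_eq_natAbs (i j : ℕ) : ad i j = ((i : ℤ) - j).natAbs := by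
  unfold ad
  omega

theorem ad_comm' (i j : ℕ) : ad i j = ad j i := by
  unfold ad
  omega

theorem ad_self' (i : ℕ) : ad i i = 0 := by
  unfold ad
  omega

/-- Row sums of the kernel `b^|i-j|` off the diagonal. -/
theorem sum_ad_off {b : ℝ} (hb : 0 ≤ b) (hb1 : b < 1) (i : ℕ) (J : Finset ℕ)
    (hJ : ∀ j ∈ J, j ≠ i) : ∑ j ∈ J, b ^ ad i j ≤ 2 * (b / (1 - b)) := by
  have h := sum_pow_int_le hb hb1 (J.image (fun j : ℕ => (i : ℤ) - j)) (by
    intro d hd
    obtain ⟨j, hj, rfl⟩ := Finset.mem_image.1 hd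
    have := hJ j hj
    omega)
  rw [Finset.sum_image (by
    intro a _ b _ hab
    simp only at hab
    omega)] at h
  simpa only [ad_eq_natAbs, ge_iff_le] using h

theorem sum_ad_lt {b : ℝ} (hb : 0 ≤ b) (hb1 : b < 1) (k : ℕ) :
    ∑ j ∈ range k, b ^ ad k j ≤ b / (1 - b) := by
  have h := sum_pow_nat_le hb hb1 ((range k).image (fun j : ℕ => k - j)) (by
    intro d hd
    obtain ⟨j, hj, rfl⟩ := Finset.mem_image.1 hd
    have := Finset.mem_range.1 hj
    omega)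
  rw [Finset.sum_image (by
    intro a ha b hb' hab
    simp only [Finset.coe_range, Set.mem_Iio] at ha hb'
    simp only at hab
    omega)] at h
  refine le_trans (le_of_eq ?_) h
  refine Finset.sum_congr rfl fun j hj => ?_
  have := Finset.mem_range.1 hj
  congr 1
  unfold ad
  omega

theorem sum_ad_all {b : ℝ} (hb : 0 ≤ b) (hb1 : b < 1) (i : ℕ) (J : Finset ℕ) :
    ∑ j ∈ J, b ^ ad i j ≤ (1 + b) / (1 - b) := by
  have h1 : (1 + b) / (1 - b) = 1 + 2 * (b / (1 - b)) := by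
    have : (1 - b) ≠ 0 := by linarith
    field_simp
    ring
  rw [h1]
  by_cases hi : i ∈ J
  · rw [← Finset.add_sum_erase J _ hi, ad_self', pow_zero]
    have := sum_ad_off hb hb1 i (J.erase i) (fun j hj => Finset.ne_of_mem_erase hj)
    linarith only [this]
  · have := sum_ad_off hb hb1 i J (fun j hj h => hi (h ▸ hj))
    linarith only [this]

/-- Two sequences, normalised version with an arbitrary bound for the row sums. -/
theorem bilin_norm {θ b K : ℝ} (hθ : 1 / 2 ≤ θ) (hb : 0 ≤ b) (I J : Finset ℕ)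
    (R : ℕ → ℕ → Prop) [DecidableRel R] (φ χ : ℕ → ℝ) (hφ : ∀ i, 0 ≤ φ i) (hχ : ∀ i, 0 ≤ χ i)
    (hφ1 : ∑ i ∈ I, φ i ≤ 1) (hχ1 : ∑ j ∈ J, χ j ≤ 1)
    (h1 : ∀ i ∈ I, ∑ j ∈ J, (if R i j then b ^ ad i j else 0) ≤ K)
    (h2 : ∀ j ∈ J, ∑ i ∈ I, (if R i j then b ^ ad i j else 0) ≤ K) (hK : 0 ≤ K) :
    ∑ i ∈ I, ∑ j ∈ J, (if R i j then b ^ ad i j * (φ i * χ j) ^ θ else 0) ≤ K := by
  have hterm : ∀ i ∈ I, ∀ j ∈ J, (if R i j then b ^ ad i j * (φ i * χ j) ^ θ else 0) ≤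
      φ i / 2 * (if R i j then b ^ ad i j else 0) + χ j / 2 * (if R i j then b ^ ad i j else 0) := by
    intro i hi j hj
    split_ifs
    · have hφi : φ i ≤ 1 := (Finset.single_le_sum (fun i _ => hφ i) hi).trans hφ1
      have hχj : χ j ≤ 1 := (Finset.single_le_sum (fun i _ => hχ i) hj).trans hχ1
      have e1 : (φ i) ^ (2 * θ) ≤ φ i := by
        rcases (hφ i).eq_or_lt with h | h
        · rw [← h, Real.zero_rpow (by linarith)]
        · calc (φ i) ^ (2 * θ) ≤ (φ i) ^ (1 : ℝ) :=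
              Real.rpow_le_rpow_of_exponent_ge h hφi (by linarith only [hθ])
            _ = φ i := Real.rpow_one _
      have e2 : (χ j) ^ (2 * θ) ≤ χ j := by
        rcases (hχ j).eq_or_lt with h | h
        · rw [← h, Real.zero_rpow (by linarith only [hθ])]
        · calc (χ j) ^ (2 * θ) ≤ (χ j) ^ (1 : ℝ) :=
              Real.rpow_le_rpow_of_exponent_ge h hχj (by linarith)
            _ = χ j := Real.rpow_one _
      have e3 : (φ i * χ j) ^ θ ≤ (φ i) ^ (2 * θ) / 2 + (χ j) ^ (2 * θ) / 2 := by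
        rw [Real.mul_rpow (hφ i) (hχ j)]
        have a1 : (φ i) ^ (2 * θ) = ((φ i) ^ θ) ^ 2 := by
          rw [← Real.rpow_natCast, ← Real.rpow_mul (hφ i)]
          norm_num
          ring_nf
        have a2 : (χ j) ^ (2 * θ) = ((χ j) ^ θ) ^ 2 := by
          rw [← Real.rpow_natCast, ← Real.rpow_mul (hχ j)]
          norm_num
          ring_nf
        rw [a1, a2]
        nlinarith only [sq_nonneg ((φ i) ^ θ - (χ j) ^ θ)]
      have e4 : 0 ≤ b ^ ad i j := pow_nonneg hb _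
      have e5 : (φ i * χ j) ^ θ ≤ φ i / 2 + χ j / 2 := by linarith only [e1, e2, e3]
      have := mul_le_mul_of_nonneg_left e5 e4
      linarith only [this]
    · simp
  calc ∑ i ∈ I, ∑ j ∈ J, (if R i j then b ^ ad i j * (φ i * χ j) ^ θ else 0)
      ≤ ∑ i ∈ I, ∑ j ∈ J, (φ i / 2 * (if R i j then b ^ ad i j else 0)
        + χ j / 2 * (if R i j then b ^ ad i j else 0)) :=
        Finset.sum_le_sum fun i hi => Finset.sum_le_sum fun j hj => hterm i hi j hj
    _ = ∑ i ∈ I, φ i / 2 * ∑ j ∈ J, (if R i j then b ^ ad i j else 0)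
        + ∑ j ∈ J, χ j / 2 * ∑ i ∈ I, (if R i j then b ^ ad i j else 0) := by
        simp only [Finset.sum_add_distrib]
        congr 1
        · refine Finset.sum_congr rfl fun i _ => ?_
          rw [Finset.mul_sum]
        · rw [Finset.sum_comm]
          refine Finset.sum_congr rfl fun j _ => ?_
          rw [Finset.mul_sum]
    _ ≤ ∑ i ∈ I, φ i / 2 * K + ∑ j ∈ J, χ j / 2 * K := by
        refine add_le_add (Finset.sum_le_sum fun i hi => ?_) (Finset.sum_le_sum fun j hj => ?_)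
        · exact mul_le_mul_of_nonneg_left (h1 i hi) (by have := hφ i; linarith only [this])
        · exact mul_le_mul_of_nonneg_left (h2 j hj) (by have := hχ j; linarith only [this])
    _ = (∑ i ∈ I, φ i) / 2 * K + (∑ j ∈ J, χ j) / 2 * K := by
        rw [← Finset.sum_mul, ← Finset.sum_mul, Finset.sum_div, Finset.sum_div]
    _ ≤ 1 / 2 * K + 1 / 2 * K := by
        refine add_le_add ?_ ?_
        · exact mul_le_mul_of_nonneg_right (by linarith only [hφ1]) hK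
        · exact mul_le_mul_of_nonneg_right (by linarith only [hχ1]) hK
    _ = K := by ring

/-- General version for all pairs. -/
theorem bilin_all {θ b : ℝ} (hθ : 1 / 2 ≤ θ) (hb : 0 ≤ b) (hb1 : b < 1) (I J : Finset ℕ)
    (φ χ : ℕ → ℝ) (hφ : ∀ i, 0 ≤ φ i) (hχ : ∀ i, 0 ≤ χ i) :
    ∑ i ∈ I, ∑ j ∈ J, b ^ ad i j * (φ i * χ j) ^ θ ≤
      (1 + b) / (1 - b) * ((∑ i ∈ I, φ i) * ∑ j ∈ J, χ j) ^ θ := by
  have hθ0 : θ ≠ 0 := by linarith
  have hK : 0 ≤ (1 + b) / (1 - b) := div_nonneg (by linarith only [hb]) (by linarith only [hb1])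
  rcases (Finset.sum_nonneg fun i (_ : i ∈ I) => hφ i).eq_or_lt with h | h
  · have h0 : ∀ i ∈ I, φ i = 0 := (Finset.sum_eq_zero_iff_of_nonneg (fun i _ => hφ i)).1 h.symm
    rw [← h, zero_mul, Real.zero_rpow hθ0, mul_zero]
    refine le_of_eq (Finset.sum_eq_zero fun i hi => Finset.sum_eq_zero fun j _ => ?_)
    rw [h0 i hi, zero_mul, Real.zero_rpow hθ0, mul_zero]
  rcases (Finset.sum_nonneg fun i (_ : i ∈ J) => hχ i).eq_or_lt with h' | h'
  · have h0 : ∀ i ∈ J, χ i = 0 := (Finset.sum_eq_zero_iff_of_nonneg (fun i _ => hχ i)).1 h'.symm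
    rw [← h', mul_zero, Real.zero_rpow hθ0, mul_zero]
    refine le_of_eq (Finset.sum_eq_zero fun i _ => Finset.sum_eq_zero fun j hj => ?_)
    rw [h0 j hj, mul_zero, Real.zero_rpow hθ0, mul_zero]
  set Φ := ∑ i ∈ I, φ i with hΦ
  set X := ∑ j ∈ J, χ j with hX
  have hmain := bilin_norm hθ hb I J (fun _ _ => True) (fun i => φ i / Φ) (fun j => χ j / X)
    (fun i => div_nonneg (hφ i) h.le) (fun j => div_nonneg (hχ j) h'.le)
    (by rw [← Finset.sum_div, div_self h.ne']) (by rw [← Finset.sum_div, div_self h'.ne'])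
    (K := (1 + b) / (1 - b))
    (by
      intro i _
      simpa only [↓reduceIte] using sum_ad_all hb hb1 i J)
    (by
      intro j _
      have := sum_ad_all hb hb1 j I
      simpa only [↓reduceIte, ad_comm', ge_iff_le] using this) hK
  simp only [if_true] at hmain
  have hpos : 0 < Φ * X := mul_pos h h'
  have hscale : ∀ i j, b ^ ad i j * (φ i * χ j) ^ θ
      = (Φ * X) ^ θ * (b ^ ad i j * (φ i / Φ * (χ j / X)) ^ θ) := by
    intro i j
    have e : φ i * χ j = (Φ * X) * (φ i / Φ * (χ j / X)) := by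
      (clear * - h h'; field_simp)
    rw [e, Real.mul_rpow hpos.le (mul_nonneg (div_nonneg (hφ i) h.le) (div_nonneg (hχ j) h'.le))]
    have e2 : Φ * X * (φ i / Φ * (χ j / X)) / (Φ * X) = φ i / Φ * (χ j / X) := by
      (clear * - h' h; field_simp)
    ring
  calc ∑ i ∈ I, ∑ j ∈ J, b ^ ad i j * (φ i * χ j) ^ θ
      = ∑ i ∈ I, ∑ j ∈ J, (Φ * X) ^ θ * (b ^ ad i j * (φ i / Φ * (χ j / X)) ^ θ) := by
        refine Finset.sum_congr rfl fun i _ => Finset.sum_congr rfl fun j _ => hscale i j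
    _ = (Φ * X) ^ θ * ∑ i ∈ I, ∑ j ∈ J, b ^ ad i j * (φ i / Φ * (χ j / X)) ^ θ := by
        simp only [Finset.mul_sum]
    _ ≤ (Φ * X) ^ θ * ((1 + b) / (1 - b)) :=
        mul_le_mul_of_nonneg_left hmain (Real.rpow_nonneg hpos.le _)
    _ = _ := mul_comm _ _

theorem SP_large {θ b x : ℝ} (hθ : 1 / 2 < θ) (hθ1 : θ < 1) (hb : 0 ≤ b) (hb1 : b < 1)
    (hx : 0 ≤ x) (hx1 : x ≤ 1) : SP θ b x ((1 + b) / (1 - b)) := by
  intro N φ χ hφ hχ
  exact Or.inl (bilin_all hθ.le hb hb1 _ _ φ χ hφ hχ)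

/-- Hoelder inequality for one row. -/
theorem holder_row {θ B : ℝ} (hθ : 0 < θ) (hθ1 : θ < 1) (hB : 0 ≤ B) (k : ℕ) (J : Finset ℕ)
    (χ : ℕ → ℝ) (hχ : ∀ i, 0 ≤ χ i) :
    ∑ j ∈ J, (B ^ (1 - θ)) ^ ad k j * (χ j) ^ θ ≤
      (∑ j ∈ J, χ j) ^ θ * (∑ j ∈ J, B ^ ad k j) ^ (1 - θ) := by
  have hpq : (1 / θ).HolderConjugate (1 / (1 - θ)) :=
    Real.holderConjugate_one_div hθ (by linarith) (by ring)
  have h := Real.inner_le_Lp_mul_Lq_of_nonneg (s := J) (f := fun j => (χ j) ^ θ)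
    (g := fun j => (B ^ (1 - θ)) ^ ad k j) hpq (fun j _ => Real.rpow_nonneg (hχ j) _)
    (fun j _ => pow_nonneg (Real.rpow_nonneg hB _) _)
  have e1 : ∀ j, ((χ j) ^ θ) ^ (1 / θ) = χ j := by
    intro j
    rw [← Real.rpow_mul (hχ j), mul_one_div_cancel hθ.ne', Real.rpow_one]
  have e2 : ∀ j, ((B ^ (1 - θ)) ^ ad k j) ^ (1 / (1 - θ)) = B ^ ad k j := by
    intro j
    rw [← Real.rpow_natCast, ← Real.rpow_mul hB, ← Real.rpow_mul hB]
    have : (1 - θ) * (ad k j : ℝ) * (1 / (1 - θ)) = (ad k j : ℝ) := by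
      have : (1 - θ) ≠ 0 := by linarith only [hθ1]
      (clear * - this; field_simp)
    rw [this, Real.rpow_natCast]
  simp only [e1, e2, one_div_one_div] at h
  refine le_trans (le_of_eq ?_) h
  refine Finset.sum_congr rfl fun j _ => ?_
  ring

/-- Splitting a double sum along row and column `k`. -/
theorem split_cross {r : Finset ℕ} {k : ℕ} (hk : k ∈ r) (T : ℕ → ℕ → ℝ) :
    ∑ i ∈ r, ∑ j ∈ r, T i j = T k k + ∑ j ∈ r.erase k, T k j + ∑ i ∈ r.erase k, T i k +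
      ∑ i ∈ r.erase k, ∑ j ∈ r.erase k, T i j := by
  rw [← Finset.add_sum_erase r _ hk, ← Finset.add_sum_erase r _ hk]
  have : ∑ i ∈ r.erase k, ∑ j ∈ r, T i j
      = ∑ i ∈ r.erase k, (T i k + ∑ j ∈ r.erase k, T i j) := by
    refine Finset.sum_congr rfl fun i _ => ?_
    rw [Finset.add_sum_erase r _ hk]
  rw [this, Finset.sum_add_distrib]
  ring

theorem bern {θ t : ℝ} (hθ : 0 ≤ θ) (hθ1 : θ ≤ 1) (ht : t ≤ 1) : (1 - t) ^ θ ≤ 1 - θ * t := by
  have h := rpow_one_add_le_one_add_mul_self (s := -t) (by linarith) hθ hθ1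
  calc (1 - t) ^ θ = (1 + -t) ^ θ := by ring_nf
    _ ≤ 1 + θ * -t := h
    _ = _ := by ring

/-- Main estimate of the exact sum around the index `k`. -/
theorem exact_le {θ B : ℝ} (hθ : 1 / 2 < θ) (hθ1 : θ < 1) (hB : 0 < B) (hB2 : B ≤ 1 / 2)
    (hb2 : B ^ (1 - θ) ≤ 1 / 2) (N : ℕ) (φ χ : ℕ → ℝ) (hφ : ∀ i, 0 ≤ φ i) (hχ : ∀ i, 0 ≤ χ i)
    (hφ1 : ∑ i ∈ range (N + 1), φ i = 1) (hχ1 : ∑ i ∈ range (N + 1), χ i = 1) {k : ℕ}
    (hk : k ∈ range (N + 1)) :
    ∑ i ∈ range (N + 1), ∑ j ∈ range (N + 1), (B ^ (1 - θ)) ^ ad i j * (φ i * χ j) ^ θ ≤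
      (φ k) ^ θ * (χ k) ^ θ + 2 * B ^ (1 - θ) * ((1 - φ k) ^ θ + (1 - χ k) ^ θ) +
        3 * ((1 - φ k) * (1 - χ k)) ^ θ := by
  set r := range (N + 1) with hr
  set b := B ^ (1 - θ) with hb
  have hb0 : 0 < b := Real.rpow_pos_of_pos hB _
  have hξ : ∑ i ∈ r.erase k, φ i = 1 - φ k := by
    rw [← hφ1, ← Finset.add_sum_erase r _ hk]; ring
  have hζ : ∑ i ∈ r.erase k, χ i = 1 - χ k := by
    rw [← hχ1, ← Finset.add_sum_erase r _ hk]; ring
  have hφk : φ k ≤ 1 := by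
    rw [← hφ1]; exact Finset.single_le_sum (fun i _ => hφ i) hk
  have hχk : χ k ≤ 1 := by
    rw [← hχ1]; exact Finset.single_le_sum (fun i _ => hχ i) hk
  have hK : (1 + b) / (1 - b) ≤ 3 := by
    rw [div_le_iff₀ (by linarith only [hb2])]; linarith only [hb2]
  have hKB : (∑ j ∈ r.erase k, B ^ ad k j) ^ (1 - θ) ≤ 2 * b := by
    have h1 := sum_ad_off hB.le (by linarith only [hB2] : B < 1) k (r.erase k)
      (fun j hj => Finset.ne_of_mem_erase hj)
    have h2 : 2 * (B / (1 - B)) ≤ 4 * B := by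
      have : B / (1 - B) ≤ 2 * B := by
        rw [div_le_iff₀ (by linarith only [hB2])]
        nlinarith only [hB, hB2]
      linarith only [this]
    have h0 : 0 ≤ ∑ j ∈ r.erase k, B ^ ad k j := Finset.sum_nonneg fun j _ => by positivity
    calc (∑ j ∈ r.erase k, B ^ ad k j) ^ (1 - θ) ≤ (4 * B) ^ (1 - θ) :=
          Real.rpow_le_rpow h0 (h1.trans h2) (by linarith only [hθ1])
      _ = 4 ^ (1 - θ) * b := by rw [Real.mul_rpow (by norm_num) hB.le]
      _ ≤ 2 * b := by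
          refine mul_le_mul_of_nonneg_right ?_ hb0.le
          calc (4 : ℝ) ^ (1 - θ) ≤ (4 : ℝ) ^ (1 / 2 : ℝ) :=
                Real.rpow_le_rpow_of_exponent_le (by norm_num) (by linarith only [hθ])
            _ = 2 := by
                rw [← Real.sqrt_eq_rpow, show (4 : ℝ) = 2 ^ 2 by norm_num,
                  Real.sqrt_sq (by norm_num)]
  rw [split_cross hk]
  have t1 : b ^ ad k k * (φ k * χ k) ^ θ = (φ k) ^ θ * (χ k) ^ θ := by
    rw [ad_self', pow_zero, one_mul, Real.mul_rpow (hφ k) (hχ k)]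
  have t2 : ∑ j ∈ r.erase k, b ^ ad k j * (φ k * χ j) ^ θ ≤ 2 * b * (1 - χ k) ^ θ := by
    calc ∑ j ∈ r.erase k, b ^ ad k j * (φ k * χ j) ^ θ
        ≤ ∑ j ∈ r.erase k, b ^ ad k j * (χ j) ^ θ := by
          refine Finset.sum_le_sum fun j _ => mul_le_mul_of_nonneg_left ?_ (by positivity)
          exact Real.rpow_le_rpow (mul_nonneg (hφ k) (hχ j))
            (mul_le_of_le_one_left (hχ j) hφk) (by linarith only [hθ])
      _ ≤ (∑ j ∈ r.erase k, χ j) ^ θ * (∑ j ∈ r.erase k, B ^ ad k j) ^ (1 - θ) :=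
          holder_row (by linarith only [hθ]) hθ1 hB.le k _ χ hχ
      _ ≤ (1 - χ k) ^ θ * (2 * b) := by
          rw [hζ]
          exact mul_le_mul_of_nonneg_left hKB (Real.rpow_nonneg (by linarith only [hχk]) _)
      _ = _ := by ring
  have t3 : ∑ i ∈ r.erase k, b ^ ad i k * (φ i * χ k) ^ θ ≤ 2 * b * (1 - φ k) ^ θ := by
    calc ∑ i ∈ r.erase k, b ^ ad i k * (φ i * χ k) ^ θ
        ≤ ∑ i ∈ r.erase k, b ^ ad k i * (φ i) ^ θ := by
          refine Finset.sum_le_sum fun i _ => ?_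
          rw [ad_comm' i k]
          refine mul_le_mul_of_nonneg_left ?_ (by positivity)
          exact Real.rpow_le_rpow (mul_nonneg (hφ i) (hχ k))
            (mul_le_of_le_one_right (hφ i) hχk) (by linarith only [hθ])
      _ ≤ (∑ j ∈ r.erase k, φ j) ^ θ * (∑ j ∈ r.erase k, B ^ ad k j) ^ (1 - θ) :=
          holder_row (by linarith only [hθ]) hθ1 hB.le k _ φ hφ
      _ ≤ (1 - φ k) ^ θ * (2 * b) := by
          rw [hξ]
          exact mul_le_mul_of_nonneg_left hKB (Real.rpow_nonneg (by linarith only [hφk]) _)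
      _ = _ := by ring
  have t4 : ∑ i ∈ r.erase k, ∑ j ∈ r.erase k, b ^ ad i j * (φ i * χ j) ^ θ ≤
      3 * ((1 - φ k) * (1 - χ k)) ^ θ := by
    have h := bilin_all hθ.le hb0.le (by linarith only [hb2] : b < 1) (r.erase k) (r.erase k) φ χ hφ hχ
    rw [hξ, hζ] at h
    refine h.trans (mul_le_mul_of_nonneg_right hK (Real.rpow_nonneg ?_ _))
    exact mul_nonneg (by linarith only [hφk]) (by linarith only [hχk])
  rw [t1]
  linarith only [t2, t3, t4]

/-- Estimate of the cells outside the `L`-shaped cell `k`. -/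
theorem lcell_le {θ B : ℝ} (hθ : 1 / 2 < θ) (hθ1 : θ < 1) (hB : 0 < B) (hB2 : B ≤ 1 / 2)
    (hb2 : B ^ (1 - θ) ≤ 1 / 2) (N : ℕ) (φ χ : ℕ → ℝ) (hφ : ∀ i, 0 ≤ φ i) (hχ : ∀ i, 0 ≤ χ i)
    (hφ1 : ∑ i ∈ range (N + 1), φ i = 1) (hχ1 : ∑ i ∈ range (N + 1), χ i = 1) {k : ℕ}
    (hk : k ∈ range (N + 1)) :
    ∑ i ∈ range (N + 1), ∑ j ∈ range (N + 1),
      (if min i j = k then 0 else (B ^ (1 - θ)) ^ ad i j * (φ i * χ j) ^ θ) ≤
      (1 + 2 * B) * B ^ (1 - θ) * ((∑ i ∈ range k, φ i) ^ θ + (∑ i ∈ range k, χ i) ^ θ) +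
        3 * ((1 - φ k) * (1 - χ k)) ^ θ := by
  set r := range (N + 1) with hr
  set b := B ^ (1 - θ) with hb
  have hb0 : 0 < b := Real.rpow_pos_of_pos hB _
  have hξ : ∑ i ∈ r.erase k, φ i = 1 - φ k := by
    rw [← hφ1, ← Finset.add_sum_erase r _ hk]; ring
  have hζ : ∑ i ∈ r.erase k, χ i = 1 - χ k := by
    rw [← hχ1, ← Finset.add_sum_erase r _ hk]; ring
  have hφk : φ k ≤ 1 := by
    rw [← hφ1]; exact Finset.single_le_sum (fun i _ => hφ i) hk
  have hχk : χ k ≤ 1 := by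
    rw [← hχ1]; exact Finset.single_le_sum (fun i _ => hχ i) hk
  have hK : (1 + b) / (1 - b) ≤ 3 := by
    rw [div_le_iff₀ (by linarith only [hb2])]; linarith only [hb2]
  have hkN : k < N + 1 := Finset.mem_range.1 hk
  have hKB : (∑ j ∈ range k, B ^ ad k j) ^ (1 - θ) ≤ (1 + 2 * B) * b := by
    have h1 := sum_ad_lt hB.le (by linarith only [hB2] : B < 1) k
    have h2 : B / (1 - B) ≤ (1 + 2 * B) * B := by
      rw [div_le_iff₀ (by linarith only [hB2])]
      nlinarith only [mul_nonneg (mul_nonneg hB.le hB.le) (by linarith : 0 ≤ 1 - 2 * B)]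
    have h0 : 0 ≤ ∑ j ∈ range k, B ^ ad k j := Finset.sum_nonneg fun j _ => by positivity
    calc (∑ j ∈ range k, B ^ ad k j) ^ (1 - θ) ≤ ((1 + 2 * B) * B) ^ (1 - θ) :=
          Real.rpow_le_rpow h0 (h1.trans h2) (by linarith only [hθ1])
      _ = (1 + 2 * B) ^ (1 - θ) * b := by rw [Real.mul_rpow (by linarith only [hB]) hB.le]
      _ ≤ (1 + 2 * B) * b := by
          refine mul_le_mul_of_nonneg_right ?_ hb0.le
          calc (1 + 2 * B) ^ (1 - θ) ≤ (1 + 2 * B) ^ (1 : ℝ) :=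
                Real.rpow_le_rpow_of_exponent_le (by linarith only [hB]) (by linarith only [hθ])
            _ = 1 + 2 * B := Real.rpow_one _
  have hT0 : ∀ i j, 0 ≤ b ^ ad i j * (φ i * χ j) ^ θ := fun i j =>
    mul_nonneg (by positivity) (Real.rpow_nonneg (mul_nonneg (hφ i) (hχ j)) _)
  rw [split_cross hk (fun i j => if min i j = k then 0 else b ^ ad i j * (φ i * χ j) ^ θ)]
  have t1 : (if min k k = k then (0 : ℝ) else b ^ ad k k * (φ k * χ k) ^ θ) = 0 := by simp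
  have t2 : ∑ j ∈ r.erase k, (if min k j = k then (0 : ℝ) else b ^ ad k j * (φ k * χ j) ^ θ) ≤
      (1 + 2 * B) * b * (∑ i ∈ range k, χ i) ^ θ := by
    calc ∑ j ∈ r.erase k, (if min k j = k then (0 : ℝ) else b ^ ad k j * (φ k * χ j) ^ θ)
        ≤ ∑ j ∈ range k, b ^ ad k j * (χ j) ^ θ := by
          have e : ∑ j ∈ r.erase k, (if min k j = k then (0 : ℝ) else
              b ^ ad k j * (φ k * χ j) ^ θ)
              = ∑ j ∈ (r.erase k).filter (fun j => j < k), b ^ ad k j * (φ k * χ j) ^ θ := by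
            rw [Finset.sum_filter]
            refine Finset.sum_congr rfl fun j hj => ?_
            have hjk : j ≠ k := Finset.ne_of_mem_erase hj
            by_cases hlt : j < k
            · rw [if_neg (by (clear * - hlt; omega)), if_pos hlt]
            · rw [if_pos (by omega), if_neg hlt]
          rw [e]
          have hsub : (r.erase k).filter (fun j => j < k) ⊆ range k := by
            intro j hj
            exact Finset.mem_range.2 (Finset.mem_filter.1 hj).2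
          refine (Finset.sum_le_sum_of_subset_of_nonneg hsub
            (fun j _ _ => hT0 k j)).trans ?_
          refine Finset.sum_le_sum fun j _ => mul_le_mul_of_nonneg_left ?_ (by positivity)
          exact Real.rpow_le_rpow (mul_nonneg (hφ k) (hχ j))
            (mul_le_of_le_one_left (hχ j) hφk) (by linarith only [hθ])
      _ ≤ (∑ j ∈ range k, χ j) ^ θ * (∑ j ∈ range k, B ^ ad k j) ^ (1 - θ) :=
          holder_row (by linarith only [hθ]) hθ1 hB.le k _ χ hχ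
      _ ≤ (∑ j ∈ range k, χ j) ^ θ * ((1 + 2 * B) * b) :=
          mul_le_mul_of_nonneg_left hKB
            (Real.rpow_nonneg (Finset.sum_nonneg fun i _ => hχ i) _)
      _ = _ := by ring
  have t3 : ∑ i ∈ r.erase k, (if min i k = k then (0 : ℝ) else b ^ ad i k * (φ i * χ k) ^ θ) ≤
      (1 + 2 * B) * b * (∑ i ∈ range k, φ i) ^ θ := by
    calc ∑ i ∈ r.erase k, (if min i k = k then (0 : ℝ) else b ^ ad i k * (φ i * χ k) ^ θ)
        ≤ ∑ i ∈ range k, b ^ ad k i * (φ i) ^ θ := by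
          have e : ∑ i ∈ r.erase k, (if min i k = k then (0 : ℝ) else
              b ^ ad i k * (φ i * χ k) ^ θ)
              = ∑ i ∈ (r.erase k).filter (fun i => i < k), b ^ ad i k * (φ i * χ k) ^ θ := by
            rw [Finset.sum_filter]
            refine Finset.sum_congr rfl fun i hi => ?_
            have hik : i ≠ k := Finset.ne_of_mem_erase hi
            by_cases hlt : i < k
            · rw [if_neg (by omega), if_pos hlt]
            · rw [if_pos (by omega), if_neg hlt]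
          rw [e]
          have hsub : (r.erase k).filter (fun i => i < k) ⊆ range k := by
            intro i hi
            exact Finset.mem_range.2 (Finset.mem_filter.1 hi).2
          refine (Finset.sum_le_sum_of_subset_of_nonneg hsub
            (fun i _ _ => hT0 i k)).trans ?_
          refine Finset.sum_le_sum fun i _ => ?_
          rw [ad_comm' i k]
          refine mul_le_mul_of_nonneg_left ?_ (by positivity)
          exact Real.rpow_le_rpow (mul_nonneg (hφ i) (hχ k))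
            (mul_le_of_le_one_right (hφ i) hχk) (by linarith only [hθ])
      _ ≤ (∑ j ∈ range k, φ j) ^ θ * (∑ j ∈ range k, B ^ ad k j) ^ (1 - θ) :=
          holder_row (by linarith only [hθ]) hθ1 hB.le k _ φ hφ
      _ ≤ (∑ j ∈ range k, φ j) ^ θ * ((1 + 2 * B) * b) :=
          mul_le_mul_of_nonneg_left hKB
            (Real.rpow_nonneg (Finset.sum_nonneg fun i _ => hφ i) _)
      _ = _ := by ring
  have t4 : ∑ i ∈ r.erase k, ∑ j ∈ r.erase k,
      (if min i j = k then (0 : ℝ) else b ^ ad i j * (φ i * χ j) ^ θ) ≤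
      3 * ((1 - φ k) * (1 - χ k)) ^ θ := by
    have h := bilin_all hθ.le hb0.le (by linarith only [hb2] : b < 1) (r.erase k) (r.erase k) φ χ hφ hχ
    rw [hξ, hζ] at h
    refine le_trans (Finset.sum_le_sum fun i _ => Finset.sum_le_sum fun j _ => ?_)
      (h.trans (mul_le_mul_of_nonneg_right hK (Real.rpow_nonneg
        (mul_nonneg (by linarith only [hφk]) (by linarith only [hχk])) _)))
    split_ifs
    · exact hT0 i j
    · exact le_rfl
  rw [t1]
  linarith only [t2, t3, t4]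

/-- If the exact sum exceeds one then there is a common index carrying almost all the mass. -/
theorem exists_peak {θ b : ℝ} (hθ : 1 / 2 < θ) (hθ1 : θ < 1) (hb0 : 0 ≤ b) (hb2 : b ≤ 1 / 4)
    (N : ℕ) (φ χ : ℕ → ℝ) (hφ : ∀ i, 0 ≤ φ i) (hχ : ∀ i, 0 ≤ χ i)
    (hφ1 : ∑ i ∈ range (N + 1), φ i = 1) (hχ1 : ∑ i ∈ range (N + 1), χ i = 1)
    (hS : 1 < ∑ i ∈ range (N + 1), ∑ j ∈ range (N + 1), b ^ ad i j * (φ i * χ j) ^ θ) :
    ∃ k ∈ range (N + 1), 1 - φ k ≤ 1 / (θ - 1 / 2) * (4 * b) ∧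
      1 - χ k ≤ 1 / (θ - 1 / 2) * (4 * b) := by
  set r := range (N + 1) with hr
  have hne : r.Nonempty := ⟨0, by simp only [hr, mem_range, lt_add_iff_pos_left, Order.lt_add_one_iff, zero_le]⟩
  obtain ⟨k, hk, hmax⟩ := Finset.exists_max_image r (fun i => φ i * χ i) hne
  refine ⟨k, hk, ?_⟩
  have hφk : φ k ≤ 1 := by
    rw [← hφ1]; exact Finset.single_le_sum (fun i _ => hφ i) hk
  have hχk : χ k ≤ 1 := by
    rw [← hχ1]; exact Finset.single_le_sum (fun i _ => hχ i) hk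
  have hm0 : 0 ≤ φ k * χ k := mul_nonneg (hφ k) (hχ k)
  -- splitting into diagonal and off-diagonal part
  have hsplit : ∑ i ∈ r, ∑ j ∈ r, b ^ ad i j * (φ i * χ j) ^ θ
      = ∑ i ∈ r, (φ i * χ i) ^ θ +
        ∑ i ∈ r, ∑ j ∈ r, (if i ≠ j then b ^ ad i j * (φ i * χ j) ^ θ else 0) := by
    rw [← Finset.sum_add_distrib]
    refine Finset.sum_congr rfl fun i hi => ?_
    rw [← Finset.add_sum_erase r _ hi, ← Finset.add_sum_erase r (fun j => if i ≠ j then
      b ^ ad i j * (φ i * χ j) ^ θ else 0) hi]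
    simp only [ad_self', pow_zero, one_mul, ne_eq, not_true_eq_false, if_false, zero_add]
    congr 1
    refine Finset.sum_congr rfl fun j hj => ?_
    rw [if_pos (Finset.ne_of_mem_erase hj).symm]
  have hoff : ∑ i ∈ r, ∑ j ∈ r, (if i ≠ j then b ^ ad i j * (φ i * χ j) ^ θ else 0) ≤ 4 * b := by
    have hK : 2 * (b / (1 - b)) ≤ 4 * b := by
      have : b / (1 - b) ≤ 2 * b := by
        rw [div_le_iff₀ (by linarith only [hb2])]
        nlinarith only [hb0, hb2]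
      linarith only [this]
    refine bilin_norm hθ.le hb0 r r (fun i j => i ≠ j) φ χ hφ hχ hφ1.le hχ1.le ?_ ?_
      (by linarith only [hb0])
    · intro i _
      rw [← Finset.sum_filter]
      refine (sum_ad_off hb0 (by linarith only [hb2]) i _ ?_).trans hK
      intro j hj
      exact (Finset.mem_filter.1 hj).2.symm
    · intro j _
      rw [← Finset.sum_filter]
      have := (sum_ad_off hb0 (by linarith only [hb2]) j (r.filter (fun i => i ≠ j)) ?_).trans hK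
      · simpa only [ne_eq, ad_comm', ge_iff_le] using this
      · intro i hi
        exact (Finset.mem_filter.1 hi).2
  have hdiag : ∑ i ∈ r, (φ i * χ i) ^ θ ≤ (φ k * χ k) ^ (θ - 1 / 2) := by
    calc ∑ i ∈ r, (φ i * χ i) ^ θ
        ≤ ∑ i ∈ r, (φ k * χ k) ^ (θ - 1 / 2) * ((φ i + χ i) / 2) := by
          refine Finset.sum_le_sum fun i hi => ?_
          have h0 : 0 ≤ φ i * χ i := mul_nonneg (hφ i) (hχ i)
          have e : (φ i * χ i) ^ θ = (φ i * χ i) ^ (θ - 1 / 2) * (φ i * χ i) ^ (1 / 2 : ℝ) := by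
            rw [← Real.rpow_add_of_nonneg h0 (by linarith only [hθ]) (by norm_num)]
            congr 1
            ring
          rw [e]
          refine mul_le_mul (Real.rpow_le_rpow h0 (hmax i hi) (by linarith only [hθ])) ?_
            (Real.rpow_nonneg h0 _) (Real.rpow_nonneg hm0 _)
          rw [← Real.sqrt_eq_rpow]
          refine Real.sqrt_le_iff.2 ⟨by have := hφ i; have := hχ i; (clear θ b hθ hθ1 hb0 hb2 N r hφ1 hχ1 hS hr hne k hk hmax hφk hχk hm0 hsplit hoff hi h0 e; linarith), ?_⟩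
          nlinarith only [sq_nonneg (φ i - χ i)]
      _ = (φ k * χ k) ^ (θ - 1 / 2) := by
          rw [← Finset.mul_sum, ← Finset.sum_div, Finset.sum_add_distrib, hφ1, hχ1]
          norm_num
  have hbig : 1 - 4 * b ≤ (φ k * χ k) ^ (θ - 1 / 2) := by
    rw [hsplit] at hS
    linarith only [hS, hoff, hdiag]
  have hr1 : 1 ≤ 1 / (θ - 1 / 2) := by
    rw [le_div_iff₀ (by linarith only [hθ])]
    linarith only [hθ1]
  have hm : 1 - 1 / (θ - 1 / 2) * (4 * b) ≤ φ k * χ k := by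
    have h1 := one_add_mul_self_le_rpow_one_add (s := -(4 * b)) (by linarith only [hb2]) hr1
    have h2 : (1 - 4 * b) ^ (1 / (θ - 1 / 2)) ≤ φ k * χ k := by
      calc (1 - 4 * b) ^ (1 / (θ - 1 / 2))
          ≤ ((φ k * χ k) ^ (θ - 1 / 2)) ^ (1 / (θ - 1 / 2)) :=
            Real.rpow_le_rpow (by linarith only [hb2]) hbig (by linarith only [hr1])
        _ = φ k * χ k := by
            rw [← Real.rpow_mul hm0, mul_one_div_cancel (by linarith only [hθ]), Real.rpow_one]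
    have e : (1 : ℝ) + -(4 * b) = 1 - 4 * b := by ring
    rw [e] at h1
    linarith only [h1, h2]
  constructor
  · have : φ k * χ k ≤ φ k := mul_le_of_le_one_right (hφ k) hχk
    linarith only [hm, this]
  · have : φ k * χ k ≤ χ k := mul_le_of_le_one_left (hχ k) hφk
    linarith only [hm, this]

/-- Numerical inequality when the mass off the peak is not too small. -/
theorem num_far {θ B b ξ ζ C₁ T₀ : ℝ} (hθ : 1 / 2 < θ) (hθ1 : θ < 1) (hB : 0 < B)
    (hb : b = B ^ (1 - θ)) (hC₁ : 0 < C₁) (hC : C₁ ^ (1 - θ) = 16 / (3 * θ))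
    (hT1 : T₀ ≤ 1) (hTθ : T₀ ^ (2 * θ - 1) ≤ θ / 8)
    (hξ : 0 ≤ ξ) (hξT : ξ ≤ T₀) (hζ : 0 ≤ ζ) (hζT : ζ ≤ T₀) (hmax : C₁ * B ≤ max ξ ζ) :
    (1 - ξ) ^ θ * (1 - ζ) ^ θ + 2 * b * (ξ ^ θ + ζ ^ θ) + 3 * (ξ * ζ) ^ θ ≤ 1 := by
  have hb0 : 0 < b := by
    rw [hb]; exact Real.rpow_pos_of_pos hB _
  have hξ1 : ξ ≤ 1 := hξT.trans hT1
  have hζ1 : ζ ≤ 1 := hζT.trans hT1
  set m := max ξ ζ with hm
  have hm0 : 0 < m := lt_of_lt_of_le (by positivity) hmax
  have hT0 : 0 ≤ T₀ := hξ.trans hξT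
  have b1 : (1 - ξ) ^ θ ≤ 1 - θ * ξ := bern (by linarith only [hθ]) hθ1.le hξ1
  have b2 : (1 - ζ) ^ θ ≤ 1 - θ * ζ := bern (by linarith only [hθ]) hθ1.le hζ1
  have hθξ : θ * ξ ≤ 1 := by nlinarith only [hθ1, hT1, hξT, hθ]
  have hθζ : θ * ζ ≤ 1 := by nlinarith only [hθ1, hT1, hζT, hθ]
  have b3 : (1 - ξ) ^ θ * (1 - ζ) ^ θ ≤ (1 - θ * ξ) * (1 - θ * ζ) :=
    mul_le_mul b1 b2 (Real.rpow_nonneg (by linarith only [hT1, hζT]) _) (by linarith only [hθξ])
  have hξζ0 : 0 ≤ ξ * ζ := mul_nonneg hξ hζ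
  have hξζ1 : ξ * ζ ≤ 1 := by nlinarith only [hT1, hξT, hξ, hζT]
  have b4 : ξ * ζ ≤ (ξ * ζ) ^ θ := by
    rcases hξζ0.eq_or_lt with h | h
    · rw [← h, Real.zero_rpow (by linarith only [hθ])]
    · calc ξ * ζ = (ξ * ζ) ^ (1 : ℝ) := (Real.rpow_one _).symm
        _ ≤ (ξ * ζ) ^ θ := Real.rpow_le_rpow_of_exponent_ge h hξζ1 hθ1.le
  have b5 : θ ^ 2 * (ξ * ζ) ≤ (ξ * ζ) ^ θ := by
    have : θ ^ 2 ≤ 1 := by nlinarith only [hθ1, hθ]
    nlinarith only [b4, hξζ0, this]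
  have b6 : 4 * (ξ * ζ) ^ θ ≤ θ / 4 * (ξ + ζ) := by
    have hw0 : 0 ≤ (ξ + ζ) / 2 := by linarith only [hξ, hζ]
    have hwT : (ξ + ζ) / 2 ≤ T₀ := by linarith only [hξT, hζT]
    have e1 : (ξ * ζ) ^ θ ≤ ((ξ + ζ) / 2) ^ (2 * θ) := by
      calc (ξ * ζ) ^ θ ≤ (((ξ + ζ) / 2) ^ 2) ^ θ :=
            Real.rpow_le_rpow hξζ0 (by nlinarith only [sq_nonneg (ξ - ζ)]) (by linarith only [hθ])
        _ = ((ξ + ζ) / 2) ^ (2 * θ) := by
            rw [← Real.rpow_natCast, ← Real.rpow_mul hw0]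
            norm_num
    have e2 : ((ξ + ζ) / 2) ^ (2 * θ) = (ξ + ζ) / 2 * ((ξ + ζ) / 2) ^ (2 * θ - 1) := by
      rcases hw0.eq_or_lt with h | h
      · rw [← h, Real.zero_rpow (by linarith only [hθ]), zero_mul]
      · nth_rewrite 2 [← Real.rpow_one ((ξ + ζ) / 2)]
        rw [← Real.rpow_add h]
        congr 1
        ring
    have e3 : ((ξ + ζ) / 2) ^ (2 * θ - 1) ≤ θ / 8 :=
      (Real.rpow_le_rpow hw0 hwT (by linarith only [hθ])).trans hTθ
    have e4 := mul_le_mul_of_nonneg_left e3 hw0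
    rw [e2] at e1
    linarith only [e1, e4]
  have b7 : 2 * b * (ξ ^ θ + ζ ^ θ) ≤ 3 * θ / 4 * (ξ + ζ) := by
    have hbm : b ≤ m ^ (1 - θ) * (3 * θ / 16) := by
      have h1 : C₁ ^ (1 - θ) * b ≤ m ^ (1 - θ) := by
        rw [hb, ← Real.mul_rpow hC₁.le hB.le]
        exact Real.rpow_le_rpow (by positivity) hmax (by linarith only [hθ1])
      rw [hC] at h1
      have h2 : 16 / (3 * θ) * b * (3 * θ / 16) = b := by
        have : θ ≠ 0 := by linarith only [hθ]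
        (clear * - this hb0; field_simp)
      calc b = 16 / (3 * θ) * b * (3 * θ / 16) := h2.symm
        _ ≤ m ^ (1 - θ) * (3 * θ / 16) := mul_le_mul_of_nonneg_right h1 (by linarith only [hθ])
    have hξm : ξ ^ θ ≤ m ^ θ := Real.rpow_le_rpow hξ (le_max_left _ _) (by linarith only [hθ])
    have hζm : ζ ^ θ ≤ m ^ θ := Real.rpow_le_rpow hζ (le_max_right _ _) (by linarith only [hθ])
    have hmm : m ^ (1 - θ) * m ^ θ = m := by
      rw [← Real.rpow_add hm0]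
      simp
    have hmθ : 0 ≤ m ^ θ := Real.rpow_nonneg hm0.le _
    have hmle : m ≤ ξ + ζ := max_le (by linarith only [hζ]) (by linarith only [hξ])
    calc 2 * b * (ξ ^ θ + ζ ^ θ) ≤ 2 * b * (m ^ θ + m ^ θ) :=
          mul_le_mul_of_nonneg_left (by linarith only [hξm, hζm]) (by linarith only [hb0])
      _ = 4 * (b * m ^ θ) := by ring
      _ ≤ 4 * (m ^ (1 - θ) * (3 * θ / 16) * m ^ θ) := by
          have := mul_le_mul_of_nonneg_right hbm hmθ
          linarith only [this]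
      _ = 3 * θ / 4 * (m ^ (1 - θ) * m ^ θ) := by ring
      _ = 3 * θ / 4 * m := by rw [hmm]
      _ ≤ 3 * θ / 4 * (ξ + ζ) := mul_le_mul_of_nonneg_left hmle (by linarith only [hθ])
  linarith

/-- Numerical inequality for the `L`-shaped cell `k ≥ 1`. -/
theorem num_near {θ B b x ξ ζ ξ' ζ' C₁ : ℝ} (hθ : 1 / 2 < θ) (hθ1 : θ < 1) (hB : 0 < B)
    (hB2 : B ≤ 1 / 2) (hb : b = B ^ (1 - θ)) (hC₁ : 1 ≤ C₁) (hx : 0 ≤ x) (hxB : x ≤ B)
    (hξ : 0 ≤ ξ) (hζ : 0 ≤ ζ) (hξC : ξ ≤ C₁ * B) (hζC : ζ ≤ C₁ * B)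
    (hξ'0 : 0 ≤ ξ') (hζ'0 : 0 ≤ ζ') (hξ' : ξ' ≤ ξ) (hζ' : ζ' ≤ ζ) (hξ1 : ξ ≤ 1) (hζ1 : ζ ≤ 1) :
    (1 - x) ^ (2 * (1 - θ)) * ((1 - ξ') * (1 - ζ')) ^ θ +
      ((1 + 2 * B) * b * (ξ' ^ θ + ζ' ^ θ) + 3 * (ξ * ζ) ^ θ) ≤
      1 + 2 * (1 - θ) * (B - x) + 14 * C₁ ^ 2 * B ^ (2 * θ) := by
  have hb0 : 0 < b := by
    rw [hb]; exact Real.rpow_pos_of_pos hB _
  have hξ'1 : ξ' ≤ 1 := hξ'.trans hξ1
  have hζ'1 : ζ' ≤ 1 := hζ'.trans hζ1
  have hx1 : x ≤ 1 := by linarith only [hB2, hxB]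
  have b0 : (1 - x) ^ (2 * (1 - θ)) ≤ 1 - 2 * (1 - θ) * x :=
    bern (by linarith only [hθ1]) (by linarith only [hθ]) hx1
  have b1 : (1 - ξ') ^ θ ≤ 1 - θ * ξ' := bern (by linarith only [hθ]) hθ1.le hξ'1
  have b2 : (1 - ζ') ^ θ ≤ 1 - θ * ζ' := bern (by linarith only [hθ]) hθ1.le hζ'1
  have hθξ : θ * ξ' ≤ 1 := by nlinarith only [hθ1, hξ', hξ1, hθ]
  have hθζ : θ * ζ' ≤ 1 := by nlinarith only [hθ1, hζ', hζ1, hθ]
  have b3 : ((1 - ξ') * (1 - ζ')) ^ θ ≤ (1 - θ * ξ') * (1 - θ * ζ') := by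
    rw [Real.mul_rpow (by linarith only [hξ', hξ1]) (by linarith only [hζ', hζ1])]
    exact mul_le_mul b1 b2 (Real.rpow_nonneg (by linarith only [hζ', hζ1]) _) (by linarith only [hθξ])
  have hax : 2 * (1 - θ) * x ≤ 1 := by nlinarith only [hB2, hxB, hθ, hx]
  have b4 : (1 - x) ^ (2 * (1 - θ)) * ((1 - ξ') * (1 - ζ')) ^ θ ≤
      (1 - 2 * (1 - θ) * x) * ((1 - θ * ξ') * (1 - θ * ζ')) :=
    mul_le_mul b0 b3 (Real.rpow_nonneg (mul_nonneg (by linarith only [hξ', hξ1]) (by linarith only [hζ', hζ1])) _) (by linarith only [hax])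
  -- expansion of the product
  set a := 2 * (1 - θ) * x with ha
  set e := θ * ξ' with he
  set f := θ * ζ' with hf
  have ha0 : 0 ≤ a := by
    rw [ha]
    have : 0 ≤ 1 - θ := by linarith only [hθ1]
    (clear * - hθ1 hx; positivity)
  have he0 : 0 ≤ e := by rw [he]; (clear * - hθ hξ'0; positivity)
  have hf0 : 0 ≤ f := by rw [hf]; positivity
  have haB : a ≤ B := by
    rw [ha]
    calc 2 * (1 - θ) * x ≤ 1 * x := mul_le_mul_of_nonneg_right (by linarith only [hθ]) hx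
      _ ≤ B := by linarith only [hxB]
  have heB : e ≤ C₁ * B := by
    rw [he]
    calc θ * ξ' ≤ 1 * ξ' := mul_le_mul_of_nonneg_right hθ1.le hξ'0
      _ ≤ C₁ * B := by linarith only [hξC, hξ']
  have hfB : f ≤ C₁ * B := by
    rw [hf]
    calc θ * ζ' ≤ 1 * ζ' := mul_le_mul_of_nonneg_right hθ1.le hζ'0
      _ ≤ C₁ * B := by linarith only [hζC, hζ']
  have hC0 : 0 ≤ C₁ * B := by positivity
  have b5 : (1 - a) * ((1 - e) * (1 - f)) ≤ 1 - a - e - f + 3 * C₁ ^ 2 * B ^ 2 := by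
    have h1 : a * e ≤ B * (C₁ * B) := mul_le_mul haB heB he0 hB.le
    have h2 : a * f ≤ B * (C₁ * B) := mul_le_mul haB hfB hf0 hB.le
    have h3 : e * f ≤ C₁ * B * (C₁ * B) := mul_le_mul heB hfB hf0 hC0
    have h4 : 0 ≤ a * e * f := mul_nonneg (mul_nonneg ha0 he0) hf0
    have h5 : B * (C₁ * B) ≤ C₁ ^ 2 * B ^ 2 := by
      have h6 : C₁ ≤ C₁ ^ 2 := by nlinarith only [hC₁]
      have h7 : 0 ≤ B ^ 2 := by positivity
      have h8 := mul_le_mul_of_nonneg_right h6 h7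
      calc B * (C₁ * B) = C₁ * B ^ 2 := by ring
        _ ≤ _ := h8
    have h6 : (1 - a) * ((1 - e) * (1 - f)) = 1 - a - e - f + (a * e + a * f + e * f)
        - a * e * f := by ring
    have h7 : C₁ * B * (C₁ * B) = C₁ ^ 2 * B ^ 2 := by ring
    rw [h6]
    linarith only [h1, h2, h3, h4, h5]
  -- weighted AM-GM
  have hag : ∀ t : ℝ, 0 ≤ t → b * t ^ θ ≤ (1 - θ) * B + θ * t := by
    intro t ht
    have := Real.geom_mean_le_arith_mean2_weighted (w₁ := 1 - θ) (w₂ := θ) (by linarith only [hθ1])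
      (by linarith only [hθ]) hB.le ht (by ring)
    rw [hb]
    exact this
  have g1 := hag ξ' hξ'0
  have g2 := hag ζ' hζ'0
  have hBB : 0 ≤ B ^ 2 := by positivity
  have b6 : (1 + 2 * B) * b * (ξ' ^ θ + ζ' ^ θ) ≤
      2 * (1 - θ) * B + e + f + 8 * C₁ ^ 2 * B ^ 2 := by
    have h1 : (1 + 2 * B) * b * (ξ' ^ θ + ζ' ^ θ) = (1 + 2 * B) * (b * ξ' ^ θ + b * ζ' ^ θ) := by
      ring
    have h2 : b * ξ' ^ θ + b * ζ' ^ θ ≤ 2 * (1 - θ) * B + e + f := by
      rw [he, hf]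
      linarith only [g1, g2]
    have h3 : 2 * (1 - θ) * B + e + f ≤ 3 * (C₁ * B) := by
      have h6 : 2 * (1 - θ) * B ≤ 1 * B := mul_le_mul_of_nonneg_right (by linarith only [hθ]) hB.le
      have h7 : 1 * B ≤ C₁ * B := mul_le_mul_of_nonneg_right hC₁ hB.le
      linarith only [heB, hfB, h6, h7]
    have h4 : 2 * B * (b * ξ' ^ θ + b * ζ' ^ θ) ≤ 2 * B * (3 * (C₁ * B)) :=
      mul_le_mul_of_nonneg_left (h2.trans h3) (by linarith only [hB])
    have h5 : 2 * B * (3 * (C₁ * B)) ≤ 8 * C₁ ^ 2 * B ^ 2 := by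
      have h6 : C₁ ≤ C₁ ^ 2 := by nlinarith only [hC₁]
      have h7 : 0 ≤ B ^ 2 := by positivity
      have h8 := mul_le_mul_of_nonneg_right h6 h7
      have h9 : 0 ≤ C₁ ^ 2 * B ^ 2 := by positivity
      calc 2 * B * (3 * (C₁ * B)) = 6 * (C₁ * B ^ 2) := by ring
        _ ≤ 6 * (C₁ ^ 2 * B ^ 2) := by linarith only [h8]
        _ ≤ 8 * (C₁ ^ 2 * B ^ 2) := by linarith only [h9]
        _ = _ := by ring
    rw [h1]
    linarith only [g1, g2, h4, h5]
  have hB1 : B ≤ 1 := by linarith only [hB2]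
  have b7 : B ^ 2 ≤ B ^ (2 * θ) := by
    rw [← Real.rpow_natCast]
    exact Real.rpow_le_rpow_of_exponent_ge hB hB1 (by push_cast; linarith only [hθ1])
  have b8 : (ξ * ζ) ^ θ ≤ C₁ ^ 2 * B ^ (2 * θ) := by
    calc (ξ * ζ) ^ θ ≤ ((C₁ * B) * (C₁ * B)) ^ θ :=
          Real.rpow_le_rpow (mul_nonneg hξ hζ) (mul_le_mul hξC hζC hζ hC0) (by linarith only [hθ])
      _ = (C₁ * B) ^ (2 * θ) := by
          rw [Real.mul_rpow hC0 hC0, ← Real.rpow_add (by positivity)]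
          congr 1
          ring
      _ = C₁ ^ (2 * θ) * B ^ (2 * θ) := Real.mul_rpow (by linarith only [hC₁]) hB.le
      _ ≤ C₁ ^ 2 * B ^ (2 * θ) := by
          refine mul_le_mul_of_nonneg_right ?_ (Real.rpow_nonneg hB.le _)
          rw [← Real.rpow_natCast]
          exact Real.rpow_le_rpow_of_exponent_le hC₁ (by push_cast; linarith only [hθ1])
  have hCC : 0 ≤ C₁ ^ 2 := by positivity
  have b9 : 11 * C₁ ^ 2 * B ^ 2 ≤ 11 * C₁ ^ 2 * B ^ (2 * θ) :=
    mul_le_mul_of_nonneg_left b7 (by positivity)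
  have e0 : 2 * (1 - θ) * (B - x) = 2 * (1 - θ) * B - a := by rw [ha]; ring
  rw [e0]
  linarith only [b4, b5, b6, b8, b9]

/-- Normalised form of `SP_small`. -/
theorem SP_norm_small {θ : ℝ} (hθ : 1 / 2 < θ) (hθ1 : θ < 1) :
    ∃ B₀ > 0, ∃ C ≥ 0, B₀ < 1 ∧ ∀ B x : ℝ, 0 < B → B ≤ B₀ → 0 ≤ x → x ≤ B →
      ∀ (N : ℕ) (φ χ : ℕ → ℝ), (∀ i, 0 ≤ φ i) → (∀ i, 0 ≤ χ i) →
      ∑ i ∈ range (N + 1), φ i = 1 → ∑ i ∈ range (N + 1), χ i = 1 →
      (∑ i ∈ range (N + 1), ∑ j ∈ range (N + 1), (B ^ (1 - θ)) ^ ad i j * (φ i * χ j) ^ θ ≤ 1) ∨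
      ∃ k ≤ N, (if k = 0 then (1 : ℝ) else (1 - x) ^ (2 * (1 - θ))) *
          ((∑ i ∈ Icc k N, φ i) * ∑ j ∈ Icc k N, χ j) ^ θ
        + ∑ i ∈ range (N + 1), ∑ j ∈ range (N + 1),
            (if min i j = k then 0 else (B ^ (1 - θ)) ^ ad i j * (φ i * χ j) ^ θ)
        ≤ 1 + 2 * (1 - θ) * (B - x) + C * B ^ (2 * θ) := by
  have hlam : 0 < 1 - θ := by linarith only [hθ1]
  set C₁ : ℝ := (16 / (3 * θ)) ^ (1 / (1 - θ)) with hC₁
  have h16 : 1 ≤ 16 / (3 * θ) := by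
    rw [le_div_iff₀ (by linarith only [hθ])]
    linarith only [hθ1]
  have hC1 : 1 ≤ C₁ := Real.one_le_rpow h16 (by positivity)
  have hCθ : C₁ ^ (1 - θ) = 16 / (3 * θ) := by
    rw [hC₁, ← Real.rpow_mul (by linarith only [h16]), one_div_mul_cancel hlam.ne', Real.rpow_one]
  set T₀ : ℝ := min 1 ((θ / 8) ^ (1 / (2 * θ - 1))) with hT₀
  have h2θ : 0 < 2 * θ - 1 := by linarith only [hθ]
  have hT0 : 0 < T₀ := lt_min one_pos (Real.rpow_pos_of_pos (by linarith only [hθ]) _)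
  have hT1 : T₀ ≤ 1 := min_le_left _ _
  have hTθ : T₀ ^ (2 * θ - 1) ≤ θ / 8 := by
    calc T₀ ^ (2 * θ - 1) ≤ ((θ / 8) ^ (1 / (2 * θ - 1))) ^ (2 * θ - 1) :=
          Real.rpow_le_rpow hT0.le (min_le_right _ _) h2θ.le
      _ = θ / 8 := by
          rw [← Real.rpow_mul (by linarith only [hθ]), one_div_mul_cancel h2θ.ne', Real.rpow_one]
  set ρ : ℝ := 1 / (θ - 1 / 2) with hρ
  have hρ0 : 0 < ρ := by
    rw [hρ]
    have : 0 < θ - 1 / 2 := by linarith only [hθ]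
    positivity
  set β : ℝ := min (1 / 4) (T₀ / (4 * ρ)) with hβ
  have hβ0 : 0 < β := lt_min (by norm_num) (by positivity)
  have hβ4 : β ≤ 1 / 4 := min_le_left _ _
  have hβT : ρ * (4 * β) ≤ T₀ := by
    have h : β ≤ T₀ / (4 * ρ) := min_le_right _ _
    rw [le_div_iff₀ (by positivity)] at h
    linarith only [h]
  have hβ1 : β ^ (1 / (1 - θ)) ≤ 1 / 2 := by
    calc β ^ (1 / (1 - θ)) ≤ β ^ (1 : ℝ) := by
          refine Real.rpow_le_rpow_of_exponent_ge hβ0 (by linarith only [hβ4]) ?_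
          rw [le_div_iff₀ hlam]
          linarith only [hθ]
      _ ≤ 1 / 2 := by
          rw [Real.rpow_one]
          linarith only [hβ4]
  refine ⟨β ^ (1 / (1 - θ)), Real.rpow_pos_of_pos hβ0 _, 14 * C₁ ^ 2, by positivity,
    by linarith only [hβ1], ?_⟩
  intro B x hB hBB hx hxB N φ χ hφ hχ hφ1 hχ1
  have hB2 : B ≤ 1 / 2 := hBB.trans hβ1
  have hbβ : B ^ (1 - θ) ≤ β := by
    calc B ^ (1 - θ) ≤ (β ^ (1 / (1 - θ))) ^ (1 - θ) := Real.rpow_le_rpow hB.le hBB hlam.le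
      _ = β := by rw [← Real.rpow_mul hβ0.le, one_div_mul_cancel hlam.ne', Real.rpow_one]
  have hb0 : 0 < B ^ (1 - θ) := Real.rpow_pos_of_pos hB _
  by_cases hS : ∑ i ∈ range (N + 1), ∑ j ∈ range (N + 1),
      (B ^ (1 - θ)) ^ ad i j * (φ i * χ j) ^ θ ≤ 1
  · exact Or.inl hS
  push Not at hS
  obtain ⟨k, hk, hk1, hk2⟩ := exists_peak hθ hθ1 hb0.le (hbβ.trans hβ4) N φ χ hφ hχ hφ1 hχ1 hS
  have hφk : φ k ≤ 1 := by
    rw [← hφ1]; exact Finset.single_le_sum (fun i _ => hφ i) hk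
  have hχk : χ k ≤ 1 := by
    rw [← hχ1]; exact Finset.single_le_sum (fun i _ => hχ i) hk
  have hξT : 1 - φ k ≤ T₀ := by
    refine hk1.trans (le_trans ?_ hβT)
    exact mul_le_mul_of_nonneg_left (by linarith only [hbβ]) hρ0.le
  have hζT : 1 - χ k ≤ T₀ := by
    refine hk2.trans (le_trans ?_ hβT)
    exact mul_le_mul_of_nonneg_left (by linarith only [hbβ]) hρ0.le
  by_cases hmax : C₁ * B ≤ max (1 - φ k) (1 - χ k)
  · exfalso
    have h1 := exact_le hθ hθ1 hB hB2 (by linarith only [hβ4, hbβ]) N φ χ hφ hχ hφ1 hχ1 hk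
    have h2 := num_far (ξ := 1 - φ k) (ζ := 1 - χ k) hθ hθ1 hB rfl (by linarith only [hC1]) hCθ hT1 hTθ
      (by linarith only [hφk]) hξT (by linarith only [hχk]) hζT hmax
    have e1 : 1 - (1 - φ k) = φ k := by ring
    have e2 : 1 - (1 - χ k) = χ k := by ring
    rw [e1, e2] at h2
    linarith only [hS, h1, h2]
  push Not at hmax
  have hm1 : 1 - φ k ≤ C₁ * B := (le_max_left _ _).trans hmax.le
  have hm2 : 1 - χ k ≤ C₁ * B := (le_max_right _ _).trans hmax.le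
  right
  have hkN : k ≤ N := by
    have := Finset.mem_range.1 hk
    (clear * - this; omega)
  refine ⟨k, hkN, ?_⟩
  have hL := lcell_le hθ hθ1 hB hB2 (by linarith only [hβ4, hbβ]) N φ χ hφ hχ hφ1 hχ1 hk
  have hnb : ∀ ψ : ℕ → ℝ, (∀ i, 0 ≤ ψ i) → ∑ i ∈ range (N + 1), ψ i = 1 →
      ∑ i ∈ Icc k N, ψ i = 1 - ∑ i ∈ range k, ψ i ∧ ∑ i ∈ range k, ψ i ≤ 1 - ψ k := by
    intro ψ hψ hψ1
    have h1 : ∑ i ∈ range k, ψ i + ∑ i ∈ Icc k N, ψ i = 1 := by
      rw [← hψ1, ← Finset.sum_union]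
      · refine Finset.sum_congr ?_ fun _ _ => rfl
        ext i
        simp only [Finset.mem_union, Finset.mem_range, Finset.mem_Icc]
        omega
      · rw [Finset.disjoint_left]
        intro i hi hi'
        rw [Finset.mem_range] at hi
        rw [Finset.mem_Icc] at hi'
        omega
    have h2 : ψ k ≤ ∑ i ∈ Icc k N, ψ i :=
      Finset.single_le_sum (fun i _ => hψ i) (Finset.mem_Icc.2 ⟨le_rfl, hkN⟩)
    constructor <;> linarith only [h1, h2]
  obtain ⟨p1, p2⟩ := hnb φ hφ hφ1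
  obtain ⟨p3, p4⟩ := hnb χ hχ hχ1
  have q1 : 0 ≤ ∑ i ∈ range k, φ i := Finset.sum_nonneg fun i _ => hφ i
  have q2 : 0 ≤ ∑ i ∈ range k, χ i := Finset.sum_nonneg fun i _ => hχ i
  have hn := num_near (x := x) (ξ := 1 - φ k) (ζ := 1 - χ k) (ξ' := ∑ i ∈ range k, φ i)
    (ζ' := ∑ i ∈ range k, χ i) hθ hθ1 hB hB2 rfl hC1 hx hxB (by linarith only [hφk]) (by linarith only [hχk]) hm1 hm2
    q1 q2 p2 p4 (by have := hφ k; linarith only [hT1, hξT]) (by have := hχ k; linarith only [hT1, hζT])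
  rw [p1, p3]
  by_cases hk0 : k = 0
  · rw [if_pos hk0]
    subst hk0
    simp only [Finset.range_zero, Finset.sum_empty, sub_zero, mul_one, Real.one_rpow] at hL ⊢
    have hn' := num_near (x := x) (ξ := 1 - φ 0) (ζ := 1 - χ 0) (ξ' := 0) (ζ' := 0) hθ hθ1 hB hB2
      rfl hC1 hx hxB (by linarith only [hφk]) (by linarith only [hχk]) hm1 hm2
      le_rfl le_rfl (by linarith only [hφk]) (by linarith only [hχk]) (by have := hφ 0; linarith only [hT1, hξT])
      (by have := hχ 0; linarith only [hT1, hζT])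
    have h0 : (0 : ℝ) ^ θ = 0 := Real.zero_rpow (by linarith only [hθ])
    rw [h0] at hL
    have b8 : 3 * ((1 - φ 0) * (1 - χ 0)) ^ θ ≤ 14 * C₁ ^ 2 * B ^ (2 * θ) := by
      have hC0 : 0 ≤ C₁ * B := by positivity
      have h3 : ((1 - φ 0) * (1 - χ 0)) ^ θ ≤ C₁ ^ 2 * B ^ (2 * θ) := by
        calc ((1 - φ 0) * (1 - χ 0)) ^ θ ≤ ((C₁ * B) * (C₁ * B)) ^ θ :=
              Real.rpow_le_rpow (mul_nonneg (by linarith only [hφk]) (by linarith only [hχk]))
                (mul_le_mul hm1 hm2 (by linarith only [hχk]) hC0) (by linarith only [hθ])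
          _ = (C₁ * B) ^ (2 * θ) := by
              rw [Real.mul_rpow hC0 hC0, ← Real.rpow_add (by positivity)]
              congr 1
              ring
          _ = C₁ ^ (2 * θ) * B ^ (2 * θ) := Real.mul_rpow (by linarith only [hC1]) hB.le
          _ ≤ C₁ ^ 2 * B ^ (2 * θ) := by
              refine mul_le_mul_of_nonneg_right ?_ (Real.rpow_nonneg hB.le _)
              rw [← Real.rpow_natCast]
              exact Real.rpow_le_rpow_of_exponent_le hC1 (by push_cast; linarith only [hθ1])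
      have h4 : 0 ≤ C₁ ^ 2 * B ^ (2 * θ) := by positivity
      linarith only [h3, h4]
    have h5 : 0 ≤ 2 * (1 - θ) * (B - x) := mul_nonneg (by linarith only [hθ1]) (by linarith only [hxB])
    linarith only [hL, b8, h5]
  · rw [if_neg hk0]
    linarith only [hL, hn]

theorem SP_small {θ : ℝ} (hθ : 1 / 2 < θ) (hθ1 : θ < 1) :
    ∃ B₀ > 0, ∃ C ≥ 0, B₀ < 1 ∧ ∀ B x : ℝ, 0 < B → B ≤ B₀ → 0 ≤ x → x ≤ B →
      SP θ (B ^ (1 - θ)) x (1 + 2 * (1 - θ) * (B - x) + C * B ^ (2 * θ)) := by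
  obtain ⟨B₀, hB₀, C, hC, hB₀1, hmain⟩ := SP_norm_small hθ hθ1
  refine ⟨B₀, hB₀, C, hC, hB₀1, ?_⟩
  intro B x hB hBB hx hxB N φ χ hφ hχ
  have hθ0 : θ ≠ 0 := by linarith
  set c : ℝ := 1 + 2 * (1 - θ) * (B - x) + C * B ^ (2 * θ) with hc
  have hc1 : 1 ≤ c := by
    have h1 : 0 ≤ 2 * (1 - θ) * (B - x) := mul_nonneg (by linarith only [hθ1]) (by linarith only [hxB])
    have h2 : 0 ≤ C * B ^ (2 * θ) := mul_nonneg hC (Real.rpow_nonneg hB.le _)
    linarith only [h1, h2]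
  set Φ := ∑ i ∈ range (N + 1), φ i with hΦ
  set X := ∑ i ∈ range (N + 1), χ i with hX
  have hΦ0 : 0 ≤ Φ := Finset.sum_nonneg fun i _ => hφ i
  have hX0 : 0 ≤ X := Finset.sum_nonneg fun i _ => hχ i
  rcases hΦ0.eq_or_lt with h | h
  · left
    have h0 : ∀ i ∈ range (N + 1), φ i = 0 :=
      (Finset.sum_eq_zero_iff_of_nonneg (fun i _ => hφ i)).1 h.symm
    rw [← h, zero_mul, Real.zero_rpow hθ0, mul_zero]
    refine le_of_eq (Finset.sum_eq_zero fun i hi => Finset.sum_eq_zero fun j _ => ?_)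
    rw [h0 i hi, zero_mul, Real.zero_rpow hθ0, mul_zero]
  rcases hX0.eq_or_lt with h' | h'
  · left
    have h0 : ∀ i ∈ range (N + 1), χ i = 0 :=
      (Finset.sum_eq_zero_iff_of_nonneg (fun i _ => hχ i)).1 h'.symm
    rw [← h', mul_zero, Real.zero_rpow hθ0, mul_zero]
    refine le_of_eq (Finset.sum_eq_zero fun i _ => Finset.sum_eq_zero fun j hj => ?_)
    rw [h0 j hj, mul_zero, Real.zero_rpow hθ0, mul_zero]
  have hpos : 0 < Φ * X := mul_pos h h'
  have hP : 0 ≤ (Φ * X) ^ θ := Real.rpow_nonneg hpos.le _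
  have hscale : ∀ i j, (φ i * χ j) ^ θ = (Φ * X) ^ θ * (φ i / Φ * (χ j / X)) ^ θ := by
    intro i j
    rw [← Real.mul_rpow hpos.le (mul_nonneg (div_nonneg (hφ i) h.le) (div_nonneg (hχ j) h'.le))]
    congr 1
    (clear * - h h'; field_simp)
  rcases hmain B x hB hBB hx hxB N (fun i => φ i / Φ) (fun j => χ j / X)
    (fun i => div_nonneg (hφ i) h.le) (fun j => div_nonneg (hχ j) h'.le)
    (by rw [← Finset.sum_div]; exact div_self h.ne')
    (by rw [← Finset.sum_div]; exact div_self h'.ne') with hA | ⟨k, hkN, hA⟩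
  · left
    calc ∑ i ∈ range (N + 1), ∑ j ∈ range (N + 1), (B ^ (1 - θ)) ^ ad i j * (φ i * χ j) ^ θ
        = (Φ * X) ^ θ * ∑ i ∈ range (N + 1), ∑ j ∈ range (N + 1),
          (B ^ (1 - θ)) ^ ad i j * (φ i / Φ * (χ j / X)) ^ θ := by
          rw [Finset.mul_sum]
          refine Finset.sum_congr rfl fun i _ => ?_
          rw [Finset.mul_sum]
          refine Finset.sum_congr rfl fun j _ => ?_
          rw [hscale i j]
          ring
      _ ≤ (Φ * X) ^ θ * 1 := mul_le_mul_of_nonneg_left hA hP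
      _ ≤ (Φ * X) ^ θ * c := mul_le_mul_of_nonneg_left hc1 hP
      _ = _ := mul_comm _ _
  · right
    refine ⟨k, hkN, ?_⟩
    have e1 : ((∑ i ∈ Icc k N, φ i) * ∑ j ∈ Icc k N, χ j) ^ θ
        = (Φ * X) ^ θ * ((∑ i ∈ Icc k N, φ i / Φ) * ∑ j ∈ Icc k N, χ j / X) ^ θ := by
      rw [← Real.mul_rpow hpos.le (mul_nonneg
        (Finset.sum_nonneg fun i _ => div_nonneg (hφ i) h.le)
        (Finset.sum_nonneg fun i _ => div_nonneg (hχ i) h'.le)),
        ← Finset.sum_div, ← Finset.sum_div]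
      congr 1
      (clear * - h h'; field_simp)
    have e2 : ∑ i ∈ range (N + 1), ∑ j ∈ range (N + 1),
        (if min i j = k then 0 else (B ^ (1 - θ)) ^ ad i j * (φ i * χ j) ^ θ)
        = (Φ * X) ^ θ * ∑ i ∈ range (N + 1), ∑ j ∈ range (N + 1),
          (if min i j = k then 0 else (B ^ (1 - θ)) ^ ad i j * (φ i / Φ * (χ j / X)) ^ θ) := by
      rw [Finset.mul_sum]
      refine Finset.sum_congr rfl fun i _ => ?_
      rw [Finset.mul_sum]
      refine Finset.sum_congr rfl fun j _ => ?_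
      split_ifs
      · rw [mul_zero]
      · rw [hscale i j]
        ring
    rw [e1, e2]
    calc _ = (Φ * X) ^ θ * ((if k = 0 then (1 : ℝ) else (1 - x) ^ (2 * (1 - θ))) *
          ((∑ i ∈ Icc k N, φ i / Φ) * ∑ j ∈ Icc k N, χ j / X) ^ θ
        + ∑ i ∈ range (N + 1), ∑ j ∈ range (N + 1),
            (if min i j = k then 0 else
              (B ^ (1 - θ)) ^ ad i j * (φ i / Φ * (χ j / X)) ^ θ)) := by ring
      _ ≤ (Φ * X) ^ θ * c := mul_le_mul_of_nonneg_left hA hP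
      _ = _ := mul_comm _ _

end Vale.P028
end

section

/-!
# Base case: the maximal vertex trick
-/

namespace Vale.P028

open Finset

open Classical in
theorem max_vertex (E : ℕ → ℕ → Prop) (N : ℕ) (f h : ℕ → ℝ) (hf : ∀ q, 0 ≤ f q)
    (hh : ∀ r, 0 ≤ h r) (hΛ : 0 < psum E N f h) (hF : 0 < ∑ q ∈ Icc 1 N, f q)
    (hH : 0 < ∑ r ∈ Icc 1 N, h r) :
    ∃ q₀ r₀ : ℕ, 0 < q₀ ∧ 0 < r₀ ∧ E q₀ r₀ ∧
      psum E N f h / (4 * ∑ r ∈ Icc 1 N, h r) ≤ ∑ q ∈ Icc 1 q₀, (if E q r₀ then f q else 0) ∧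
      psum E N f h / (4 * ∑ q ∈ Icc 1 N, f q) ≤ ∑ r ∈ Icc 1 r₀, (if E q₀ r then h r else 0) := by
  set Λ := psum E N f h with hΛdef
  set F := ∑ q ∈ Icc 1 N, f q with hFdef
  set H := ∑ r ∈ Icc 1 N, h r with hHdef
  set e : ℕ → ℕ → ℝ := fun q r => if E q r then f q * h r else 0 with he
  have he0 : ∀ q r, 0 ≤ e q r := by
    intro q r
    simp only [he]
    split_ifs
    · exact mul_nonneg (hf q) (hh r)
    · exact le_refl _
  set Φ : Finset ℕ × Finset ℕ → ℝ := fun S =>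
    ∑ q ∈ S.1, ∑ r ∈ S.2, e q r - Λ / (4 * F) * ∑ q ∈ S.1, f q - Λ / (4 * H) * ∑ r ∈ S.2, h r
    with hΦ
  obtain ⟨⟨A, B⟩, hmem, hmax⟩ := Finset.exists_max_image
    ((Icc 1 N).powerset ×ˢ (Icc 1 N).powerset) Φ
    ⟨(Icc 1 N, Icc 1 N), by simp⟩
  rw [mem_product, mem_powerset, mem_powerset] at hmem
  obtain ⟨hA, hB⟩ := hmem
  simp only at hA hB
  have hval : Λ / 2 ≤ Φ (A, B) := by
    have h1 := hmax (Icc 1 N, Icc 1 N) (by simp)
    have h2 : Φ (Icc 1 N, Icc 1 N) = Λ / 2 := by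
      simp only [hΦ]
      have h3 : ∑ q ∈ Icc 1 N, ∑ r ∈ Icc 1 N, e q r = Λ := by
        rw [hΛdef]; rfl
      rw [h3, ← hFdef, ← hHdef]
      field_simp
      ring
    linarith only [h1, h2]
  have hc1 : 0 < Λ / (4 * F) := by (clear * - hΛ hF; positivity)
  have hc2 : 0 < Λ / (4 * H) := by (clear * - hΛ hH; positivity)
  have hfA : 0 ≤ ∑ q ∈ A, f q := sum_nonneg fun q _ => hf q
  have hhB : 0 ≤ ∑ r ∈ B, h r := sum_nonneg fun r _ => hh r
  have hpos : 0 < ∑ q ∈ A, ∑ r ∈ B, e q r := by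
    have h1 : Φ (A, B) = ∑ q ∈ A, ∑ r ∈ B, e q r - Λ / (4 * F) * ∑ q ∈ A, f q
      - Λ / (4 * H) * ∑ r ∈ B, h r := rfl
    have h2 := mul_nonneg hc1.le hfA
    have h3 := mul_nonneg hc2.le hhB
    linarith only [hΛ, hval, h2, h3]
  -- degrees
  have hdegA : ∀ q ∈ A, 0 < f q → Λ / (4 * F) ≤ ∑ r ∈ B, if E q r then h r else 0 := by
    intro q hq hfq
    have h1 := hmax (A.erase q, B) (by
      rw [mem_product, mem_powerset, mem_powerset]
      exact ⟨(erase_subset _ _).trans hA, hB⟩)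
    have h2 : ∑ q' ∈ A, ∑ r ∈ B, e q' r = ∑ r ∈ B, e q r + ∑ q' ∈ A.erase q, ∑ r ∈ B, e q' r :=
      (add_sum_erase A _ hq).symm
    have h3 : ∑ q' ∈ A, f q' = f q + ∑ q' ∈ A.erase q, f q' := (add_sum_erase A _ hq).symm
    have h4 : ∑ r ∈ B, e q r = f q * ∑ r ∈ B, if E q r then h r else 0 := by
      rw [mul_sum]
      refine sum_congr rfl fun r _ => ?_
      simp only [he]
      split_ifs <;> simp
    simp only [hΦ] at h1
    rw [h2, h3, h4] at h1
    have h5 : f q * (Λ / (4 * F)) ≤ f q * ∑ r ∈ B, if E q r then h r else 0 := by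
      nlinarith only [h1]
    exact le_of_mul_le_mul_left h5 hfq
  have hdegB : ∀ r ∈ B, 0 < h r → Λ / (4 * H) ≤ ∑ q ∈ A, if E q r then f q else 0 := by
    intro r hr hhr
    have h1 := hmax (A, B.erase r) (by
      rw [mem_product, mem_powerset, mem_powerset]
      exact ⟨hA, (erase_subset _ _).trans hB⟩)
    have h2 : ∑ q ∈ A, ∑ r' ∈ B, e q r' = ∑ q ∈ A, e q r + ∑ q ∈ A, ∑ r' ∈ B.erase r, e q r' := by
      rw [← sum_add_distrib]
      exact sum_congr rfl fun q _ => (add_sum_erase B _ hr).symm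
    have h3 : ∑ r' ∈ B, h r' = h r + ∑ r' ∈ B.erase r, h r' := (add_sum_erase B _ hr).symm
    have h4 : ∑ q ∈ A, e q r = h r * ∑ q ∈ A, if E q r then f q else 0 := by
      rw [mul_sum]
      refine sum_congr rfl fun q _ => ?_
      simp only [he]
      split_ifs
      · ring
      · ring
    simp only [hΦ] at h1
    rw [h2, h3, h4] at h1
    have h5 : h r * (Λ / (4 * H)) ≤ h r * ∑ q ∈ A, if E q r then f q else 0 := by
      nlinarith only [h1]
    exact le_of_mul_le_mul_left h5 hhr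
  -- the maximal vertices
  have hprop : ∀ q r, 0 < e q r → E q r ∧ 0 < f q ∧ 0 < h r := by
    intro q r h1
    simp only [he] at h1
    split_ifs at h1 with h2
    · refine ⟨h2, ?_, ?_⟩
      · rcases (hf q).lt_or_eq with h3 | h3
        · exact h3
        · rw [← h3, zero_mul] at h1; exact absurd h1 (lt_irrefl _)
      · rcases (hh r).lt_or_eq with h3 | h3
        · exact h3
        · rw [← h3, mul_zero] at h1; exact absurd h1 (lt_irrefl _)
    · exact absurd h1 (lt_irrefl _)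
  have hprop' : ∀ q r, E q r → 0 < f q → 0 < h r → 0 < e q r := by
    intro q r h1 h2 h3
    simp only [he]
    rw [if_pos h1]
    exact mul_pos h2 h3
  set S := B.filter (fun r => ∃ q ∈ A, 0 < e q r) with hS
  have hSne : S.Nonempty := by
    by_contra hne
    rw [not_nonempty_iff_eq_empty] at hne
    have : ∑ q ∈ A, ∑ r ∈ B, e q r = 0 := by
      refine sum_eq_zero fun q hq => sum_eq_zero fun r hr => ?_
      by_contra h1
      have h2 : 0 < e q r := lt_of_le_of_ne (he0 q r) (Ne.symm h1)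
      have h3 : r ∈ S := by rw [hS, mem_filter]; exact ⟨hr, q, hq, h2⟩
      rw [hne] at h3
      exact absurd h3 (notMem_empty r)
    linarith only [hpos, this]
  obtain ⟨r₀, hr₀S, hr₀max⟩ := S.exists_max_image (fun r => r) hSne
  rw [hS, mem_filter] at hr₀S
  obtain ⟨hr₀B, q₁, hq₁A, hq₁⟩ := hr₀S
  set T := A.filter (fun q => 0 < e q r₀) with hT
  obtain ⟨q₀, hq₀T, hq₀max⟩ := T.exists_max_image (fun q => q)
    ⟨q₁, by rw [hT, mem_filter]; exact ⟨hq₁A, hq₁⟩⟩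
  rw [hT, mem_filter] at hq₀T
  obtain ⟨hq₀A, hq₀⟩ := hq₀T
  obtain ⟨hE₀, hfq₀, hhr₀⟩ := hprop q₀ r₀ hq₀
  have hq₀1 : 0 < q₀ := (mem_Icc.mp (hA hq₀A)).1
  have hr₀1 : 0 < r₀ := (mem_Icc.mp (hB hr₀B)).1
  refine ⟨q₀, r₀, hq₀1, hr₀1, hE₀, ?_, ?_⟩
  · refine (hdegB r₀ hr₀B hhr₀).trans ?_
    calc ∑ q ∈ A, (if E q r₀ then f q else 0)
        = ∑ q ∈ A.filter (fun q => E q r₀ ∧ 0 < f q), (if E q r₀ then f q else 0) := by
          symm
          apply sum_subset (filter_subset _ _)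
          intro q hq hq2
          rw [mem_filter, not_and_or, not_and_or] at hq2
          rcases hq2 with h1 | h1 | h1
          · exact absurd hq h1
          · rw [if_neg h1]
          · have : f q = 0 := le_antisymm (not_lt.mp h1) (hf q)
            rw [this]; simp
      _ ≤ ∑ q ∈ Icc 1 q₀, (if E q r₀ then f q else 0) := by
          apply sum_le_sum_of_subset_of_nonneg
          · intro q hq
            rw [mem_filter] at hq
            rw [mem_Icc]
            refine ⟨(mem_Icc.mp (hA hq.1)).1, ?_⟩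
            apply hq₀max q
            rw [hT, mem_filter]
            exact ⟨hq.1, hprop' q r₀ hq.2.1 hq.2.2 hhr₀⟩
          · intro q _ _
            split_ifs
            · exact hf q
            · exact le_refl _
  · refine (hdegA q₀ hq₀A hfq₀).trans ?_
    calc ∑ r ∈ B, (if E q₀ r then h r else 0)
        = ∑ r ∈ B.filter (fun r => E q₀ r ∧ 0 < h r), (if E q₀ r then h r else 0) := by
          symm
          apply sum_subset (filter_subset _ _)
          intro r hr hr2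
          rw [mem_filter, not_and_or, not_and_or] at hr2
          rcases hr2 with h1 | h1 | h1
          · exact absurd hr h1
          · rw [if_neg h1]
          · have : h r = 0 := le_antisymm (not_lt.mp h1) (hh r)
            rw [this]; simp
      _ ≤ ∑ r ∈ Icc 1 r₀, (if E q₀ r then h r else 0) := by
          apply sum_le_sum_of_subset_of_nonneg
          · intro r hr
            rw [mem_filter] at hr
            rw [mem_Icc]
            refine ⟨(mem_Icc.mp (hB hr.1)).1, ?_⟩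
            apply hr₀max r
            rw [hS, mem_filter]
            exact ⟨hr.1, q₀, hq₀A, hprop' q₀ r hr.2.1 hfq₀ hr.2.2⟩
          · intro r _ _
            split_ifs
            · exact hh r
            · exact le_refl _

theorem edge_empty {Ω : ℕ → ℕ → Prop} {a b : ℕ} {ψ₁ ψ₂ : ℕ → ℝ} {s₁ s₂ : ℝ} {q r : ℕ}
    (_hq : 0 < q) (h : Edge Ω ∅ a b ψ₁ ψ₂ s₁ s₂ q r) :
    Ω (a * q) (b * r) ∧ (b : ℝ) * (r : ℝ) * ψ₁ q ≤ s₁ ∧ (a : ℝ) * (q : ℝ) * ψ₂ r ≤ s₂ := by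
  obtain ⟨h1, h2, h3, h4⟩ := h
  have hg : Nat.gcd q r = 1 := by
    by_contra hne
    obtain ⟨p, hp, hpd⟩ := Nat.exists_prime_and_dvd hne
    exact absurd (h1 p hp hpd) (notMem_empty p)
  have hg' : Nat.gcd r q = 1 := by rw [Nat.gcd_comm]; exact hg
  have e1 : cofac q r = q := by unfold cofac; rw [hg, Nat.div_one]
  have e2 : cofac r q = r := by unfold cofac; rw [hg', Nat.div_one]
  rw [e1, e2] at h2
  rw [e2] at h3
  rw [e1] at h4
  exact ⟨h2, h3, h4⟩

open Classical in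
theorem base_trick (Ω : ℕ → ℕ → Prop) {θ : ℝ} (hθ : 1 / 2 < θ) (hθ1 : θ < 1) (δ : ℝ) (hδ : 0 ≤ δ)
    (a b : ℕ) (ha : 0 < a) (hb : 0 < b)
    (hdens : ∀ q₀ r₀ : ℕ, 0 < q₀ → 0 < r₀ → Ω (a * q₀) (b * r₀) →
      (((Icc 1 q₀).filter (fun m => Ω (a * m) (b * r₀))).card : ℝ) *
        (((Icc 1 r₀).filter (fun n => Ω (a * q₀) (b * n))).card : ℝ) ≤ δ * q₀ * r₀)
    (ψ₁ ψ₂ f h : ℕ → ℝ) (s₁ s₂ : ℝ) (N : ℕ) (hs₁ : 0 < s₁) (hs₂ : 0 < s₂)
    (hf : ∀ q, 0 ≤ f q ∧ f q ≤ ψ₁ q) (hh : ∀ r, 0 ≤ h r ∧ h r ≤ ψ₂ r) :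
    Lam Ω ∅ a b ψ₁ ψ₂ s₁ s₂ N f h ≤
      (16 * s₁ * s₂ * δ / (a * b)) ^ (1 - θ) *
        ((∑ q ∈ Icc 1 N, f q) * ∑ r ∈ Icc 1 N, h r) ^ θ := by
  have ha0 : (0 : ℝ) < a := by exact_mod_cast ha
  have hb0 : (0 : ℝ) < b := by exact_mod_cast hb
  set Z : ℝ := 16 * s₁ * s₂ * δ / (a * b) with hZ
  have hZ0 : 0 ≤ Z := by (clear * - hs₁ hs₂ hδ ha hb; positivity)
  set F := ∑ q ∈ Icc 1 N, f q with hFdef
  set H := ∑ r ∈ Icc 1 N, h r with hHdef
  have hF0 : 0 ≤ F := sum_nonneg fun q _ => (hf q).1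
  have hH0 : 0 ≤ H := sum_nonneg fun r _ => (hh r).1
  set Λ := Lam Ω ∅ a b ψ₁ ψ₂ s₁ s₂ N f h with hΛdef
  have hRHS : 0 ≤ Z ^ (1 - θ) * (F * H) ^ θ :=
    mul_nonneg (Real.rpow_nonneg hZ0 _) (Real.rpow_nonneg (mul_nonneg hF0 hH0) _)
  have hΛle : Λ ≤ F * H := by
    rw [hΛdef, Lam, psum, hFdef, hHdef, sum_mul_sum]
    refine sum_le_sum fun q _ => sum_le_sum fun r _ => ?_
    split_ifs
    · exact le_refl _
    · exact mul_nonneg (hf q).1 (hh r).1
  rcases le_or_gt Λ 0 with hΛ | hΛ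
  · exact hΛ.trans hRHS
  have hFH : 0 < F * H := lt_of_lt_of_le hΛ hΛle
  have hF : 0 < F := by
    rcases hF0.lt_or_eq with h1 | h1
    · exact h1
    · rw [← h1, zero_mul] at hFH; exact absurd hFH (lt_irrefl _)
  have hH : 0 < H := by
    rcases hH0.lt_or_eq with h1 | h1
    · exact h1
    · rw [← h1, mul_zero] at hFH; exact absurd hFH (lt_irrefl _)
  obtain ⟨q₀, r₀, hq₀, hr₀, hE, h1, h2⟩ := max_vertex (Edge Ω ∅ a b ψ₁ ψ₂ s₁ s₂) N f h
    (fun q => (hf q).1) (fun r => (hh r).1) hΛ hF hH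
  have hq0 : (0 : ℝ) < q₀ := by exact_mod_cast hq₀
  have hr0 : (0 : ℝ) < r₀ := by exact_mod_cast hr₀
  have hΩ := (edge_empty hq₀ hE).1
  have h3 : ∑ q ∈ Icc 1 q₀, (if Edge Ω ∅ a b ψ₁ ψ₂ s₁ s₂ q r₀ then f q else 0) ≤
      (((Icc 1 q₀).filter (fun m => Ω (a * m) (b * r₀))).card : ℝ) * (s₁ / (b * r₀)) := by
    rw [← nsmul_eq_mul, ← sum_const, sum_filter]
    refine sum_le_sum fun q hq => ?_
    have hq1 : 0 < q := (mem_Icc.mp hq).1
    by_cases h4 : Edge Ω ∅ a b ψ₁ ψ₂ s₁ s₂ q r₀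
    · obtain ⟨h5, h6, h7⟩ := edge_empty hq1 h4
      rw [if_pos h4, if_pos h5, le_div_iff₀ (by (clear * - hb hr₀; positivity))]
      calc f q * (b * r₀) ≤ ψ₁ q * (b * r₀) :=
            mul_le_mul_of_nonneg_right (hf q).2 (by positivity)
        _ = b * r₀ * ψ₁ q := by ring
        _ ≤ s₁ := h6
    · rw [if_neg h4]
      split_ifs
      · (clear * - hs₁ hb hr₀; positivity)
      · exact le_refl _
  have h4 : ∑ r ∈ Icc 1 r₀, (if Edge Ω ∅ a b ψ₁ ψ₂ s₁ s₂ q₀ r then h r else 0) ≤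
      (((Icc 1 r₀).filter (fun n => Ω (a * q₀) (b * n))).card : ℝ) * (s₂ / (a * q₀)) := by
    rw [← nsmul_eq_mul, ← sum_const, sum_filter]
    refine sum_le_sum fun r hr => ?_
    by_cases h4 : Edge Ω ∅ a b ψ₁ ψ₂ s₁ s₂ q₀ r
    · obtain ⟨h5, h6, h7⟩ := edge_empty hq₀ h4
      rw [if_pos h4, if_pos h5, le_div_iff₀ (by (clear * - ha hq₀; positivity))]
      calc h r * (a * q₀) ≤ ψ₂ r * (a * q₀) :=
            mul_le_mul_of_nonneg_right (hh r).2 (by positivity)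
        _ = a * q₀ * ψ₂ r := by ring
        _ ≤ s₂ := h7
    · rw [if_neg h4]
      split_ifs
      · (clear * - hs₂ ha hq₀; positivity)
      · exact le_refl _
  have h5 := h1.trans h3
  have h6 := h2.trans h4
  have h7 := hdens q₀ r₀ hq₀ hr₀ hΩ
  set c₁ : ℝ := (((Icc 1 q₀).filter (fun m => Ω (a * m) (b * r₀))).card : ℝ) with hc₁
  set c₂ : ℝ := (((Icc 1 r₀).filter (fun n => Ω (a * q₀) (b * n))).card : ℝ) with hc₂
  have hc₁0 : 0 ≤ c₁ := Nat.cast_nonneg _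
  have hc₂0 : 0 ≤ c₂ := Nat.cast_nonneg _
  have h8 : Λ / (4 * H) * (Λ / (4 * F)) ≤ c₁ * (s₁ / (b * r₀)) * (c₂ * (s₂ / (a * q₀))) :=
    mul_le_mul h5 h6 (by (clear * - hΛ hF; positivity)) (by (clear * - hs₁ hb hr₀; positivity))
  have h9 : c₁ * (s₁ / (b * r₀)) * (c₂ * (s₂ / (a * q₀))) ≤ s₁ * s₂ * δ / (a * b) := by
    have : c₁ * (s₁ / (b * r₀)) * (c₂ * (s₂ / (a * q₀)))
        = (c₁ * c₂) * (s₁ * s₂ / (a * b * q₀ * r₀)) := by
      (clear * - hq₀ ha hs₂ hr₀ hb hs₁; field_simp)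
    rw [this]
    calc (c₁ * c₂) * (s₁ * s₂ / (a * b * q₀ * r₀))
        ≤ (δ * q₀ * r₀) * (s₁ * s₂ / (a * b * q₀ * r₀)) :=
          mul_le_mul_of_nonneg_right h7 (by (clear * - hs₁ hs₂ ha hb hq₀ hr₀; positivity))
      _ = s₁ * s₂ * δ / (a * b) := by (clear * - hq₀ hr₀ hb ha hs₂ hs₁; field_simp)
  have h10 : Λ ^ 2 ≤ Z * (F * H) := by
    have h11 := h8.trans h9
    have h12 : Λ / (4 * H) * (Λ / (4 * F)) = Λ ^ 2 / (16 * (F * H)) := by
      field_simp
      ring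
    rw [h12, div_le_iff₀ (by (clear * - hF hH; positivity))] at h11
    rw [hZ]
    calc Λ ^ 2 ≤ s₁ * s₂ * δ / (a * b) * (16 * (F * H)) := h11
      _ = 16 * s₁ * s₂ * δ / (a * b) * (F * H) := by ring
  calc Λ = (Λ ^ 2) ^ (1 - θ) * Λ ^ (2 * θ - 1) := by
        rw [← Real.rpow_natCast Λ 2, ← Real.rpow_mul hΛ.le, ← Real.rpow_add hΛ]
        norm_num
        rw [show 2 * (1 - θ) + (2 * θ - 1) = 1 by ring, Real.rpow_one]
    _ ≤ (Z * (F * H)) ^ (1 - θ) * (F * H) ^ (2 * θ - 1) := by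
        apply mul_le_mul
        · exact Real.rpow_le_rpow (by (clear * - hΛ; positivity)) h10 (by linarith only [hθ1])
        · exact Real.rpow_le_rpow hΛ.le hΛle (by linarith only [hθ])
        · exact Real.rpow_nonneg hΛ.le _
        · exact Real.rpow_nonneg (mul_nonneg hZ0 hFH.le) _
    _ = Z ^ (1 - θ) * (F * H) ^ θ := by
        rw [Real.mul_rpow hZ0 hFH.le, mul_assoc, ← Real.rpow_add hFH]
        congr 2
        ring

end Vale.P028
end
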