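import Vale.Agent.P028.MathlibUsed
import Vale.Agent.P028.Bdl.B1
import Vale.Agent.P028.Bdl.B2
import Vale.Agent.P013.Mertens

set_option linter.all false

section

/-!
# The lossless bound with weights `φ(q)/q`
-/

namespace Vale.P028

open Finset

open Classical in
theorem card_filter_cl (p : ℕ → Prop) (n : ℕ) : (((Icc 1 n).filter p).card : ℝ) ≤ n := by
  refine le_trans (b := ((Icc 1 n).card : ℝ)) ?_ (by simp only [Nat.card_Icc, add_tsub_cancel_right, Std.le_refl])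
  exact Nat.cast_le.2 (card_filter_le _ _)

/-- the totient weight is at most the product over the primes of `P` dividing `q` -/
theorem totient_weight_le (P : Finset ℕ) (hP : ∀ p ∈ P, p.Prime) (q : ℕ) :
    ((q.totient : ℝ) / q) ≤ ∏ p ∈ P with p ∣ q, (1 - 1 / (p : ℝ)) := by
  have hfac : ∀ p : ℕ, p.Prime → 0 ≤ 1 - 1 / (p : ℝ) := by
    intro p hp
    have h2 := hp.two_le
    have h2' : (2 : ℝ) ≤ p := by exact_mod_cast h2
    have : 1 / (p : ℝ) ≤ 1 / 2 := one_div_le_one_div_of_le (by norm_num) h2'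
    linarith only [this]
  rcases Nat.eq_zero_or_pos q with rfl | hq
  · simp only [Nat.totient_zero, Nat.cast_zero, div_zero]
    exact prod_nonneg fun p hp => hfac p (hP p (mem_filter.1 hp).1)
  · have hq' : (0 : ℝ) < q := by exact_mod_cast hq
    have h1 : (q.totient : ℚ) = q * ∏ p ∈ q.primeFactors, (1 - (p : ℚ)⁻¹) :=
      Nat.totient_eq_mul_prod_factors q
    have h2 : (q.totient : ℝ) = q * ∏ p ∈ q.primeFactors, (1 - 1 / (p : ℝ)) := by
      have h3 : ((q.totient : ℚ) : ℝ) = ((q * ∏ p ∈ q.primeFactors, (1 - (p : ℚ)⁻¹) : ℚ) : ℝ) := by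
        rw [h1]
      push_cast at h3
      simpa only [one_div] using h3
    rw [h2, mul_div_cancel_left₀ _ hq'.ne']
    have hsub : (P.filter (fun p => p ∣ q)) ⊆ q.primeFactors := by
      intro p hp
      rw [mem_filter] at hp
      exact Nat.mem_primeFactors.2 ⟨hP p hp.1, hp.2, hq.ne'⟩
    refine prod_le_prod_of_subset_of_le_one hsub ?_ ?_
    · intro p hp
      exact hfac p (Nat.prime_of_mem_primeFactors hp)
    · intro p hp _
      have : 0 ≤ 1 / (p : ℝ) := by (clear * -; positivity)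
      linarith only [this]

/-- a product over a set of primes of `1 + C p^{-2θ}` (or bounded for small `p`) is bounded -/
theorem prod_bounded {θ B₀ C M : ℝ} (hθ : 1 / 2 < θ) (hB₀ : 0 < B₀) (hC : 0 ≤ C) (hM : 1 ≤ M)
    (c : ℕ → ℝ) (hc0 : ∀ p : ℕ, p.Prime → 0 ≤ c p)
    (hc1 : ∀ p : ℕ, p.Prime → 1 / (p : ℝ) ≤ B₀ → c p ≤ 1 + C * (1 / (p : ℝ)) ^ (2 * θ))
    (hc2 : ∀ p : ℕ, p.Prime → ¬ 1 / (p : ℝ) ≤ B₀ → c p ≤ M) :
    ∃ K > 0, ∀ P : Finset ℕ, (∀ p ∈ P, p.Prime) → ∏ p ∈ P, c p ≤ K := by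
  set n₀ : ℕ := ⌈1 / B₀⌉₊ with hn₀
  set d₁ : ℕ → ℝ := fun n => if n < n₀ + 1 then Real.log M else 0 with hd₁
  set d₂ : ℕ → ℝ := fun n => C * (1 / (n : ℝ) ^ (2 * θ)) with hd₂
  have hs₁ : Summable d₁ := by
    refine summable_of_ne_finset_zero (s := range (n₀ + 1)) ?_
    intro n hn
    simp only [hd₁]
    rw [if_neg]
    simpa only [Order.lt_add_one_iff, not_le, mem_range] using hn
  have hs₂ : Summable d₂ := by
    refine Summable.mul_left _ ?_
    exact Real.summable_one_div_nat_rpow.2 (by linarith only [hθ])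
  have hlogM : 0 ≤ Real.log M := Real.log_nonneg hM
  have hd₁0 : ∀ n, 0 ≤ d₁ n := by
    intro n
    simp only [hd₁]
    split_ifs
    · exact hlogM
    · exact le_rfl
  have hd₂0 : ∀ n, 0 ≤ d₂ n := by
    intro n
    simp only [hd₂]
    (clear * - hC; positivity)
  have hs : Summable (fun n => d₁ n + d₂ n) := hs₁.add hs₂
  refine ⟨Real.exp (∑' n, (d₁ n + d₂ n)), Real.exp_pos _, ?_⟩
  intro P hP
  have hle : ∀ p ∈ P, c p ≤ Real.exp (d₁ p + d₂ p) := by
    intro p hp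
    have hpp := hP p hp
    have hp0 : (0 : ℝ) < p := by exact_mod_cast hpp.pos
    by_cases h : 1 / (p : ℝ) ≤ B₀
    · refine (hc1 p hpp h).trans ?_
      have h1 : (1 / (p : ℝ)) ^ (2 * θ) = 1 / (p : ℝ) ^ (2 * θ) := by
        rw [Real.div_rpow zero_le_one hp0.le, Real.one_rpow]
      rw [h1]
      have h2 : d₂ p ≤ d₁ p + d₂ p := by linarith only [hd₁0 p]
      have h3 := Real.add_one_le_exp (d₂ p)
      have h4 : Real.exp (d₂ p) ≤ Real.exp (d₁ p + d₂ p) := Real.exp_le_exp.2 h2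
      have h5 : d₂ p = C * (1 / (p : ℝ) ^ (2 * θ)) := rfl
      linarith only [h3, h4]
    · refine (hc2 p hpp h).trans ?_
      push Not at h
      have h1 : (p : ℝ) < 1 / B₀ := by
        rw [lt_div_iff₀ hB₀]
        rw [lt_div_iff₀ hp0] at h
        linarith only [h]
      have h2 : p < n₀ + 1 := by
        have : (p : ℝ) < n₀ := lt_of_lt_of_le h1 (Nat.le_ceil _)
        have h3 : p < n₀ := by exact_mod_cast this
        omega
      have h3 : d₁ p = Real.log M := by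
        simp only [hd₁]
        rw [if_pos h2]
      calc M = Real.exp (Real.log M) := (Real.exp_log (by linarith only [hM])).symm
        _ ≤ Real.exp (d₁ p + d₂ p) := by
          apply Real.exp_le_exp.2
          rw [h3]
          linarith only [hd₂0 p]
  calc ∏ p ∈ P, c p ≤ ∏ p ∈ P, Real.exp (d₁ p + d₂ p) :=
        prod_le_prod (fun p hp => hc0 p (hP p hp)) hle
    _ = Real.exp (∑ p ∈ P, (d₁ p + d₂ p)) := (Real.exp_sum _ _).symm
    _ ≤ Real.exp (∑' n, (d₁ n + d₂ n)) := by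
        apply Real.exp_le_exp.2
        exact hs.sum_le_tsum P (fun n _ => add_nonneg (hd₁0 n) (hd₂0 n))

/-- `T1`: lossless bound with weights `φ(q)/q`. -/
theorem T1 {θ : ℝ} (hθ : 1 / 2 < θ) (hθ1 : θ < 1) :
    ∃ C > 0, ∀ (ψ₁ ψ₂ f h : ℕ → ℝ) (s₁ s₂ : ℝ) (N : ℕ), 0 < s₁ → 0 < s₂ →
      (∀ q, 0 ≤ ψ₁ q) → (∀ q, 0 ≤ ψ₂ q) →
      (∀ q, 0 ≤ f q ∧ f q ≤ ψ₁ q * (q.totient / q)) →
      (∀ r, 0 ≤ h r ∧ h r ≤ ψ₂ r * (r.totient / r)) →
      psum (fun q r => (cofac r q : ℝ) * ψ₁ q ≤ s₁ ∧ (cofac q r : ℝ) * ψ₂ r ≤ s₂) N f h ≤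
        C * (s₁ * s₂) ^ (1 - θ) * ((∑ q ∈ Icc 1 N, f q) * ∑ r ∈ Icc 1 N, h r) ^ θ := by
  classical
  obtain ⟨B₀, hB₀, C, hC, hB₀1, hSPs⟩ := SP_small hθ hθ1
  have hl0 : 0 < 1 - θ := by linarith only [hθ1]
  -- the growth factor
  set B : ℕ → ℝ := fun p => (1 / (p : ℝ)) ^ (1 - θ) with hB
  set x : ℕ → ℝ := fun p => 1 / (p : ℝ) with hx
  set c : ℕ → ℝ := fun p => if 1 / (p : ℝ) ≤ B₀ then 1 + C * (1 / (p : ℝ)) ^ (2 * θ)
    else (1 + B p) / (1 - B p) with hc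
  have hpinv : ∀ p : ℕ, p.Prime → 0 < 1 / (p : ℝ) ∧ 1 / (p : ℝ) ≤ 1 / 2 := by
    intro p hp
    have h2' : (2 : ℝ) ≤ p := by exact_mod_cast hp.two_le
    exact ⟨by (clear * - h2'; positivity), one_div_le_one_div_of_le (by norm_num) h2'⟩
  have hBp : ∀ p : ℕ, p.Prime → 0 ≤ B p ∧ B p ≤ (1 / 2 : ℝ) ^ (1 - θ) := by
    intro p hp
    obtain ⟨h1, h2⟩ := hpinv p hp
    exact ⟨by simp only [hB]; (clear * - h1; positivity), Real.rpow_le_rpow h1.le h2 hl0.le⟩
  set b₂ : ℝ := (1 / 2 : ℝ) ^ (1 - θ) with hb₂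
  have hb₂1 : b₂ < 1 := Real.rpow_lt_one (by (clear * -; norm_num)) (by norm_num) hl0
  have hb₂0 : 0 < b₂ := by positivity
  have hSP : ∀ p : ℕ, p.Prime → SP θ (B p) (x p) (c p) := by
    intro p hp
    obtain ⟨h1, h2⟩ := hpinv p hp
    obtain ⟨h3, h4⟩ := hBp p hp
    by_cases h : 1 / (p : ℝ) ≤ B₀
    · have h5 := hSPs (1 / (p : ℝ)) (1 / (p : ℝ)) h1 h h1.le le_rfl
      have h6 : c p = 1 + 2 * (1 - θ) * (1 / (p : ℝ) - 1 / (p : ℝ)) +
          C * (1 / (p : ℝ)) ^ (2 * θ) := by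
        simp only [hc]
        rw [if_pos h]
        ring
      rw [h6]
      exact h5
    · have h6 : c p = (1 + B p) / (1 - B p) := by
        simp only [hc]
        rw [if_neg h]
      rw [h6]
      exact SP_large hθ hθ1 h3 (lt_of_le_of_lt h4 hb₂1) h1.le (by simp only [hx]; linarith only [h2])
  have hc0 : ∀ p : ℕ, p.Prime → 0 ≤ c p := by
    intro p hp
    obtain ⟨h3, h4⟩ := hBp p hp
    simp only [hc]
    split_ifs
    · (clear * - hC; positivity)
    · apply div_nonneg <;> linarith only [h3, hb₂1, h4]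
  obtain ⟨K₀, hK₀, hprod⟩ := prod_bounded (M := (1 + b₂) / (1 - b₂)) hθ hB₀ hC (by
      rw [le_div_iff₀ (by linarith only [hb₂1])]
      linarith only [hb₂0]) c hc0 (by
      intro p hp h
      simp only [hc]
      rw [if_pos h]) (by
      intro p hp h
      obtain ⟨h3, h4⟩ := hBp p hp
      simp only [hc]
      rw [if_neg h]
      apply div_le_div₀ <;> linarith only [h4, hb₂0, hb₂1])
  set K : ℕ → ℕ → ℝ := fun a b => (16 / ((a : ℝ) * b)) ^ (1 - θ) with hK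
  have hKgrow : ∀ p : ℕ, p.Prime → ∀ a b l : ℕ, 0 < a → 0 < b →
      (16 / (((a * p ^ l : ℕ) : ℝ) * b)) ^ (1 - θ) ≤ B p ^ l * (16 / ((a : ℝ) * b)) ^ (1 - θ) := by
    intro p hp a b l ha hb
    have ha' : (0 : ℝ) < a := by exact_mod_cast ha
    have hb' : (0 : ℝ) < b := by exact_mod_cast hb
    have hp' : (0 : ℝ) < p := by exact_mod_cast hp.pos
    have h1 : (16 / (((a * p ^ l : ℕ) : ℝ) * b)) = (1 / (p : ℝ)) ^ l * (16 / ((a : ℝ) * b)) := by
      push_cast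
      rw [one_div, inv_pow]
      (clear * - hb hp' ha; field_simp)
    rw [h1, Real.mul_rpow (by (clear * - hp'; positivity)) (by (clear * - ha hb; positivity))]
    apply le_of_eq
    congr 1
    simp only [hB]
    rw [← Real.rpow_natCast, ← Real.rpow_natCast, ← Real.rpow_mul (by (clear * - hp'; positivity)),
      ← Real.rpow_mul (by (clear * - hp'; positivity)), mul_comm]
  have hK0 : ∀ a b, 0 ≤ K a b := by
    intro a b
    simp only [hK]
    (clear * -; positivity)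
  have hbase : BaseBound (fun _ _ => True) θ K := by
    intro a b ha hb ψ₁ ψ₂ f h s₁ s₂ N hs₁ hs₂ hf hh
    have ha' : (0 : ℝ) < a := by exact_mod_cast ha
    have hb' : (0 : ℝ) < b := by exact_mod_cast hb
    have h1 := base_trick (fun _ _ => True) hθ hθ1 1 zero_le_one a b ha hb (by
      intro q₀ r₀ hq₀ hr₀ _
      rw [one_mul]
      refine mul_le_mul ?_ ?_ (by (clear * -; positivity)) (by (clear * - hq₀; positivity))
      · exact card_filter_cl _ _
      · exact card_filter_cl _ _) ψ₁ ψ₂ f h s₁ s₂ N hs₁ hs₂ hf hh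
    refine h1.trans (le_of_eq ?_)
    congr 1
    simp only [hK]
    rw [← Real.mul_rpow (by (clear * - hs₁ hs₂; positivity)) (by (clear * - ha hb; positivity))]
    congr 1
    (clear * - hb ha hs₂ hs₁; field_simp)
  refine ⟨K₀ * (16 : ℝ) ^ (1 - θ), by (clear * - hK₀; positivity), ?_⟩
  intro ψ₁ ψ₂ f h s₁ s₂ N hs₁ hs₂ hψ₁ hψ₂ hf hh
  set P : Finset ℕ := (Icc 1 N).filter Nat.Prime with hPdef
  have hP : ∀ p ∈ P, p.Prime := fun p hp => (mem_filter.1 hp).2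
  have hF0 : 0 ≤ ∑ q ∈ Icc 1 N, f q := sum_nonneg fun q _ => (hf q).1
  have hH0 : 0 ≤ ∑ q ∈ Icc 1 N, h q := sum_nonneg fun q _ => (hh q).1
  have hL := theoremL (fun _ _ => True) hθ hθ1 K hK0 hbase P hP B x c
    (fun p hp => (hBp p (hP p hp)).1)
    (fun p hp => ⟨(hpinv p (hP p hp)).1.le, by
      have := (hpinv p (hP p hp)).2
      simp only [hx]
      linarith only [this]⟩)
    (fun p hp => hc0 p (hP p hp))
    (fun p hp a b l ha hb => hKgrow p (hP p hp) a b l ha hb)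
    (fun p hp a b l ha hb => by
      have := hKgrow p (hP p hp) b a l hb ha
      simp only [hK]
      rw [mul_comm (a : ℝ) (b : ℝ), mul_comm (a : ℝ) ((b * p ^ l : ℕ) : ℝ)]
      exact this)
    (fun p hp => hSP p (hP p hp)) 1 1 one_pos one_pos ψ₁ ψ₂ f h s₁ s₂ N hs₁ hs₂ hψ₁ hψ₂
    (fun q => ⟨(hf q).1, (hf q).2.trans
      (mul_le_mul_of_nonneg_left (totient_weight_le P hP q) (hψ₁ q))⟩)
    (fun q => ⟨(hh q).1, (hh q).2.trans
      (mul_le_mul_of_nonneg_left (totient_weight_le P hP q) (hψ₂ q))⟩)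
  have hmono : psum (fun q r => (cofac r q : ℝ) * ψ₁ q ≤ s₁ ∧ (cofac q r : ℝ) * ψ₂ r ≤ s₂) N f h ≤
      Lam (fun _ _ => True) P 1 1 ψ₁ ψ₂ s₁ s₂ N f h := by
    unfold Lam
    refine psum_mono _ _ N f h f h (fun q => (hf q).1) (fun q => (hh q).1) ?_
    intro q hq r hr hqr _
    refine ⟨⟨?_, trivial, ?_, ?_⟩, le_rfl⟩
    · intro p hp hpd
      rw [mem_Icc] at hq
      have h1 : p ∣ q := hpd.trans (Nat.gcd_dvd_left q r)
      have h2 : p ≤ q := Nat.le_of_dvd (by (clear * - hq; omega)) h1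
      simp only [hPdef, mem_filter, mem_Icc]
      exact ⟨⟨hp.one_lt.le, by (clear * - hq h2; omega)⟩, hp⟩
    · simpa only [Nat.cast_one, one_mul] using hqr.1
    · simpa only [Nat.cast_one, one_mul] using hqr.2
  refine hmono.trans (hL.trans ?_)
  have hK11 : K 1 1 = (16 : ℝ) ^ (1 - θ) := by
    simp only [hK]
    norm_num
  rw [hK11]
  have h1 := hprod P hP
  have h2 : 0 ≤ (s₁ * s₂) ^ (1 - θ) := by (clear * - hs₁ hs₂; positivity)
  have h3 : 0 ≤ ((∑ q ∈ Icc 1 N, f q) * ∑ r ∈ Icc 1 N, h r) ^ θ := by (clear * - hF0 hH0; positivity)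
  calc (∏ p ∈ P, c p) * (s₁ * s₂) ^ (1 - θ) * (16 : ℝ) ^ (1 - θ) *
        ((∑ q ∈ Icc 1 N, f q) * ∑ r ∈ Icc 1 N, h r) ^ θ
      = (∏ p ∈ P, c p) * ((s₁ * s₂) ^ (1 - θ) * (16 : ℝ) ^ (1 - θ) *
        ((∑ q ∈ Icc 1 N, f q) * ∑ r ∈ Icc 1 N, h r) ^ θ) := by ring
    _ ≤ K₀ * ((s₁ * s₂) ^ (1 - θ) * (16 : ℝ) ^ (1 - θ) *
        ((∑ q ∈ Icc 1 N, f q) * ∑ r ∈ Icc 1 N, h r) ^ θ) :=
        mul_le_mul_of_nonneg_right h1 (by (clear * - hs₁ hs₂ hF0 hH0; positivity))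
    _ = K₀ * (16 : ℝ) ^ (1 - θ) * (s₁ * s₂) ^ (1 - θ) *
        ((∑ q ∈ Icc 1 N, f q) * ∑ r ∈ Icc 1 N, h r) ^ θ := by ring

end Vale.P028
end

section

/-!
# Diophantine lower bound for non-Liouville numbers and counting of Bohr sets
-/

namespace Vale.P028

open Finset

theorem distInt_le_abs_sub (x : ℝ) (z : ℤ) : distInt x ≤ |x - z| := round_le x z

theorem exists_dioph {γ : ℝ} (h1 : Irrational γ) (h2 : ¬ Liouville γ) :
    ∃ c₀ > 0, ∃ τ ≥ 1, Dioph γ c₀ τ := by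
  unfold Liouville at h2
  push Not at h2
  obtain ⟨n₀, hn₀⟩ := h2
  have hd : 0 < distInt γ := by
    unfold distInt
    rw [abs_pos, sub_ne_zero]
    intro h
    exact h1 ⟨(round γ : ℚ), by rw [h]; simp⟩
  refine ⟨min 1 (distInt γ), lt_min one_pos hd, max 1 n₀, le_max_left _ _, ?_⟩
  intro n hn
  have hn1 : (1 : ℝ) ≤ n := by exact_mod_cast hn
  have hn0 : (0 : ℝ) < n := by linarith only [hn1]
  rcases Nat.lt_or_ge 1 n with h3 | h3
  · have h4 := hn₀ (round ((n : ℝ) * γ)) n (by exact_mod_cast h3) (by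
      intro h
      apply h1
      rw [Int.cast_natCast] at h
      exact ⟨(round ((n : ℝ) * γ) : ℚ) / (n : ℚ), by push_cast; exact h.symm⟩)
    have h5 : distInt (n * γ) = n * |γ - (round ((n : ℝ) * γ) : ℝ) / ((n : ℤ) : ℝ)| := by
      unfold distInt
      rw [← abs_of_pos hn0, ← abs_mul, abs_of_pos hn0]
      congr 1
      push_cast
      field_simp
    rw [h5]
    have h6 : (n : ℝ) ^ (-(max 1 (n₀ : ℝ))) ≤ 1 / ((n : ℤ) : ℝ) ^ n₀ := by
      have h7 : (n : ℝ) ^ (-(max 1 (n₀ : ℝ))) ≤ (n : ℝ) ^ (-(n₀ : ℝ)) := by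
        apply Real.rpow_le_rpow_of_exponent_le hn1
        have := le_max_right 1 (n₀ : ℝ)
        linarith only [this]
      rw [Real.rpow_neg hn0.le (n₀ : ℝ), Real.rpow_natCast] at h7
      rw [one_div]
      exact_mod_cast h7
    calc min 1 (distInt γ) * (n : ℝ) ^ (-(max 1 (n₀ : ℝ)))
        ≤ 1 * (n : ℝ) ^ (-(max 1 (n₀ : ℝ))) :=
          mul_le_mul_of_nonneg_right (min_le_left _ _) (Real.rpow_nonneg hn0.le _)
      _ ≤ n * |γ - (round ((n : ℝ) * γ) : ℝ) / ((n : ℤ) : ℝ)| := by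
          apply mul_le_mul hn1 (h6.trans h4) (Real.rpow_nonneg hn0.le _) hn0.le
  · have h4 : n = 1 := by omega
    subst h4
    simp only [Nat.cast_one, Real.one_rpow, mul_one, one_mul, inf_le_right]

theorem bohr_count_aux {k : ℕ} {A : ℤ} (hA : IsCoprime A (k : ℤ)) (M : ℕ) (l : ℤ) :
    ((Icc 1 M).filter (fun m : ℕ => (k : ℤ) ∣ A * m - l)).card ≤ M / k + 1 := by
  rw [← card_range (M / k + 1)]
  refine card_le_card_of_injOn (fun m => m / k) ?_ ?_
  · intro m hm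
    simp only [coe_filter, mem_Icc, Set.mem_ofPred_eq] at hm
    simp only [coe_range, Set.mem_Iio]
    exact Nat.lt_succ_of_le (Nat.div_le_div_right hm.1.2)
  · intro m hm m' hm' h
    simp only [coe_filter, mem_Icc, Set.mem_ofPred_eq] at hm hm'
    have h1 : (k : ℤ) ∣ A * ((m : ℤ) - m') := by
      have := dvd_sub hm.2 hm'.2
      have e : A * (m : ℤ) - l - (A * (m' : ℤ) - l) = A * ((m : ℤ) - m') := by ring
      rwa [e] at this
    have h2 : (k : ℤ) ∣ (m : ℤ) - m' := hA.symm.dvd_of_dvd_mul_left h1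
    have h3 : m' ≡ m [MOD k] := (Nat.modEq_iff_dvd).mpr h2
    have h4 : m' % k = m % k := h3
    have h5 : m / k = m' / k := h
    calc m = k * (m / k) + m % k := (Nat.div_add_mod m k).symm
      _ = k * (m' / k) + m' % k := by rw [h4, h5]
      _ = m' := Nat.div_add_mod m' k

open Classical in
theorem bohr_count {γ c₀ τ : ℝ} (hc₀ : 0 < c₀) (hτ : 1 ≤ τ) (hD : Dioph γ c₀ τ) :
    ∃ C ≥ 1, ∀ (a M : ℕ) (s β : ℝ), 0 < a → 0 < s → s ≤ 1 / 4 → ((a : ℝ) / s) ^ τ ≤ c₀ * M →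
      1 / s ≤ M →
      (((Icc 1 M).filter (fun m : ℕ => distInt ((a : ℝ) * m * γ - β) < 2 * s)).card : ℝ)
        ≤ C * s * M := by
  refine ⟨14, by norm_num, ?_⟩
  intro a M s β ha hs hs4 h1 h2
  have ha0 : (0 : ℝ) < a := by exact_mod_cast ha
  have hM0 : (0 : ℝ) < M := lt_of_lt_of_le (by positivity) h2
  have hM : 0 < M := by exact_mod_cast hM0
  obtain ⟨q, hq1, hq2⟩ := Real.exists_rat_abs_sub_le_and_den_le ((a : ℝ) * γ) hM
  set k := q.den with hk
  set A := q.num with hA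
  have hk0 : 0 < k := q.den_pos
  have hk0' : (0 : ℝ) < k := by exact_mod_cast hk0
  have hkM : (k : ℝ) ≤ M := by exact_mod_cast hq2
  have hqc : (q : ℝ) = (A : ℝ) / k := by
    rw [hA, hk]; exact Rat.cast_def q
  rw [hqc] at hq1
  have hcop : IsCoprime A (k : ℤ) := Int.isCoprime_iff_nat_coprime.mpr (by
    simpa only [Int.natAbs_natCast] using q.reduced)
  -- k > 1/s
  have hks : 1 < s * k := by
    by_contra hcon
    rw [not_lt] at hcon
    have h3 : distInt (((k * a : ℕ) : ℝ) * γ) ≤ 1 / (M + 1) := by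
      refine (distInt_le_abs_sub _ A).trans ?_
      have e : ((k * a : ℕ) : ℝ) * γ - A = k * ((a : ℝ) * γ - A / k) := by
        push_cast; (clear * - hk0; field_simp)
      rw [e, abs_mul, abs_of_pos hk0']
      calc (k : ℝ) * |(a : ℝ) * γ - A / k| ≤ k * (1 / ((M + 1) * k)) :=
            mul_le_mul_of_nonneg_left hq1 hk0'.le
        _ = 1 / (M + 1) := by field_simp
    have h4 := (hD (k * a) (Nat.mul_pos hk0 ha)).trans h3
    have hka : (0 : ℝ) < ((k * a : ℕ) : ℝ) := by exact_mod_cast Nat.mul_pos hk0 ha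
    have h5 : ((k * a : ℕ) : ℝ) ^ τ ≤ ((a : ℝ) / s) ^ τ := by
      apply Real.rpow_le_rpow hka.le _ (by linarith only [hτ])
      push_cast
      rw [le_div_iff₀ hs]
      nlinarith only [hcon]
    have h6 : ((k * a : ℕ) : ℝ) ^ τ ≤ c₀ * M := h5.trans h1
    rw [Real.rpow_neg hka.le, ← div_eq_mul_inv, div_le_div_iff₀ (Real.rpow_pos_of_pos hka _)
      (by positivity)] at h4
    nlinarith only [hc₀, h1, h4, h5]
  -- the possible values of l
  set L : Finset ℤ := Icc ⌈(k : ℝ) * β - 2 * s * k - 1⌉ ⌊(k : ℝ) * β + 2 * s * k + 1⌋ with hL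
  have hLcard : (L.card : ℝ) ≤ 7 * (s * k) := by
    rw [hL, Int.card_Icc]
    have h3 : (0 : ℝ) ≤ (⌊(k : ℝ) * β + 2 * s * k + 1⌋ + 1 - ⌈(k : ℝ) * β - 2 * s * k - 1⌉ : ℤ) ∨
        ((⌊(k : ℝ) * β + 2 * s * k + 1⌋ + 1 - ⌈(k : ℝ) * β - 2 * s * k - 1⌉ : ℤ) : ℝ) < 0 :=
      le_or_gt _ _
    rcases h3 with h3 | h3
    · have h3' : (0 : ℤ) ≤ ⌊(k : ℝ) * β + 2 * s * k + 1⌋ + 1 - ⌈(k : ℝ) * β - 2 * s * k - 1⌉ := by
        exact_mod_cast h3
      have h4 : (((⌊(k : ℝ) * β + 2 * s * k + 1⌋ + 1 - ⌈(k : ℝ) * β - 2 * s * k - 1⌉).toNat : ℕ) : ℝ)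
          = ((⌊(k : ℝ) * β + 2 * s * k + 1⌋ + 1 - ⌈(k : ℝ) * β - 2 * s * k - 1⌉ : ℤ) : ℝ) := by
        rw [← Int.cast_natCast, Int.toNat_of_nonneg h3']
      rw [h4]
      push_cast
      have h5 := Int.floor_le ((k : ℝ) * β + 2 * s * k + 1)
      have h6 := Int.le_ceil ((k : ℝ) * β - 2 * s * k - 1)
      nlinarith only [hks, h5, h6]
    · have h3' : ⌊(k : ℝ) * β + 2 * s * k + 1⌋ + 1 - ⌈(k : ℝ) * β - 2 * s * k - 1⌉ < 0 := by
        exact_mod_cast h3
      rw [Int.toNat_of_nonpos h3'.le]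
      simp only [Nat.cast_zero]
      nlinarith only [hks]
  have hsub : (Icc 1 M).filter (fun m : ℕ => distInt ((a : ℝ) * m * γ - β) < 2 * s) ⊆
      L.biUnion (fun l => (Icc 1 M).filter (fun m : ℕ => (k : ℤ) ∣ A * m - l)) := by
    intro m hm
    rw [mem_filter, mem_Icc] at hm
    obtain ⟨⟨hm1, hm2⟩, hm3⟩ := hm
    rw [mem_biUnion]
    unfold distInt at hm3
    set n := round ((a : ℝ) * m * γ - β) with hn
    refine ⟨A * m - k * n, ?_, ?_⟩
    · have hmM : (m : ℝ) ≤ M := by exact_mod_cast hm2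
      have hm0 : (0 : ℝ) ≤ m := Nat.cast_nonneg m
      have e : (m : ℝ) * (k * ((a : ℝ) * γ - A / k)) = k * ((a : ℝ) * m * γ) - A * m := by
        (clear * - hk0 hm1; field_simp)
      have h7 : |(m : ℝ) * (k * ((a : ℝ) * γ - A / k))| ≤ 1 := by
        rw [abs_mul, abs_mul, abs_of_nonneg hm0, abs_of_pos hk0']
        calc (m : ℝ) * (k * |(a : ℝ) * γ - A / k|)
            ≤ M * (k * (1 / ((M + 1) * k))) := by
              apply mul_le_mul hmM (mul_le_mul_of_nonneg_left hq1 hk0'.le) (by (clear * -; positivity)) hM0.le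
          _ = M / (M + 1) := by (clear * - hk0 hM; field_simp)
          _ ≤ 1 := by rw [div_le_one (by positivity)]; linarith only []
      rw [e] at h7
      have h8 : |(k : ℝ) * ((a : ℝ) * m * γ - β - n)| ≤ 2 * s * k := by
        rw [abs_mul, abs_of_pos hk0']
        nlinarith only [hm3]
      have h9 := abs_le.mp h7
      have h10 := abs_le.mp h8
      rw [hL, mem_Icc, Int.ceil_le, Int.le_floor]
      push_cast
      constructor
      · nlinarith only [h9, h10]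
      · nlinarith only [h9, h10]
    · rw [mem_filter, mem_Icc]
      refine ⟨⟨hm1, hm2⟩, ?_⟩
      have e : A * (m : ℤ) - (A * m - k * n) = k * n := by ring
      rw [e]
      exact dvd_mul_right _ _
  have hcard : (((Icc 1 M).filter (fun m : ℕ => distInt ((a : ℝ) * m * γ - β) < 2 * s)).card : ℝ) ≤
      L.card * ((M : ℝ) / k + 1) := by
    have h3 : ((Icc 1 M).filter (fun m : ℕ => distInt ((a : ℝ) * m * γ - β) < 2 * s)).card ≤
        L.card * (M / k + 1) :=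
      (card_le_card hsub).trans (card_biUnion_le_card_mul _ _ _
        (fun l _ => bohr_count_aux hcop M l))
    calc (((Icc 1 M).filter (fun m : ℕ => distInt ((a : ℝ) * m * γ - β) < 2 * s)).card : ℝ)
        ≤ ((L.card * (M / k + 1) : ℕ) : ℝ) := by exact_mod_cast h3
      _ ≤ L.card * ((M : ℝ) / k + 1) := by
          push_cast
          apply mul_le_mul_of_nonneg_left _ (Nat.cast_nonneg _)
          have := @Nat.cast_div_le ℝ _ _ _ M k
          linarith only [this]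
  have hMk : (M : ℝ) / k + 1 ≤ 2 * (M / k) := by
    have : (1 : ℝ) ≤ M / k := by rw [le_div_iff₀ hk0']; linarith only [hkM]
    linarith only [this]
  calc (((Icc 1 M).filter (fun m : ℕ => distInt ((a : ℝ) * m * γ - β) < 2 * s)).card : ℝ)
      ≤ L.card * ((M : ℝ) / k + 1) := hcard
    _ ≤ (7 * (s * k)) * (2 * (M / k)) := by
        apply mul_le_mul hLcard hMk (by positivity) (by positivity)
    _ = 14 * s * M := by field_simp; ring

end Vale.P028
end

section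

/-!
# Mertens type sums (from the Mertens file of P013)
-/

namespace Vale.P028

open Finset

theorem filter_Icc_eq_range (y : ℕ) :
    (Icc 1 y).filter Nat.Prime = (range (y + 1)).filter Nat.Prime := by
  ext p
  simp only [mem_filter, mem_Icc, mem_range]
  constructor
  · rintro ⟨⟨_, h1⟩, h2⟩; exact ⟨by omega, h2⟩
  · rintro ⟨h1, h2⟩; exact ⟨⟨h2.one_lt.le, by omega⟩, h2⟩

theorem sum_log_div_prime_le : ∃ C ≥ 0, ∀ y : ℕ, 1 ≤ y →
    ∑ p ∈ (Icc 1 y).filter Nat.Prime, Real.log p / p ≤ Real.log y + C := by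
  obtain ⟨C, hC0, hC⟩ := Vale.Agent.P013.mertens_one
  refine ⟨C + Real.log 2, add_nonneg hC0.le (Real.log_nonneg (by norm_num)), ?_⟩
  intro y hy
  have h1 := hC (y + 1) (by omega)
  rw [filter_Icc_eq_range]
  have h2 := (abs_le.mp h1).2
  have hy0 : (0 : ℝ) < y := by exact_mod_cast hy
  have hy1 : (1 : ℝ) ≤ y := by exact_mod_cast hy
  have h3 : Real.log ((y + 1 : ℕ) : ℝ) ≤ Real.log y + Real.log 2 := by
    rw [← Real.log_mul hy0.ne' (by norm_num)]
    apply Real.log_le_log (by (clear * - hy; positivity))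
    push_cast; linarith only [hy1]
  linarith only [h2, h3]

theorem prod_one_add_div_prime_le (A : ℝ) (hA : 0 ≤ A) : ∃ C > 0, ∃ k ≥ 0, ∀ V : ℕ, 1 ≤ V →
    ∏ p ∈ (Icc 1 V).filter Nat.Prime, (1 + A / (p : ℝ)) ≤ C * (1 + Real.log V) ^ (k : ℝ) := by
  obtain ⟨C, hC0, hC⟩ := Vale.Agent.P013.sum_inv_prime_le
  refine ⟨Real.exp (A * C), Real.exp_pos _, A, hA, ?_⟩
  intro V hV
  have hV0 : (0 : ℝ) < V := by exact_mod_cast hV
  have hV1 : (1 : ℝ) ≤ V := by exact_mod_cast hV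
  have h1 := hC (V + 1) (by omega)
  have hlV : 0 ≤ Real.log V := Real.log_nonneg hV1
  have hl1 : 0 < Real.log ((V + 1 : ℕ) : ℝ) := by
    apply Real.log_pos
    push_cast; linarith only [hV0]
  have h3 : Real.log ((V + 1 : ℕ) : ℝ) ≤ 1 + Real.log V := by
    have : Real.log ((V + 1 : ℕ) : ℝ) ≤ Real.log (Real.exp 1 * V) := by
      apply Real.log_le_log (by positivity)
      have : (2 : ℝ) ≤ Real.exp 1 := by
        have := Real.add_one_le_exp (1 : ℝ)
        linarith only [this]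
      push_cast
      nlinarith only [hV1, this]
    rwa [Real.log_mul (Real.exp_pos 1).ne' hV0.ne', Real.log_exp] at this
  have h4 : Real.log (Real.log ((V + 1 : ℕ) : ℝ)) ≤ Real.log (1 + Real.log V) :=
    Real.log_le_log hl1 h3
  calc ∏ p ∈ (Icc 1 V).filter Nat.Prime, (1 + A / (p : ℝ))
      ≤ ∏ p ∈ (Icc 1 V).filter Nat.Prime, Real.exp (A / (p : ℝ)) := by
        refine prod_le_prod (fun p _ => by (clear * - hA; positivity)) (fun p _ => ?_)
        have := Real.add_one_le_exp (A / (p : ℝ))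
        linarith only [this]
    _ = Real.exp (A * ∑ p ∈ (range (V + 1)).filter Nat.Prime, 1 / (p : ℝ)) := by
        rw [← Real.exp_sum, filter_Icc_eq_range, mul_sum]
        congr 1
        refine sum_congr rfl fun p _ => ?_
        ring
    _ ≤ Real.exp (A * (Real.log (1 + Real.log V) + C)) := by
        apply Real.exp_le_exp.mpr
        apply mul_le_mul_of_nonneg_left _ hA
        linarith only [h1, h4]
    _ = Real.exp (A * C) * (1 + Real.log V) ^ A := by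
        rw [Real.rpow_def_of_pos (by linarith only [hlV]), ← Real.exp_add]
        congr 1
        ring

end Vale.P028
end

section

/-!
# Case B: large cofactors, `ψ` small, weights concentrated on `[X, X^9]`
-/

namespace Vale.P028

open Finset

/-- completely multiplicative function with values `mp p` -/
noncomputable def mm (mp : ℕ → ℝ) (n : ℕ) : ℝ := (n.primeFactorsList.map mp).prod

theorem mm_mul (mp : ℕ → ℝ) {a b : ℕ} (ha : a ≠ 0) (hb : b ≠ 0) :
    mm mp (a * b) = mm mp a * mm mp b := by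
  unfold mm
  rw [← List.prod_append, ← List.map_append]
  exact ((Nat.perm_primeFactorsList_mul ha hb).map mp).prod_eq

theorem mm_prime (mp : ℕ → ℝ) {p : ℕ} (hp : p.Prime) : mm mp p = mp p := by
  unfold mm
  rw [Nat.primeFactorsList_prime hp]
  simp

theorem mm_one (mp : ℕ → ℝ) : mm mp 1 = 1 := by
  unfold mm
  simp

theorem mm_mul_pow (mp : ℕ → ℝ) {a p : ℕ} (ha : a ≠ 0) (hp : p.Prime) (l : ℕ) :
    mm mp (a * p ^ l) = mm mp a * mp p ^ l := by
  induction l with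
  | zero => simp
  | succ l ih =>
    rw [pow_succ, ← mul_assoc, mm_mul mp (mul_ne_zero ha (pow_ne_zero _ hp.ne_zero)) hp.ne_zero,
      ih, mm_prime mp hp, pow_succ, mul_assoc]

theorem mm_ge_one (mp : ℕ → ℝ) (h : ∀ p : ℕ, p.Prime → 1 ≤ mp p) (n : ℕ) : 1 ≤ mm mp n := by
  unfold mm
  have h1 : ∀ t ∈ n.primeFactorsList.map mp, 1 ≤ t := by
    intro t ht
    rw [List.mem_map] at ht
    obtain ⟨p, hp, rfl⟩ := ht
    exact h p (Nat.prime_of_mem_primeFactorsList hp)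
  generalize n.primeFactorsList.map mp = l at h1
  induction l with
  | nil => simp
  | cons t l ih =>
    rw [List.prod_cons]
    have h2 := h1 t (by simp)
    have h3 := ih (fun u hu => h1 u (by simp [hu]))
    nlinarith

theorem mm_ge_of_dvd (mp : ℕ → ℝ) (h : ∀ p : ℕ, p.Prime → 1 ≤ mp p) {n p : ℕ} (hn : n ≠ 0)
    (hp : p.Prime) (hpn : p ∣ n) : mp p ≤ mm mp n := by
  obtain ⟨m, rfl⟩ := hpn
  have hm : m ≠ 0 := right_ne_zero_of_mul hn
  rw [mm_mul mp hp.ne_zero hm, mm_prime mp hp]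
  have h1 := mm_ge_one mp h m
  have h2 := h p hp
  nlinarith

theorem mm_smooth (mp : ℕ → ℝ) {β : ℝ} {n : ℕ} (hn : n ≠ 0)
    (h : ∀ p : ℕ, p.Prime → p ∣ n → mp p = (p : ℝ) ^ β) : mm mp n = (n : ℝ) ^ β := by
  unfold mm
  have h1 : n.primeFactorsList.map mp = n.primeFactorsList.map (fun p : ℕ => ((p : ℝ)) ^ β) := by
    apply List.map_congr_left
    intro p hp
    exact h p (Nat.prime_of_mem_primeFactorsList hp) (Nat.dvd_of_mem_primeFactorsList hp)
  rw [h1]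
  have h2 : ∀ l : List ℕ, (l.map (fun p : ℕ => ((p : ℝ)) ^ β)).prod = ((l.prod : ℕ) : ℝ) ^ β := by
    intro l
    induction l with
    | nil => simp only [List.map_nil, List.prod_nil, Nat.cast_one, Real.one_rpow]
    | cons t l ih =>
      rw [List.map_cons, List.prod_cons, List.prod_cons, ih]
      rw [Nat.cast_mul, Real.mul_rpow (Nat.cast_nonneg _) (Nat.cast_nonneg _)]
  rw [h2, Nat.prod_primeFactorsList hn]

/-- the set of allowed pairs of cofactors in case B -/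
def OmB (γ V₀ s : ℝ) (u v : ℕ) : Prop :=
  V₀ ≤ max (u : ℝ) v ∧ distInt (((u : ℝ) - v) * γ) < 2 * s

open Classical in
theorem caseB_dens {γ c₀ τ C₂ : ℝ} (hc₀ : 0 < c₀) (hτ : 1 ≤ τ) (hC₂ : 1 ≤ C₂)
    (hbohr : ∀ (a M : ℕ) (s β : ℝ), 0 < a → 0 < s → s ≤ 1 / 4 → ((a : ℝ) / s) ^ τ ≤ c₀ * M →
      1 / s ≤ M →
      (((Icc 1 M).filter (fun m : ℕ => distInt ((a : ℝ) * m * γ - β) < 2 * s)).card : ℝ)
        ≤ C₂ * s * M)
    {s Z V₀ : ℝ} (hs : 0 < s) (hs' : s ≤ 1 / 4)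
    (hV1 : (Z / s) ^ τ * Z ≤ c₀ * V₀) (hV2 : Z / s ≤ V₀)
    (a b : ℕ) (ha : 0 < a) (hb : 0 < b) (haZ : (a : ℝ) ≤ Z) (hbZ : (b : ℝ) ≤ Z)
    (q₀ r₀ : ℕ) (hq₀ : 0 < q₀) (hr₀ : 0 < r₀) (hΩ : OmB γ V₀ s (a * q₀) (b * r₀)) :
    (((Icc 1 q₀).filter (fun m => OmB γ V₀ s (a * m) (b * r₀))).card : ℝ) *
        (((Icc 1 r₀).filter (fun n => OmB γ V₀ s (a * q₀) (b * n))).card : ℝ) ≤
      min 1 (C₂ * s) * q₀ * r₀ := by
  have hkey : ∀ (a M : ℕ) (β : ℝ), 0 < a → (a : ℝ) ≤ Z → V₀ ≤ (a : ℝ) * M →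
      (((Icc 1 M).filter (fun m : ℕ => distInt ((a : ℝ) * m * γ - β) < 2 * s)).card : ℝ)
        ≤ C₂ * s * M := by
    intro a M β ha haZ hM
    have ha' : (0 : ℝ) < a := by exact_mod_cast ha
    have hZ : 0 < Z := lt_of_lt_of_le ha' haZ
    have hM0 : (0 : ℝ) ≤ M := by (clear * -; positivity)
    have hVM : V₀ ≤ Z * M := hM.trans (mul_le_mul_of_nonneg_right haZ hM0)
    apply hbohr a M s β ha hs hs'
    · have h1 : ((a : ℝ) / s) ^ τ ≤ (Z / s) ^ τ :=
        Real.rpow_le_rpow (by positivity) (by (clear * - haZ hs; gcongr)) (by linarith only [hτ])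
      refine h1.trans ?_
      have h2 : (Z / s) ^ τ * Z ≤ c₀ * M * Z := by
        calc (Z / s) ^ τ * Z ≤ c₀ * V₀ := hV1
          _ ≤ c₀ * (Z * M) := mul_le_mul_of_nonneg_left hVM hc₀.le
          _ = c₀ * M * Z := by ring
      exact le_of_mul_le_mul_right h2 hZ
    · have h2 : 1 / s * Z ≤ M * Z := by
        calc 1 / s * Z = Z / s := by ring
          _ ≤ V₀ := hV2
          _ ≤ Z * M := hVM
          _ = M * Z := by ring
      exact le_of_mul_le_mul_right h2 hZ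
  have hq0' : (0 : ℝ) < q₀ := by exact_mod_cast hq₀
  have hr0' : (0 : ℝ) < r₀ := by exact_mod_cast hr₀
  have ht1 := card_filter_cl (fun m => OmB γ V₀ s (a * m) (b * r₀)) q₀
  have ht2 := card_filter_cl (fun n => OmB γ V₀ s (a * q₀) (b * n)) r₀
  set A : ℝ := (((Icc 1 q₀).filter (fun m => OmB γ V₀ s (a * m) (b * r₀))).card : ℝ) with hA
  set B : ℝ := (((Icc 1 r₀).filter (fun n => OmB γ V₀ s (a * q₀) (b * n))).card : ℝ) with hB
  have hA0 : 0 ≤ A := by rw [hA]; (clear * -; positivity)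
  have hB0 : 0 ≤ B := by rw [hB]; (clear * -; positivity)
  have h1 : A * B ≤ 1 * q₀ * r₀ := by
    rw [one_mul]
    exact mul_le_mul ht1 ht2 hB0 hq0'.le
  have h2 : A * B ≤ (C₂ * s) * q₀ * r₀ := by
    rcases le_max_iff.1 hΩ.1 with h | h
    · have h3 : A ≤ C₂ * s * q₀ := by
        refine le_trans ?_ (hkey a q₀ ((b : ℝ) * r₀ * γ) ha haZ (by push_cast at h; exact h))
        rw [hA]
        refine Nat.cast_le.2 (card_le_card ?_)
        intro m hm
        rw [mem_filter] at hm ⊢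
        refine ⟨hm.1, ?_⟩
        have h4 := hm.2.2
        push_cast at h4
        rw [show (a : ℝ) * m * γ - (b : ℝ) * r₀ * γ = ((a : ℝ) * m - b * r₀) * γ by ring]
        exact h4
      exact mul_le_mul h3 ht2 hB0 (by positivity)
    · have h3 : B ≤ C₂ * s * r₀ := by
        refine le_trans ?_ (hkey b r₀ ((a : ℝ) * q₀ * γ) hb hbZ (by push_cast at h; exact h))
        rw [hB]
        refine Nat.cast_le.2 (card_le_card ?_)
        intro m hm
        rw [mem_filter] at hm ⊢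
        refine ⟨hm.1, ?_⟩
        have h4 := hm.2.2
        push_cast at h4
        rw [show (b : ℝ) * m * γ - (a : ℝ) * q₀ * γ = -(((a : ℝ) * q₀ - b * m) * γ) by ring,
          distInt_neg]
        exact h4
      calc A * B ≤ q₀ * (C₂ * s * r₀) := mul_le_mul ht1 h3 hB0 hq0'.le
        _ = (C₂ * s) * q₀ * r₀ := by ring
  rcases min_choice 1 (C₂ * s) with h | h
  · rw [h]; exact h1
  · rw [h]; exact h2

/-- the multiplicative weights of case B -/
noncomputable def mpB (θ S y : ℝ) (p : ℕ) : ℝ :=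
  if (p : ℝ) ≤ y then (p : ℝ) ^ ((1 - θ) / Real.log y) else S ^ (-(1 - θ))

/-- the majorant of case B -/
noncomputable def KB (θ S y : ℝ) (a b : ℕ) : ℝ :=
  (16 / ((a : ℝ) * b)) ^ (1 - θ) * S ^ (1 - θ) * (mm (mpB θ S y) a * mm (mpB θ S y) b)

theorem mpB_ge_one {θ S y : ℝ} (hθ1 : θ < 1) (hS : 0 < S) (hS1 : S ≤ 1) (hy : 1 < y) (p : ℕ)
    (hp : p.Prime) : 1 ≤ mpB θ S y p := by
  unfold mpB
  have hl : 0 < Real.log y := Real.log_pos hy
  split_ifs with h
  · apply Real.one_le_rpow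
    · exact_mod_cast hp.one_lt.le
    · exact div_nonneg (by linarith only [hθ1]) hl.le
  · exact Real.one_le_rpow_of_pos_of_le_one_of_nonpos hS hS1 (by linarith only [hθ1])

theorem caseB_base {γ c₀ τ C₂ : ℝ} {θ : ℝ} (hθ : 1 / 2 < θ) (hθ1 : θ < 1)
    (hc₀ : 0 < c₀) (hτ : 1 ≤ τ) (hC₂ : 1 ≤ C₂)
    (hbohr : ∀ (a M : ℕ) (s β : ℝ), 0 < a → 0 < s → s ≤ 1 / 4 → ((a : ℝ) / s) ^ τ ≤ c₀ * M →
      1 / s ≤ M →
      (((Icc 1 M).filter (fun m : ℕ => distInt ((a : ℝ) * m * γ - β) < 2 * s)).card : ℝ)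
        ≤ C₂ * s * M)
    {s S y V₀ : ℝ} (hs : 0 < s) (hs' : s ≤ 1 / 4) (hS : S = min 1 (C₂ * s)) (hy : 1 < y)
    (hV1 : (S ^ (-Real.log y) / s) ^ τ * S ^ (-Real.log y) ≤ c₀ * V₀)
    (hV2 : S ^ (-Real.log y) / s ≤ V₀) :
    BaseBound (OmB γ V₀ s) θ (KB θ S y) := by
  classical
  have hl0 : 0 < 1 - θ := by linarith only [hθ1]
  have hS0 : 0 < S := by rw [hS]; exact lt_min one_pos (by positivity)
  have hS1 : S ≤ 1 := by rw [hS]; exact min_le_left _ _
  have hly : 0 < Real.log y := Real.log_pos hy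
  intro a b ha hb ψ₁ ψ₂ f h s₁ s₂ N hs₁ hs₂ hf hh
  have ha' : (0 : ℝ) < a := by exact_mod_cast ha
  have hb' : (0 : ℝ) < b := by exact_mod_cast hb
  have hF0 : 0 ≤ ∑ q ∈ Icc 1 N, f q := sum_nonneg fun q _ => (hf q).1
  have hH0 : 0 ≤ ∑ q ∈ Icc 1 N, h q := sum_nonneg fun q _ => (hh q).1
  have hm1 := mpB_ge_one (θ := θ) hθ1 hS0 hS1 hy
  have hma := mm_ge_one (mpB θ S y) hm1 a
  have hmb := mm_ge_one (mpB θ S y) hm1 b
  have hab : 0 < (a : ℝ) * b := by (clear * - ha hb; positivity)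
  by_cases hcase : 1 ≤ S ^ (1 - θ) * (mm (mpB θ S y) a * mm (mpB θ S y) b)
  · have h1 := base_trick (OmB γ V₀ s) hθ hθ1 1 zero_le_one a b ha hb (by
      intro q₀ r₀ hq₀ hr₀ _
      rw [one_mul]
      refine mul_le_mul ?_ ?_ (by (clear * -; positivity)) (by (clear * - hq₀; positivity))
      · exact card_filter_cl _ _
      · exact card_filter_cl _ _) ψ₁ ψ₂ f h s₁ s₂ N hs₁ hs₂ hf hh
    refine h1.trans ?_
    refine mul_le_mul_of_nonneg_right ?_ (by (clear * - hF0 hH0; positivity))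
    unfold KB
    have h2 : (16 * s₁ * s₂ * 1 / ((a : ℝ) * b)) ^ (1 - θ) =
        (s₁ * s₂) ^ (1 - θ) * (16 / ((a : ℝ) * b)) ^ (1 - θ) := by
      rw [← Real.mul_rpow (by (clear * - hs₁ hs₂; positivity)) (by positivity)]
      congr 1
      (clear * - hb ha hs₂ hs₁; field_simp)
    rw [h2]
    have h3 : 0 ≤ (s₁ * s₂) ^ (1 - θ) * (16 / ((a : ℝ) * b)) ^ (1 - θ) := by (clear * - hs₁ hs₂ ha hb; positivity)
    calc (s₁ * s₂) ^ (1 - θ) * (16 / ((a : ℝ) * b)) ^ (1 - θ)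
        ≤ (s₁ * s₂) ^ (1 - θ) * (16 / ((a : ℝ) * b)) ^ (1 - θ) *
          (S ^ (1 - θ) * (mm (mpB θ S y) a * mm (mpB θ S y) b)) :=
          le_mul_of_one_le_right h3 hcase
      _ = _ := by ring
  · push Not at hcase
    have hSl : 0 < S ^ (1 - θ) := by (clear * - hS0; positivity)
    have hprod : mm (mpB θ S y) a * mm (mpB θ S y) b < S ^ (-(1 - θ)) := by
      rw [Real.rpow_neg hS0.le]
      rw [mul_comm] at hcase
      rw [lt_inv_comm₀ (by (clear * - hma hmb; positivity)) hSl]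
      rw [lt_inv_comm₀ hSl (by (clear * - hma hmb; positivity)), ← one_div, lt_div_iff₀ hSl]
      exact hcase
    -- each of `a`, `b` is `y`-smooth and `≤ Z`
    have hsm : ∀ n m : ℕ, 0 < n → 1 ≤ mm (mpB θ S y) m →
        mm (mpB θ S y) n * mm (mpB θ S y) m < S ^ (-(1 - θ)) → (n : ℝ) ≤ S ^ (-Real.log y) := by
      intro n m hn hm hlt
      have hn' : (0 : ℝ) < n := by exact_mod_cast hn
      have hmn := mm_ge_one (mpB θ S y) hm1 n
      have h1 : mm (mpB θ S y) n < S ^ (-(1 - θ)) := by nlinarith only [hm, hlt, hmn]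
      have h2 : ∀ p : ℕ, p.Prime → p ∣ n →
          mpB θ S y p = (p : ℝ) ^ ((1 - θ) / Real.log y) := by
        intro p hp hpn
        have h3 := mm_ge_of_dvd (mpB θ S y) hm1 hn.ne' hp hpn
        by_contra hne
        have h4 : mpB θ S y p = S ^ (-(1 - θ)) := by
          unfold mpB at hne ⊢
          by_cases h5 : (p : ℝ) ≤ y
          · rw [if_pos h5] at hne
            exact absurd rfl hne
          · rw [if_neg h5]
        rw [h4] at h3
        linarith only [h1, h3]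
      have h3 := mm_smooth (mpB θ S y) hn.ne' h2
      rw [h3] at h1
      have h4 : ((n : ℝ) ^ ((1 - θ) / Real.log y)) ^ (Real.log y / (1 - θ)) <
          (S ^ (-(1 - θ))) ^ (Real.log y / (1 - θ)) :=
        Real.rpow_lt_rpow (by (clear * - hn; positivity)) h1 (div_pos hly hl0)
      rw [← Real.rpow_mul hn'.le, ← Real.rpow_mul hS0.le] at h4
      have h5 : (1 - θ) / Real.log y * (Real.log y / (1 - θ)) = 1 := by
        (clear * - hl0 hly; field_simp)
      have h6 : -(1 - θ) * (Real.log y / (1 - θ)) = -Real.log y := by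
        (clear * - hl0 hly; field_simp)
      rw [h5, h6, Real.rpow_one] at h4
      exact h4.le
    have haZ := hsm a b ha hmb hprod
    have hbZ := hsm b a hb hma (by rw [mul_comm]; exact hprod)
    have h1 := base_trick (OmB γ V₀ s) hθ hθ1 S hS0.le a b ha hb (by
      intro q₀ r₀ hq₀ hr₀ hΩ
      rw [hS]
      exact caseB_dens hc₀ hτ hC₂ hbohr hs hs' hV1 hV2 a b ha hb haZ hbZ q₀ r₀ hq₀ hr₀ hΩ)
      ψ₁ ψ₂ f h s₁ s₂ N hs₁ hs₂ hf hh
    refine h1.trans ?_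
    refine mul_le_mul_of_nonneg_right ?_ (by (clear * - hF0 hH0; positivity))
    unfold KB
    have h2 : (16 * s₁ * s₂ * S / ((a : ℝ) * b)) ^ (1 - θ) =
        (s₁ * s₂) ^ (1 - θ) * ((16 / ((a : ℝ) * b)) ^ (1 - θ) * S ^ (1 - θ)) := by
      rw [← Real.mul_rpow (by (clear * - ha hb; positivity)) (by (clear * - hS0; positivity)),
        ← Real.mul_rpow (by (clear * - hs₁ hs₂; positivity)) (by positivity)]
      congr 1
      (clear * - hb ha hS0 hs₂ hs₁; field_simp)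
    rw [h2]
    refine mul_le_mul_of_nonneg_left ?_ (by (clear * - hs₁ hs₂; positivity))
    refine le_mul_of_one_le_right (by (clear * - ha hb hS0; positivity)) ?_
    nlinarith only [hma, hmb]

theorem KB_comm (θ S y : ℝ) (a b : ℕ) : KB θ S y a b = KB θ S y b a := by
  unfold KB
  rw [mul_comm (a : ℝ) b, mul_comm (mm (mpB θ S y) a)]

theorem KB_nonneg {θ S y : ℝ} (hθ1 : θ < 1) (hS : 0 < S) (hS1 : S ≤ 1) (hy : 1 < y) (a b : ℕ) :
    0 ≤ KB θ S y a b := by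
  have hma := mm_ge_one (mpB θ S y) (mpB_ge_one (θ := θ) hθ1 hS hS1 hy) a
  have hmb := mm_ge_one (mpB θ S y) (mpB_ge_one (θ := θ) hθ1 hS hS1 hy) b
  unfold KB
  (clear * - hS hma hmb; positivity)

theorem KB_grow {θ S y : ℝ} {p : ℕ} (hp : p.Prime)
    (a b l : ℕ) (ha : 0 < a) (hb : 0 < b) :
    KB θ S y (a * p ^ l) b = ((p : ℝ) ^ (-(1 - θ)) * mpB θ S y p) ^ l * KB θ S y a b := by
  have ha' : (0 : ℝ) < a := by exact_mod_cast ha
  have hb' : (0 : ℝ) < b := by exact_mod_cast hb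
  have hp' : (0 : ℝ) < p := by exact_mod_cast hp.pos
  unfold KB
  rw [mm_mul_pow (mpB θ S y) ha.ne' hp l]
  have h1 : (16 / (((a * p ^ l : ℕ) : ℝ) * b)) = (1 / (p : ℝ)) ^ l * (16 / ((a : ℝ) * b)) := by
    push_cast
    rw [one_div, inv_pow]
    (clear * - hb hp' ha; field_simp)
  rw [h1, Real.mul_rpow (by (clear * - hp'; positivity)) (by positivity)]
  have h2 : ((1 / (p : ℝ)) ^ l) ^ (1 - θ) = ((p : ℝ) ^ (-(1 - θ))) ^ l := by
    rw [Real.rpow_neg hp'.le, one_div, inv_pow, inv_pow, Real.inv_rpow (by positivity),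
      ← Real.rpow_natCast, ← Real.rpow_natCast, ← Real.rpow_mul hp'.le, ← Real.rpow_mul hp'.le,
      mul_comm]
  rw [h2, mul_pow]
  ring

/-- `b_p = (BqB p)^(1-θ)` -/
noncomputable def BqB (S y : ℝ) (p : ℕ) : ℝ :=
  if (p : ℝ) ≤ y then (p : ℝ) ^ (-1 + 1 / Real.log y) else 1 / (S * p)

noncomputable def xB (S y : ℝ) (p : ℕ) : ℝ :=
  if (p : ℝ) ≤ y then 1 / (p : ℝ) else 1 / (S * p)

theorem BqB_eq {θ S y : ℝ} (hS : 0 < S) {p : ℕ} (hp : p.Prime) :
    (p : ℝ) ^ (-(1 - θ)) * mpB θ S y p = (BqB S y p) ^ (1 - θ) := by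
  have hp' : (0 : ℝ) < p := by exact_mod_cast hp.pos
  unfold mpB BqB
  split_ifs with h
  · rw [← Real.rpow_add hp', ← Real.rpow_mul hp'.le]
    congr 1
    ring
  · rw [one_div, Real.inv_rpow (by positivity), Real.mul_rpow hS.le hp'.le,
      Real.rpow_neg hS.le, Real.rpow_neg hp'.le, mul_inv, mul_comm]

theorem BqB_bounds {S y : ℝ} (hy : 2 ≤ Real.log y) {p : ℕ} (hp : p.Prime)
    (hpy : (p : ℝ) ≤ y) :
    1 / (p : ℝ) ≤ BqB S y p ∧ BqB S y p ≤ 1 / (p : ℝ) + 2 * (Real.log p / (p * Real.log y)) ∧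
      BqB S y p ≤ 3 / (p : ℝ) ∧ BqB S y p ≤ (1 / 2 : ℝ) ^ (1 / 2 : ℝ) := by
  have hp' : (0 : ℝ) < p := by exact_mod_cast hp.pos
  have hp2 : (2 : ℝ) ≤ p := by exact_mod_cast hp.two_le
  have hly : 0 < Real.log y := by linarith only [hy]
  have hlp : 0 ≤ Real.log p := Real.log_nonneg (by linarith only [hp2])
  have hlpy : Real.log p ≤ Real.log y := Real.log_le_log hp' hpy
  have h0 : BqB S y p = (p : ℝ) ^ (-1 + 1 / Real.log y) := by
    unfold BqB
    rw [if_pos hpy]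
  set t : ℝ := Real.log p / Real.log y with ht
  have ht0 : 0 ≤ t := div_nonneg hlp hly.le
  have ht1 : t ≤ 1 := (div_le_one hly).2 hlpy
  have h1 : BqB S y p = Real.exp t / p := by
    rw [h0, Real.rpow_add hp', Real.rpow_neg_one, Real.rpow_def_of_pos hp', ht]
    rw [show Real.log p * (1 / Real.log y) = Real.log p / Real.log y by ring]
    (clear * - hp'; field_simp)
  have hexp : Real.exp t ≤ 1 + 2 * t := by
    have h4 : |t| ≤ 1 := by rw [abs_of_nonneg ht0]; exact ht1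
    have h5 := Real.abs_exp_sub_one_le h4
    rw [abs_of_nonneg ht0] at h5
    have h6 := le_abs_self (Real.exp t - 1)
    linarith only [h5, h6]
  refine ⟨?_, ?_, ?_, ?_⟩
  · rw [h1]
    have : 1 ≤ Real.exp t := Real.one_le_exp ht0
    (clear * - this hp'; gcongr)
  · rw [h1]
    calc Real.exp t / p ≤ (1 + 2 * t) / p := by (clear * - hexp hp'; gcongr)
      _ = 1 / (p : ℝ) + 2 * (Real.log p / (p * Real.log y)) := by
        rw [ht]
        (clear * - hy hp'; field_simp)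
  · rw [h1]
    have : Real.exp t ≤ 3 := by linarith only [ht1, hexp]
    (clear * - this hp'; gcongr)
  · rw [h0]
    have h3 : -1 + 1 / Real.log y ≤ -(1 / 2 : ℝ) := by
      have : 1 / Real.log y ≤ 1 / 2 := one_div_le_one_div_of_le (by norm_num) hy
      linarith only [this]
    calc (p : ℝ) ^ (-1 + 1 / Real.log y) ≤ (p : ℝ) ^ (-(1 / 2 : ℝ)) :=
          Real.rpow_le_rpow_of_exponent_le (by linarith only [hp2]) h3
      _ ≤ (2 : ℝ) ^ (-(1 / 2 : ℝ)) :=
          Real.rpow_le_rpow_of_nonpos (by norm_num) hp2 (by norm_num)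
      _ = (1 / 2 : ℝ) ^ (1 / 2 : ℝ) := by
          rw [Real.rpow_neg (by norm_num), one_div 2, Real.inv_rpow (by norm_num)]

open Classical in
/-- the constants of the single prime inequality in case B -/
noncomputable def cB (θ B₀ C S y : ℝ) (p : ℕ) : ℝ :=
  if BqB S y p ≤ B₀ then 1 + 2 * (1 - θ) * (BqB S y p - xB S y p) + C * (BqB S y p) ^ (2 * θ)
  else (1 + (BqB S y p) ^ (1 - θ)) / (1 - (BqB S y p) ^ (1 - θ))

theorem xB_le {S y : ℝ} (hS : 0 < S) (hy : 2 ≤ Real.log y) {p : ℕ} (hp : p.Prime) :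
    0 < xB S y p ∧ xB S y p ≤ BqB S y p := by
  have hp' : (0 : ℝ) < p := by exact_mod_cast hp.pos
  by_cases h : (p : ℝ) ≤ y
  · have h1 := BqB_bounds (S := S) hy hp h
    have h2 : xB S y p = 1 / (p : ℝ) := by unfold xB; rw [if_pos h]
    rw [h2]
    exact ⟨by (clear * - hp'; positivity), h1.1⟩
  · unfold xB BqB
    rw [if_neg h, if_neg h]
    exact ⟨by positivity, le_rfl⟩

theorem BqB_large {S y B₀ : ℝ} (hS : 0 < S) (hB₀ : 0 < B₀) (hy0 : 0 < y) (hSy : 1 ≤ S * y * B₀)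
    {p : ℕ} (hpy : ¬ (p : ℝ) ≤ y) : BqB S y p ≤ B₀ ∧ BqB S y p = xB S y p := by
  have h1 : xB S y p = BqB S y p := by unfold xB BqB; rw [if_neg hpy, if_neg hpy]
  refine ⟨?_, h1.symm⟩
  unfold BqB
  rw [if_neg hpy]
  push Not at hpy
  have hp' : (0 : ℝ) < p := hy0.trans hpy
  rw [div_le_iff₀ (by positivity)]
  calc 1 ≤ S * y * B₀ := hSy
    _ ≤ S * p * B₀ := by gcongr
    _ = B₀ * (S * p) := by ring

theorem SP_cB {θ B₀ C : ℝ} (hθ : 1 / 2 < θ) (hθ1 : θ < 1) (hB₀ : 0 < B₀)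
    (hSPs : ∀ B x : ℝ, 0 < B → B ≤ B₀ → 0 ≤ x → x ≤ B →
      SP θ (B ^ (1 - θ)) x (1 + 2 * (1 - θ) * (B - x) + C * B ^ (2 * θ)))
    {S y : ℝ} (hS : 0 < S) (hy0 : 0 < y) (hy : 2 ≤ Real.log y) (hSy : 1 ≤ S * y * B₀)
    {p : ℕ} (hp : p.Prime) : SP θ ((BqB S y p) ^ (1 - θ)) (xB S y p) (cB θ B₀ C S y p) := by
  obtain ⟨hx0, hxB⟩ := xB_le hS hy hp
  have hB0 : 0 < BqB S y p := lt_of_lt_of_le hx0 hxB
  have hl0 : 0 < 1 - θ := by linarith only [hθ1]
  by_cases h : BqB S y p ≤ B₀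
  · have h1 : cB θ B₀ C S y p =
        1 + 2 * (1 - θ) * (BqB S y p - xB S y p) + C * (BqB S y p) ^ (2 * θ) := by
      unfold cB
      rw [if_pos h]
    rw [h1]
    exact hSPs _ _ hB0 h hx0.le hxB
  · have h1 : cB θ B₀ C S y p =
        (1 + (BqB S y p) ^ (1 - θ)) / (1 - (BqB S y p) ^ (1 - θ)) := by
      unfold cB
      rw [if_neg h]
    rw [h1]
    have hpy : (p : ℝ) ≤ y := by
      by_contra hne
      exact h (BqB_large hS hB₀ hy0 hSy hne).1
    have h2 := (BqB_bounds (S := S) hy hp hpy).2.2.2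
    have h3 : BqB S y p < 1 := lt_of_le_of_lt h2 (Real.rpow_lt_one (by (clear * -; norm_num)) (by norm_num)
      (by norm_num))
    exact SP_large hθ hθ1 (by (clear * - hB0; positivity)) (Real.rpow_lt_one hB0.le h3 hl0) hx0.le
      (hxB.trans h3.le)

theorem cB_nonneg {θ B₀ C : ℝ} (hθ1 : θ < 1) (hB₀ : 0 < B₀) (hC : 0 ≤ C)
    {S y : ℝ} (hS : 0 < S) (hy0 : 0 < y) (hy : 2 ≤ Real.log y) (hSy : 1 ≤ S * y * B₀)
    {p : ℕ} (hp : p.Prime) : 0 ≤ cB θ B₀ C S y p := by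
  obtain ⟨hx0, hxB⟩ := xB_le hS hy hp
  have hB0 : 0 < BqB S y p := lt_of_lt_of_le hx0 hxB
  have hl0 : 0 < 1 - θ := by linarith only [hθ1]
  unfold cB
  split_ifs with h
  · have : 0 ≤ BqB S y p - xB S y p := by linarith only [hxB]
    (clear * - hθ1 hxB hC hB0; positivity)
  · have hpy : (p : ℝ) ≤ y := by
      by_contra hne
      exact h (BqB_large hS hB₀ hy0 hSy hne).1
    have h2 := (BqB_bounds (S := S) hy hp hpy).2.2.2
    have h3 : BqB S y p < 1 := lt_of_le_of_lt h2 (Real.rpow_lt_one (by norm_num) (by norm_num)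
      (by norm_num))
    have h4 := Real.rpow_lt_one hB0.le h3 hl0
    have h5 : 0 ≤ (BqB S y p) ^ (1 - θ) := by (clear * - hB0; positivity)
    apply div_nonneg <;> linarith only [h4, h5]

theorem prod_cB {θ B₀ C : ℝ} (hθ : 1 / 2 < θ) (hθ1 : θ < 1) (hB₀ : 0 < B₀)
    (hC : 0 ≤ C) :
    ∃ K > 0, ∀ S y : ℝ, 0 < S → S ≤ 1 → 0 < y → 2 ≤ Real.log y → 1 ≤ S * y * B₀ →
      S ^ (-(2 * θ)) ≤ y ^ (θ - 1 / 2) → ∀ P : Finset ℕ, (∀ p ∈ P, p.Prime) →
      ∏ p ∈ P, cB θ B₀ C S y p ≤ K := by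
  obtain ⟨C₁, hC₁, hsum⟩ := sum_log_div_prime_le
  have hl0 : 0 < 1 - θ := by linarith only [hθ1]
  set b₂ : ℝ := ((1 / 2 : ℝ) ^ (1 / 2 : ℝ)) ^ (1 - θ) with hb₂
  have hb₂0 : 0 < b₂ := by positivity
  have hb₂1 : b₂ < 1 := Real.rpow_lt_one (by positivity)
    (Real.rpow_lt_one (by norm_num) (by norm_num) (by norm_num)) hl0
  set M : ℝ := (3 + C) + (1 + b₂) / (1 - b₂) with hM
  have hM₀ : 0 ≤ (1 + b₂) / (1 - b₂) := div_nonneg (by linarith only [hb₂0]) (by linarith only [hb₂1])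
  have hM1 : 1 ≤ M := by linarith only [hC, hM₀]
  set n₀ : ℕ := ⌈3 / B₀⌉₊ with hn₀
  set C₃ : ℝ := C * 9 with hC₃
  set d₁ : ℕ → ℝ := fun n => if n < n₀ + 1 then Real.log M else 0 with hd₁
  set d₂ : ℕ → ℝ := fun n => C₃ * (1 / (n : ℝ) ^ (θ + 1 / 2)) with hd₂
  have hs₁ : Summable d₁ := by
    refine summable_of_ne_finset_zero (s := range (n₀ + 1)) ?_
    intro n hn
    simp only [hd₁]
    rw [if_neg]
    simpa only [Order.lt_add_one_iff, not_le, mem_range] using hn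
  have hs₂ : Summable d₂ := by
    refine Summable.mul_left _ ?_
    exact Real.summable_one_div_nat_rpow.2 (by linarith only [hθ])
  have hlogM : 0 ≤ Real.log M := Real.log_nonneg hM1
  have hd₁0 : ∀ n, 0 ≤ d₁ n := by
    intro n
    simp only [hd₁]
    split_ifs
    · exact hlogM
    · exact le_rfl
  have hC₃0 : 0 ≤ C₃ := by (clear * - hC; positivity)
  have hd₂0 : ∀ n, 0 ≤ d₂ n := by
    intro n
    simp only [hd₂]
    (clear * - hC; positivity)
  have hs : Summable (fun n => d₁ n + d₂ n) := hs₁.add hs₂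
  refine ⟨Real.exp (∑' n, (d₁ n + d₂ n) + 4 * (1 + C₁)), Real.exp_pos _, ?_⟩
  intro S y hS hS1 hy0 hy hSy hSy2 P hP
  have hly : 0 < Real.log y := by linarith only [hy]
  have hy1 : 1 ≤ y := by
    by_contra hne
    push Not at hne
    have := Real.log_neg hy0 hne
    linarith only [hy, this]
  set d₃ : ℕ → ℝ := fun n => if (n : ℝ) ≤ y then 4 * (Real.log n / (n * Real.log y)) else 0
    with hd₃
  have hd₃0 : ∀ n, 0 ≤ d₃ n := by
    intro n
    simp only [hd₃]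
    split_ifs
    · have : 0 ≤ Real.log n := Real.log_natCast_nonneg n
      (clear * - hy; positivity)
    · exact le_rfl
  have hle : ∀ p ∈ P, cB θ B₀ C S y p ≤ Real.exp ((d₁ p + d₂ p) + d₃ p) := by
    intro p hp
    have hpp := hP p hp
    have hp0 : (0 : ℝ) < p := by exact_mod_cast hpp.pos
    have hp1 : (1 : ℝ) ≤ p := by exact_mod_cast hpp.one_lt.le
    obtain ⟨hx0, hxB⟩ := xB_le hS hy hpp
    have hB0 : 0 < BqB S y p := lt_of_lt_of_le hx0 hxB
    by_cases hpy : (p : ℝ) ≤ y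
    · obtain ⟨hb1, hb2, hb3, hb4⟩ := BqB_bounds (S := S) hy hpp hpy
      have hx1 : xB S y p = 1 / (p : ℝ) := by unfold xB; rw [if_pos hpy]
      have hBlt : BqB S y p < 1 := lt_of_le_of_lt hb4 (Real.rpow_lt_one (by norm_num)
        (by norm_num) (by norm_num))
      by_cases hn : p < n₀ + 1
      · have h3 : d₁ p = Real.log M := by
          simp only [hd₁]
          rw [if_pos hn]
        have h4 : cB θ B₀ C S y p ≤ M := by
          unfold cB
          split_ifs with h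
          · have h5 : (BqB S y p) ^ (2 * θ) ≤ 1 := Real.rpow_le_one hB0.le hBlt.le (by linarith only [hθ])
            have h6 : C * (BqB S y p) ^ (2 * θ) ≤ C := mul_le_of_le_one_right hC h5
            have h7 : 2 * (1 - θ) * (BqB S y p - xB S y p) ≤ 2 * 1 * 1 := by
              apply mul_le_mul _ _ (by linarith only [hxB]) (by norm_num)
              · linarith only [hθ]
              · linarith only [hx0, hBlt]
            linarith only [hM₀, h6, h7]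
          · have h5 : (BqB S y p) ^ (1 - θ) ≤ b₂ := Real.rpow_le_rpow hB0.le hb4 hl0.le
            have h6 : (1 + (BqB S y p) ^ (1 - θ)) / (1 - (BqB S y p) ^ (1 - θ)) ≤
                (1 + b₂) / (1 - b₂) := by
              apply div_le_div₀ <;> linarith only [h5, hb₂0, hb₂1]
            linarith only [hC, h6]
        calc cB θ B₀ C S y p ≤ M := h4
          _ = Real.exp (Real.log M) := (Real.exp_log (by linarith only [hC, hM₀])).symm
          _ ≤ Real.exp ((d₁ p + d₂ p) + d₃ p) := by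
            apply Real.exp_le_exp.2
            rw [h3]
            linarith only [hd₂0 p, hd₃0 p]
      · push Not at hn
        have h1 : BqB S y p ≤ B₀ := by
          refine hb3.trans ?_
          rw [div_le_iff₀ hp0]
          have h2 : 3 / B₀ ≤ n₀ := Nat.le_ceil _
          have h3 : (n₀ : ℝ) ≤ p := by
            have : n₀ ≤ p := by (clear * - hn; omega)
            exact_mod_cast this
          have h4 : 3 / B₀ ≤ p := h2.trans h3
          rw [div_le_iff₀ hB₀] at h4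
          linarith only [h4]
        have h2 : cB θ B₀ C S y p =
            1 + 2 * (1 - θ) * (BqB S y p - xB S y p) + C * (BqB S y p) ^ (2 * θ) := by
          unfold cB
          rw [if_pos h1]
        have h3 : C * (BqB S y p) ^ (2 * θ) ≤ d₂ p := by
          simp only [hd₂, hC₃]
          rw [mul_assoc]
          refine mul_le_mul_of_nonneg_left ?_ hC
          calc (BqB S y p) ^ (2 * θ) ≤ (3 / (p : ℝ)) ^ (2 * θ) :=
                Real.rpow_le_rpow hB0.le hb3 (by linarith only [hθ])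
            _ = (3 : ℝ) ^ (2 * θ) * (1 / (p : ℝ) ^ (2 * θ)) := by
                rw [Real.div_rpow (by norm_num) hp0.le]
                ring
            _ ≤ (3 : ℝ) ^ (2 : ℝ) * (1 / (p : ℝ) ^ (θ + 1 / 2)) := by
                apply mul_le_mul
                · exact Real.rpow_le_rpow_of_exponent_le (by norm_num) (by linarith only [hθ1])
                · apply one_div_le_one_div_of_le (by (clear * - hp0; positivity))
                  exact Real.rpow_le_rpow_of_exponent_le hp1 (by linarith only [hθ])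
                · (clear * - hp0; positivity)
                · positivity
            _ = 9 * (1 / (p : ℝ) ^ (θ + 1 / 2)) := by (clear * -; norm_num)
        have h4 : 2 * (1 - θ) * (BqB S y p - xB S y p) ≤ d₃ p := by
          simp only [hd₃]
          rw [if_pos hpy, hx1]
          have h5 : 0 ≤ Real.log p / (p * Real.log y) := by
            have : 0 ≤ Real.log p := Real.log_natCast_nonneg p
            (clear * - hp0 hy; positivity)
          calc 2 * (1 - θ) * (BqB S y p - 1 / (p : ℝ))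
              ≤ 2 * 1 * (2 * (Real.log p / (p * Real.log y))) := by
                apply mul_le_mul _ _ (by linarith only [hb1]) (by norm_num)
                · linarith only [hθ]
                · linarith only [hb2]
            _ = 4 * (Real.log p / (p * Real.log y)) := by ring
        have h5 := Real.add_one_le_exp ((d₁ p + d₂ p) + d₃ p)
        have h6 := hd₁0 p
        rw [h2]
        linarith only [h3, h4, h5, h6]
    · obtain ⟨h1, h2⟩ := BqB_large hS hB₀ hy0 hSy hpy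
      have h3 : cB θ B₀ C S y p = 1 + C * (BqB S y p) ^ (2 * θ) := by
        unfold cB
        rw [if_pos h1, h2]
        ring
      have h4 : C * (BqB S y p) ^ (2 * θ) ≤ d₂ p := by
        simp only [hd₂, hC₃]
        rw [mul_assoc]
        refine mul_le_mul_of_nonneg_left ?_ hC
        have h5 : BqB S y p = 1 / (S * p) := by unfold BqB; rw [if_neg hpy]
        push Not at hpy
        have h6 : y ^ (θ - 1 / 2) ≤ (p : ℝ) ^ (θ - 1 / 2) :=
          Real.rpow_le_rpow hy0.le hpy.le (by linarith only [hθ])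
        have h7 : (p : ℝ) ^ (2 * θ) = (p : ℝ) ^ (θ + 1 / 2) * (p : ℝ) ^ (θ - 1 / 2) := by
          rw [← Real.rpow_add hp0]
          congr 1
          ring
        have hA : 0 < (p : ℝ) ^ (θ + 1 / 2) := by (clear * - hp0; positivity)
        have hB : 0 < (p : ℝ) ^ (θ - 1 / 2) := by (clear * - hp0; positivity)
        calc (BqB S y p) ^ (2 * θ) = S ^ (-(2 * θ)) * (1 / (p : ℝ) ^ (2 * θ)) := by
              rw [h5, one_div, Real.inv_rpow (by (clear * - hS hp0; positivity)), Real.mul_rpow hS.le hp0.le,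
                Real.rpow_neg hS.le, mul_inv, one_div]
          _ ≤ (p : ℝ) ^ (θ - 1 / 2) * (1 / (p : ℝ) ^ (2 * θ)) := by
              refine mul_le_mul_of_nonneg_right (hSy2.trans h6) (by (clear * - hp0; positivity))
          _ = 1 * (1 / (p : ℝ) ^ (θ + 1 / 2)) := by
              rw [h7]
              (clear * - hp0; field_simp)
          _ ≤ 9 * (1 / (p : ℝ) ^ (θ + 1 / 2)) := by
              refine mul_le_mul_of_nonneg_right (by norm_num) (by (clear * - hp0; positivity))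
      have h5 := Real.add_one_le_exp ((d₁ p + d₂ p) + d₃ p)
      have h6 := hd₁0 p
      have h7 := hd₃0 p
      rw [h3]
      linarith only [h4, h5, h6, h7]
  have hsum3 : ∑ p ∈ P, d₃ p ≤ 4 * (1 + C₁) := by
    have h1 : ∑ p ∈ P, d₃ p = ∑ p ∈ P.filter (fun p : ℕ => (p : ℝ) ≤ y), 4 * (Real.log p / (p * Real.log y)) := by
      rw [sum_filter]
    rw [h1]
    have hyf : 1 ≤ ⌊y⌋₊ := Nat.one_le_iff_ne_zero.2 (Nat.floor_pos.2 hy1).ne'
    have h2 : (P.filter (fun p : ℕ => (p : ℝ) ≤ y)) ⊆ (Icc 1 ⌊y⌋₊).filter Nat.Prime := by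
      intro p hp
      rw [mem_filter] at hp ⊢
      rw [mem_Icc]
      exact ⟨⟨(hP p hp.1).one_lt.le, Nat.le_floor hp.2⟩, hP p hp.1⟩
    have h3 : ∑ p ∈ P.filter (fun p : ℕ => (p : ℝ) ≤ y), 4 * (Real.log p / (p * Real.log y)) ≤
        ∑ p ∈ (Icc 1 ⌊y⌋₊).filter Nat.Prime, 4 * (Real.log p / (p * Real.log y)) := by
      refine sum_le_sum_of_subset_of_nonneg h2 ?_
      intro p _ _
      have : 0 ≤ Real.log p := Real.log_natCast_nonneg p
      (clear * - hy; positivity)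
    refine h3.trans ?_
    have h4 : ∑ p ∈ (Icc 1 ⌊y⌋₊).filter Nat.Prime, 4 * (Real.log p / (p * Real.log y)) =
        4 / Real.log y * ∑ p ∈ (Icc 1 ⌊y⌋₊).filter Nat.Prime, Real.log p / p := by
      rw [mul_sum]
      refine sum_congr rfl fun p hp => ?_
      have hpp : (0 : ℝ) < p := by exact_mod_cast (mem_filter.1 hp).2.pos
      (clear * - hy hpp; field_simp)
    rw [h4]
    have h5 := hsum ⌊y⌋₊ hyf
    have h6 : Real.log (⌊y⌋₊ : ℝ) ≤ Real.log y :=
      Real.log_le_log (by exact_mod_cast hyf) (Nat.floor_le hy0.le)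
    calc 4 / Real.log y * ∑ p ∈ (Icc 1 ⌊y⌋₊).filter Nat.Prime, Real.log p / p
        ≤ 4 / Real.log y * (Real.log y + C₁) :=
          mul_le_mul_of_nonneg_left (by linarith only [h5, h6]) (by (clear * - hy; positivity))
      _ = 4 * (1 + C₁ / Real.log y) := by (clear * - hy hC₁; field_simp)
      _ ≤ 4 * (1 + C₁) := by
          have : C₁ / Real.log y ≤ C₁ := div_le_self hC₁ (by linarith only [hy])
          linarith only [this]
  calc ∏ p ∈ P, cB θ B₀ C S y p ≤ ∏ p ∈ P, Real.exp ((d₁ p + d₂ p) + d₃ p) :=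
        prod_le_prod (fun p hp => cB_nonneg hθ1 hB₀ hC hS hy0 hy hSy (hP p hp)) hle
    _ = Real.exp (∑ p ∈ P, ((d₁ p + d₂ p) + d₃ p)) := (Real.exp_sum _ _).symm
    _ ≤ Real.exp (∑' n, (d₁ n + d₂ n) + 4 * (1 + C₁)) := by
        apply Real.exp_le_exp.2
        rw [sum_add_distrib]
        have h1 : ∑ p ∈ P, (d₁ p + d₂ p) ≤ ∑' n, (d₁ n + d₂ n) :=
          hs.sum_le_tsum P (fun n _ => add_nonneg (hd₁0 n) (hd₂0 n))
        linarith only [hsum3, h1]

theorem one_sub_sum_le_prod (Q : Finset ℕ) (x : ℕ → ℝ) (hx : ∀ p ∈ Q, 0 ≤ x p ∧ x p ≤ 1) :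
    1 - ∑ p ∈ Q, x p ≤ ∏ p ∈ Q, (1 - x p) := by
  classical
  induction Q using Finset.induction_on with
  | empty => simp only [sum_empty, sub_zero, prod_empty, Std.le_refl]
  | insert a Q ha ih =>
    rw [sum_insert ha, prod_insert ha]
    have h1 := ih (fun p hp => hx p (mem_insert_of_mem hp))
    have h2 := hx a (mem_insert_self a Q)
    have h3 : ∏ p ∈ Q, (1 - x p) ≤ 1 := by
      refine prod_le_one ?_ ?_
      · intro p hp
        have := hx p (mem_insert_of_mem hp)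
        linarith only [this]
      · intro p hp
        have := hx p (mem_insert_of_mem hp)
        linarith only [this]
    nlinarith only [h1, h2, h3]

theorem card_primeFactors_le {q : ℕ} (hq : 0 < q) :
    (q.primeFactors.card : ℝ) ≤ 2 * Real.log q := by
  have h1 : 2 ^ q.primeFactors.card ≤ q := by
    calc 2 ^ q.primeFactors.card = ∏ _p ∈ q.primeFactors, 2 := by simp
      _ ≤ ∏ p ∈ q.primeFactors, p := by
          refine prod_le_prod' fun p hp => ?_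
          exact (Nat.prime_of_mem_primeFactors hp).two_le
      _ ≤ q := Nat.le_of_dvd hq (Nat.prod_primeFactors_dvd q)
  have h2 : ((2 : ℝ) ^ q.primeFactors.card) ≤ q := by exact_mod_cast h1
  have h3 := Real.log_le_log (by positivity) h2
  rw [Real.log_pow] at h3
  have h4 : (1 / 2 : ℝ) ≤ Real.log 2 := by
    have := Real.log_two_gt_d9
    linarith only [this]
  have h5 : (0 : ℝ) ≤ q.primeFactors.card := by (clear * -; positivity)
  nlinarith only [h3, h4]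

theorem weightB {S y : ℝ} (hS : 0 < S) (hy0 : 0 < y) (hS1 : 1 ≤ S * y) {q : ℕ} (hq : 0 < q)
    (hSy : 4 * Real.log q ≤ S * y) (P : Finset ℕ) (hP : ∀ p ∈ P, p.Prime) :
    ((q.totient : ℝ) / q) ≤ 2 * ∏ p ∈ P with p ∣ q, (1 - xB S y p) := by
  refine (totient_weight_le P hP q).trans ?_
  set Q : Finset ℕ := P.filter (fun p => p ∣ q) with hQ
  have hQp : ∀ p ∈ Q, p.Prime := fun p hp => hP p (mem_filter.1 hp).1
  have hQd : ∀ p ∈ Q, p ∣ q := fun p hp => (mem_filter.1 hp).2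
  rw [← prod_filter_mul_prod_filter_not Q (fun p : ℕ => (p : ℝ) ≤ y) (fun p => 1 - 1 / (p : ℝ)),
    ← prod_filter_mul_prod_filter_not Q (fun p : ℕ => (p : ℝ) ≤ y) (fun p => 1 - xB S y p)]
  have h1 : ∏ p ∈ Q.filter (fun p : ℕ => (p : ℝ) ≤ y), (1 - 1 / (p : ℝ)) =
      ∏ p ∈ Q.filter (fun p : ℕ => (p : ℝ) ≤ y), (1 - xB S y p) := by
    refine prod_congr rfl fun p hp => ?_
    unfold xB
    rw [if_pos (mem_filter.1 hp).2]
  have hinv : ∀ p ∈ Q, 0 ≤ 1 / (p : ℝ) ∧ 1 / (p : ℝ) ≤ 1 := by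
    intro p hp
    have hp1 : (1 : ℝ) ≤ p := by exact_mod_cast (hQp p hp).one_lt.le
    refine ⟨by (clear * - hp1; positivity), ?_⟩
    rw [div_le_one (by linarith only [hp1])]
    exact hp1
  have h2 : ∏ p ∈ Q.filter (fun p : ℕ => ¬ (p : ℝ) ≤ y), (1 - 1 / (p : ℝ)) ≤ 1 := by
    refine prod_le_one ?_ ?_
    · intro p hp
      have := hinv p (mem_filter.1 hp).1
      linarith only [this]
    · intro p hp
      have := hinv p (mem_filter.1 hp).1
      linarith only [this]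
  have h3 : 0 ≤ ∏ p ∈ Q.filter (fun p : ℕ => (p : ℝ) ≤ y), (1 - xB S y p) := by
    rw [← h1]
    refine prod_nonneg fun p hp => ?_
    have := hinv p (mem_filter.1 hp).1
    linarith only [this]
  have hx : ∀ p ∈ Q.filter (fun p : ℕ => ¬ (p : ℝ) ≤ y), 0 ≤ xB S y p ∧ xB S y p ≤ 1 / (S * y) := by
    intro p hp
    have h4 := (mem_filter.1 hp).2
    unfold xB
    rw [if_neg h4]
    push Not at h4
    have hp0 : (0 : ℝ) < p := hy0.trans h4
    refine ⟨by (clear * - hS hp0; positivity), ?_⟩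
    apply one_div_le_one_div_of_le (by positivity)
    (clear * - h4 hS; gcongr)
  have hone : 1 / (S * y) ≤ 1 := by
    rw [div_le_one (by positivity)]
    exact hS1
  have h4 := one_sub_sum_le_prod (Q.filter (fun p : ℕ => ¬ (p : ℝ) ≤ y)) (xB S y)
    (fun p hp => ⟨(hx p hp).1, (hx p hp).2.trans hone⟩)
  have h5 : ∑ p ∈ Q.filter (fun p : ℕ => ¬ (p : ℝ) ≤ y), xB S y p ≤ 1 / 2 := by
    calc ∑ p ∈ Q.filter (fun p : ℕ => ¬ (p : ℝ) ≤ y), xB S y p
        ≤ (Q.filter (fun p : ℕ => ¬ (p : ℝ) ≤ y)).card • (1 / (S * y)) :=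
          sum_le_card_nsmul _ _ _ fun p hp => (hx p hp).2
      _ = ((Q.filter (fun p : ℕ => ¬ (p : ℝ) ≤ y)).card : ℝ) * (1 / (S * y)) := by
          rw [nsmul_eq_mul]
      _ ≤ (2 * Real.log q) * (1 / (S * y)) := by
          refine mul_le_mul_of_nonneg_right ?_ (by positivity)
          refine le_trans ?_ (card_primeFactors_le hq)
          refine Nat.cast_le.2 (card_le_card ?_)
          intro p hp
          have h6 := (mem_filter.1 hp).1
          exact Nat.mem_primeFactors.2 ⟨hQp p h6, hQd p h6, hq.ne'⟩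
      _ ≤ 1 / 2 := by
          rw [mul_one_div, div_le_div_iff₀ (by positivity) (by norm_num)]
          linarith only [hSy]
  rw [h1]
  have h6 : 1 / 2 ≤ ∏ p ∈ Q.filter (fun p : ℕ => ¬ (p : ℝ) ≤ y), (1 - xB S y p) := by linarith only [h4, h5]
  calc (∏ p ∈ Q.filter (fun p : ℕ => (p : ℝ) ≤ y), (1 - xB S y p)) *
        ∏ p ∈ Q.filter (fun p : ℕ => ¬ (p : ℝ) ≤ y), (1 - 1 / (p : ℝ))
      ≤ (∏ p ∈ Q.filter (fun p : ℕ => (p : ℝ) ≤ y), (1 - xB S y p)) * 1 :=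
        mul_le_mul_of_nonneg_left h2 h3
    _ ≤ (∏ p ∈ Q.filter (fun p : ℕ => (p : ℝ) ≤ y), (1 - xB S y p)) *
        (2 * ∏ p ∈ Q.filter (fun p : ℕ => ¬ (p : ℝ) ≤ y), (1 - xB S y p)) :=
        mul_le_mul_of_nonneg_left (by linarith only [h4, h5]) h3
    _ = _ := by ring

theorem numB1 {E A ε₁ δ : ℝ} (hE : E = 2 / ε₁) (hε₁ : 0 < ε₁) (hδ : 0 < δ) (hA0 : 0 < A)
    {X s : ℝ} (hX : Real.exp (Real.exp (max 4 ((2 * A) ^ (1 / δ)))) ≤ X)
    (hs : (18 * Real.log X) ^ (-1 / ε₁) ≤ s) :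
    1 ≤ X ∧ 4 ≤ Real.log (Real.log X) ∧ Real.log X = Real.exp (Real.log (Real.log X)) ∧
    36 ≤ Real.log X ∧ 0 < s ∧ -(E * Real.log (Real.log X)) ≤ Real.log s ∧
    2 * A * (Real.log (Real.log X)) ^ 2 ≤ (Real.log (Real.log X)) ^ (2 + δ) := by
  set l₀ : ℝ := max 4 ((2 * A) ^ (1 / δ)) with hl₀
  set L : ℝ := Real.log X with hL
  set l : ℝ := Real.log L with hl
  have hX0 : 0 < X := lt_of_lt_of_le (Real.exp_pos _) hX
  have hLge : Real.exp l₀ ≤ L := by
    rw [hL, Real.le_log_iff_exp_le hX0]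
    exact hX
  have hL0 : 0 < L := lt_of_lt_of_le (Real.exp_pos _) hLge
  have hlge : l₀ ≤ l := by
    rw [hl, Real.le_log_iff_exp_le hL0]
    exact hLge
  have hl4 : 4 ≤ l := (le_max_left _ _).trans hlge
  have hl1 : 1 ≤ l := by linarith only [hl4]
  have hLe : L = Real.exp l := (Real.exp_log hL0).symm
  have hX1 : 1 ≤ X := by
    have : 1 ≤ Real.exp (Real.exp l₀) := Real.one_le_exp (Real.exp_pos _).le
    linarith only [hX, this]
  have hlδ : 2 * A ≤ l ^ δ := by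
    have h1 : (2 * A) ^ (1 / δ) ≤ l := (le_max_right _ _).trans hlge
    have h2 : ((2 * A) ^ (1 / δ)) ^ δ ≤ l ^ δ := Real.rpow_le_rpow (by positivity) h1 hδ.le
    rw [← Real.rpow_mul (by positivity)] at h2
    rw [show 1 / δ * δ = 1 by field_simp, Real.rpow_one] at h2
    exact h2
  have hl2δ : 2 * A * l ^ 2 ≤ l ^ (2 + δ) := by
    rw [Real.rpow_add (by linarith only [hl4])]
    have : l ^ (2 : ℝ) = l ^ 2 := by norm_num
    rw [this, mul_comm]
    exact mul_le_mul_of_nonneg_left hlδ (sq_nonneg l)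
  have h36 : 36 ≤ L := by
    have h2 : Real.exp 4 ≤ L := by rw [hLe]; exact Real.exp_le_exp.2 hl4
    have h3 : Real.exp 4 = (Real.exp 1) ^ 4 := by rw [← Real.exp_nat_mul]; norm_num
    have h4 : (2.7 : ℝ) ≤ Real.exp 1 := by
      have := Real.exp_one_gt_d9
      linarith only [this]
    have h5 : (2.7 : ℝ) ^ 4 ≤ (Real.exp 1) ^ 4 := pow_le_pow_left₀ (by norm_num) h4 4
    rw [← h3] at h5
    norm_num at h5
    linarith only [h2, h5]
  have hsE : Real.exp (-(E * l)) ≤ s := by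
    refine le_trans ?_ hs
    have h1 : 18 * L ≤ L ^ 2 := by nlinarith only [h36]
    have h2 : (L ^ 2) ^ (-1 / ε₁) ≤ (18 * L) ^ (-1 / ε₁) :=
      Real.rpow_le_rpow_of_nonpos (by (clear * - hL0; positivity)) h1
        (div_nonpos_of_nonpos_of_nonneg (by norm_num) hε₁.le)
    refine le_trans (le_of_eq ?_) h2
    rw [Real.rpow_def_of_pos (by (clear * - hL0; positivity)), Real.log_pow]
    congr 1
    rw [hE, ← hl]
    push_cast
    (clear * - hl4 hε₁; field_simp)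
  have hs0 : 0 < s := lt_of_lt_of_le (Real.exp_pos _) hsE
  have hlogs : -(E * l) ≤ Real.log s := by
    rw [Real.le_log_iff_exp_le hs0]
    exact hsE
  exact ⟨hX1, hl4, hLe, h36, hs0, hlogs, hl2δ⟩

theorem numB2 {τ E C₄ c₁ l A s S w : ℝ} (hτ : 1 ≤ τ) (hE0 : 0 < E) (hC₄0 : 0 < C₄)
    (hA : A = (τ + 1) * (C₄ * E + E) + |c₁| + 1) (hl4 : 4 ≤ l)
    (hlogs : -(E * l) ≤ Real.log s)
    (hlogS : -(E * l) ≤ Real.log S) (hw : 2 * A * l ^ 2 ≤ w) :
    (-Real.log S * (C₄ * l) - Real.log s) * τ + -Real.log S * (C₄ * l) ≤ c₁ + w / 2 ∧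
    -Real.log S * (C₄ * l) - Real.log s ≤ w / 2 ∧
    w / 2 ≤ Real.log s - Real.log 2 + w := by
  have h1 : -Real.log S * (C₄ * l) ≤ E * l * (C₄ * l) := by
    refine mul_le_mul_of_nonneg_right (by linarith) (by (clear * - hC₄0 hl4; positivity))
  have hl2 : l ≤ l ^ 2 := by nlinarith only [hl4]
  have hl1 : 1 ≤ l ^ 2 := by linarith
  have hEl : E * l ≤ E * l ^ 2 := mul_le_mul_of_nonneg_left hl2 hE0.le
  have h2 : -Real.log S * (C₄ * l) - Real.log s ≤ (C₄ * E + E) * l ^ 2 := by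
    have : E * l * (C₄ * l) = C₄ * E * l ^ 2 := by ring
    have h3 : (C₄ * E + E) * l ^ 2 = C₄ * E * l ^ 2 + E * l ^ 2 := by ring
    linarith only [hlogs, h1, hEl]
  have h3 : (-Real.log S * (C₄ * l) - Real.log s) * τ ≤ (C₄ * E + E) * l ^ 2 * τ :=
    mul_le_mul_of_nonneg_right h2 (by linarith only [hτ])
  have h4 : -|c₁| ≤ c₁ := neg_abs_le _
  have h5 : |c₁| ≤ |c₁| * l ^ 2 := le_mul_of_one_le_right (abs_nonneg _) hl1
  have h6 : A * l ^ 2 = (C₄ * E + E) * l ^ 2 * τ + C₄ * E * l ^ 2 + E * l ^ 2 +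
      |c₁| * l ^ 2 + l ^ 2 := by rw [hA]; ring
  have h7 : 0 ≤ (C₄ * E + E) * l ^ 2 * τ := by positivity
  have h8 : 0 ≤ |c₁| * l ^ 2 := by (clear * - hl4; positivity)
  have h9 : 0 ≤ C₄ * E * l ^ 2 := by positivity
  have h10 : 0 ≤ E * l ^ 2 := by positivity
  have h11 : E * l * (C₄ * l) = C₄ * E * l ^ 2 := by ring
  have h12 : Real.log 2 ≤ 1 := by
    have := Real.log_two_lt_d9
    linarith only [this]
  refine ⟨?_, ?_, ?_⟩ <;> linarith

/-- numerical conditions of case B -/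
theorem numB {c₀ τ C₂ B₀ ε₁ δ : ℝ} (hc₀ : 0 < c₀) (hτ : 1 ≤ τ) (hC₂ : 1 ≤ C₂) (hB₀ : 0 < B₀)
    (hε₁ : 0 < ε₁) (hδ : 0 < δ) :
    ∃ X₀ : ℝ, ∀ X s : ℝ, X₀ ≤ X → (18 * Real.log X) ^ (-1 / ε₁) ≤ s → s ≤ 1 / 4 →
      1 ≤ X ∧ 0 < s ∧ ∃ y V₀ : ℝ, 0 < y ∧ 0 < V₀ ∧ 2 ≤ Real.log y ∧
        1 ≤ min 1 (C₂ * s) * y * B₀ ∧ 1 ≤ min 1 (C₂ * s) * y ∧
        (min 1 (C₂ * s)) ^ (-(2 * (3 / 5 : ℝ))) ≤ y ^ ((3 / 5 : ℝ) - 1 / 2) ∧
        (∀ q : ℕ, 0 < q → (q : ℝ) ≤ X ^ 9 → 4 * Real.log q ≤ min 1 (C₂ * s) * y) ∧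
        ((min 1 (C₂ * s)) ^ (-Real.log y) / s) ^ τ * (min 1 (C₂ * s)) ^ (-Real.log y) ≤
          c₀ * V₀ ∧
        (min 1 (C₂ * s)) ^ (-Real.log y) / s ≤ V₀ ∧
        V₀ ≤ s / 2 * Real.exp ((Real.log (Real.log X)) ^ (2 + δ)) := by
  have hE0 : 0 < 2 / ε₁ := by positivity
  obtain ⟨E, hE⟩ : ∃ E, E = 2 / ε₁ := ⟨_, rfl⟩
  rw [← hE] at hE0
  obtain ⟨C₄, hC₄⟩ : ∃ C₄, C₄ = 12 * E + |Real.log B₀| + 5 := ⟨_, rfl⟩
  have hC₄0 : 0 < C₄ := by rw [hC₄]; (clear * - hE0; positivity)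
  obtain ⟨A, hA⟩ : ∃ A, A = (τ + 1) * (C₄ * E + E) + |Real.log c₀| + 1 := ⟨_, rfl⟩
  have hA0 : 0 < A := by rw [hA]; positivity
  refine ⟨Real.exp (Real.exp (max 4 ((2 * A) ^ (1 / δ)))), ?_⟩
  intro X s hX hs hs'
  obtain ⟨hX1, hl4, hLe, h36, hs0, hlogs, hl2δ⟩ := numB1 hE hε₁ hδ hA0 hX hs
  generalize hl : Real.log (Real.log X) = l at hl4 hLe hlogs hl2δ ⊢
  have hlogs' : Real.log s ≤ 0 := Real.log_nonpos hs0.le (by linarith only [hs'])
  obtain ⟨S, hS⟩ : ∃ S, S = min 1 (C₂ * s) := ⟨_, rfl⟩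
  rw [← hS]
  have hSs : s ≤ S := by
    rw [hS]
    refine le_min (by linarith only [hs']) ?_
    nlinarith only [hC₂, hs0]
  have hS0 : 0 < S := lt_of_lt_of_le hs0 hSs
  have hS1 : S ≤ 1 := by rw [hS]; exact min_le_left _ _
  have hlogS : -(E * l) ≤ Real.log S := hlogs.trans (Real.log_le_log hs0 hSs)
  have hly : Real.log (Real.exp (C₄ * l)) = C₄ * l := Real.log_exp _
  have hEl : 0 ≤ E * l := by positivity
  have hBl : |Real.log B₀| ≤ |Real.log B₀| * l :=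
    le_mul_of_one_le_right (abs_nonneg _) (by linarith only [hl4])
  have hC4l : C₄ * l = 12 * (E * l) + |Real.log B₀| * l + 5 * l := by rw [hC₄]; ring
  have hB₀l : 0 ≤ |Real.log B₀| * l := by (clear * - hl4; positivity)
  have hSy5 : Real.exp (5 * l) ≤ S * Real.exp (C₄ * l) := by
    calc Real.exp (5 * l) ≤ Real.exp (Real.log S + C₄ * l) := by
          apply Real.exp_le_exp.2
          linarith only [hlogs, hlogs', hlogS, hC4l, hB₀l]
      _ = S * Real.exp (C₄ * l) := by rw [Real.exp_add, Real.exp_log hS0]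
  obtain ⟨hn1, hn2, hn3⟩ := numB2 hτ hE0 hC₄0 hA hl4 hlogs hlogS hl2δ
  have hZ : S ^ (-Real.log (Real.exp (C₄ * l))) = Real.exp (-Real.log S * (C₄ * l)) := by
    rw [Real.rpow_def_of_pos hS0, hly]
    congr 1
    ring
  have hZs : Real.exp (-Real.log S * (C₄ * l)) / s =
      Real.exp (-Real.log S * (C₄ * l) - Real.log s) := by
    rw [Real.exp_sub, Real.exp_log hs0]
  refine ⟨hX1, hs0, Real.exp (C₄ * l), Real.exp (l ^ (2 + δ) / 2), Real.exp_pos _,
    Real.exp_pos _, ?_, ?_, ?_, ?_, ?_, ?_, ?_, ?_⟩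
  · rw [hly]
    linarith only [hl4, hlogs, hlogs', hC4l, hB₀l]
  · calc (1 : ℝ) ≤ Real.exp (Real.log S + C₄ * l + Real.log B₀) := by
          apply Real.one_le_exp
          have := neg_abs_le (Real.log B₀)
          linarith only [hl4, hlogs, hlogs', hlogS, hBl, hC4l, this]
      _ = S * Real.exp (C₄ * l) * B₀ := by
          rw [Real.exp_add, Real.exp_add, Real.exp_log hS0, Real.exp_log hB₀]
  · refine le_trans ?_ hSy5
    exact Real.one_le_exp (by linarith only [hl4])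
  · rw [Real.rpow_def_of_pos hS0, Real.rpow_def_of_pos (Real.exp_pos _), hly]
    apply Real.exp_le_exp.2
    linarith only [hl4, hlogS, hC4l, hB₀l]
  · intro q hq hqX
    refine le_trans ?_ hSy5
    have hq' : (0 : ℝ) < q := by exact_mod_cast hq
    have h1 := Real.log_le_log hq' hqX
    rw [Real.log_pow] at h1
    push_cast at h1
    have h2 : Real.exp (5 * l) = (Real.log X) ^ 5 := by
      rw [hLe, ← Real.exp_nat_mul]
      norm_num
    rw [h2]
    have h3 : 36 * Real.log X ≤ (Real.log X) ^ 2 := by nlinarith only [h36]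
    have h4 : (Real.log X) ^ 2 ≤ (Real.log X) ^ 5 := pow_le_pow_right₀ (by linarith only [h36]) (by norm_num)
    linarith only [h1, h3, h4]
  · rw [hZ, hZs, ← Real.exp_mul, ← Real.exp_add]
    calc Real.exp ((-Real.log S * (C₄ * l) - Real.log s) * τ + -Real.log S * (C₄ * l))
        ≤ Real.exp (Real.log c₀ + l ^ (2 + δ) / 2) := Real.exp_le_exp.2 hn1
      _ = c₀ * Real.exp (l ^ (2 + δ) / 2) := by rw [Real.exp_add, Real.exp_log hc₀]
  · rw [hZ, hZs]
    exact Real.exp_le_exp.2 hn2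
  · have h1 : s / 2 * Real.exp (l ^ (2 + δ)) =
        Real.exp (Real.log s - Real.log 2 + l ^ (2 + δ)) := by
      rw [Real.exp_add, Real.exp_sub, Real.exp_log hs0, Real.exp_log (by norm_num)]
    rw [h1]
    exact Real.exp_le_exp.2 hn3

/-- case B. -/
theorem caseB {γ c₀ τ : ℝ} (hc₀ : 0 < c₀) (hτ : 1 ≤ τ) (hD : Dioph γ c₀ τ) {ε₁ δ : ℝ}
    (hε₁ : 0 < ε₁) (hδ : 0 < δ) :
    ∃ θ c C X₀ : ℝ, 1 / 2 < θ ∧ θ < 1 ∧ 0 < c ∧ 0 < C ∧
      ∀ X s : ℝ, X₀ ≤ X → (18 * Real.log X) ^ (-1 / ε₁) ≤ s → s ≤ 1 / 4 →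
      ∀ (N : ℕ) (ψ f : ℕ → ℝ), (∀ q, 0 ≤ ψ q) →
        (∀ q, 0 ≤ f q ∧ f q ≤ ψ q * (q.totient / q)) →
        (∀ q, f q ≠ 0 → X ≤ q ∧ (q : ℝ) ≤ X ^ 9 ∧
          ψ q ≤ Real.exp (-(Real.log (Real.log X)) ^ (2 + δ))) →
        psum (fun q r => Rel γ ψ s q r ∧
          s / 2 < max ((cofac r q : ℝ) * ψ q) ((cofac q r : ℝ) * ψ r)) N f f ≤
        C * s ^ (1 + c) * (∑ q ∈ Icc 1 N, f q) ^ (2 * θ) := by
  classical
  have hθ : (1 / 2 : ℝ) < 3 / 5 := by norm_num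
  have hθ1 : (3 / 5 : ℝ) < 1 := by norm_num
  obtain ⟨C₂, hC₂, hbohr⟩ := bohr_count hc₀ hτ hD
  obtain ⟨B₀, hB₀, C, hC, hB₀1, hSPs⟩ := SP_small hθ hθ1
  obtain ⟨K₀, hK₀, hprod⟩ := prod_cB (C := C) hθ hθ1 hB₀ hC
  obtain ⟨X₀, hnum⟩ := numB hc₀ hτ hC₂ hB₀ hε₁ hδ
  refine ⟨3 / 5, 1 / 5, K₀ * (64 * C₂) ^ (2 / 5 : ℝ), X₀, hθ, hθ1, by norm_num, by (clear * - hK₀ hC₂; positivity), ?_⟩
  intro X s hX hsX hs' N ψ f hψ hf hsupp
  obtain ⟨hX1, hs, y, V₀, hy0, hV₀, hly, hn1, hn2, hn3, hn4, hn5, hn6, hn7⟩ := hnum X s hX hsX hs'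
  obtain ⟨S, hS⟩ : ∃ S, S = min 1 (C₂ * s) := ⟨_, rfl⟩
  rw [← hS] at hn1 hn2 hn3 hn4 hn5 hn6
  have hS0 : 0 < S := by rw [hS]; exact lt_min one_pos (by (clear * - hC₂ hs; positivity))
  have hS1 : S ≤ 1 := by rw [hS]; exact min_le_left _ _
  have hSC : S ≤ C₂ * s := by rw [hS]; exact min_le_right _ _
  have hy1 : 1 < y := by
    by_contra hne
    push Not at hne
    have := Real.log_nonpos hy0.le hne
    linarith only [hly, this]
  have hbase := caseB_base hθ hθ1 hc₀ hτ hC₂ hbohr hs hs' hS hy1 hn5 hn6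
  set P : Finset ℕ := (Icc 1 N).filter Nat.Prime with hPdef
  have hP : ∀ p ∈ P, p.Prime := fun p hp => (mem_filter.1 hp).2
  have hxlt : ∀ p : ℕ, p.Prime → xB S y p < 1 := by
    intro p hp
    obtain ⟨h1, h2⟩ := xB_le hS0 hly hp
    by_cases hpy : (p : ℝ) ≤ y
    · have h3 := (BqB_bounds (S := S) hly hp hpy).2.2.2
      have h4 : ((1 / 2 : ℝ)) ^ (1 / 2 : ℝ) < 1 :=
        Real.rpow_lt_one (by norm_num) (by norm_num) (by norm_num)
      linarith only [h2, h3, h4]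
    · have h3 := (BqB_large hS0 hB₀ hy0 hn1 hpy).1
      linarith only [hB₀1, h2, h3]
  have hB0 : ∀ p : ℕ, p.Prime → 0 ≤ (BqB S y p) ^ (1 - (3 / 5 : ℝ)) := by
    intro p hp
    obtain ⟨h1, h2⟩ := xB_le hS0 hly hp
    exact Real.rpow_nonneg (by linarith only [h1, h2]) _
  have hg : ∀ p : ℕ, p.Prime → ∀ a b l : ℕ, 0 < a → 0 < b →
      KB (3 / 5) S y (a * p ^ l) b ≤ ((BqB S y p) ^ (1 - (3 / 5 : ℝ))) ^ l * KB (3 / 5) S y a b := by
    intro p hp a b l ha hb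
    rw [KB_grow hp a b l ha hb, BqB_eq hS0 hp]
  have hF0 : 0 ≤ ∑ q ∈ Icc 1 N, f q := sum_nonneg fun q _ => (hf q).1
  have hw : ∀ q, 0 ≤ f q ∧ f q ≤ (2 * ψ q) * ∏ p ∈ P with p ∣ q, (1 - xB S y p) := by
    intro q
    refine ⟨(hf q).1, ?_⟩
    have hprod0 : 0 ≤ ∏ p ∈ P with p ∣ q, (1 - xB S y p) := by
      refine prod_nonneg fun p hp => ?_
      have := hxlt p (hP p (mem_filter.1 hp).1)
      linarith only [this]
    by_cases h0 : f q = 0
    · rw [h0]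
      have := hψ q
      (clear * - this hprod0; positivity)
    · obtain ⟨hq1, hq2, hq3⟩ := hsupp q h0
      have hq : 0 < q := by
        rcases Nat.eq_zero_or_pos q with rfl | h
        · simp only [CharP.cast_eq_zero] at hq1
          linarith only [hX1, hq1]
        · exact h
      have h1 := weightB hS0 hy0 hn2 hq (hn4 q hq hq2) P hP
      calc f q ≤ ψ q * (q.totient / q) := (hf q).2
        _ ≤ ψ q * (2 * ∏ p ∈ P with p ∣ q, (1 - xB S y p)) :=
            mul_le_mul_of_nonneg_left h1 (hψ q)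
        _ = (2 * ψ q) * ∏ p ∈ P with p ∣ q, (1 - xB S y p) := by ring
  have hL := theoremL (OmB γ V₀ s) hθ hθ1 (KB (3 / 5) S y)
    (fun a b => KB_nonneg hθ1 hS0 hS1 hy1 a b) hbase P hP
    (fun p => (BqB S y p) ^ (1 - (3 / 5 : ℝ))) (xB S y) (cB (3 / 5) B₀ C S y)
    (fun p hp => hB0 p (hP p hp))
    (fun p hp => ⟨(xB_le hS0 hly (hP p hp)).1.le, hxlt p (hP p hp)⟩)
    (fun p hp => cB_nonneg hθ1 hB₀ hC hS0 hy0 hly hn1 (hP p hp))
    (fun p hp a b l ha hb => hg p (hP p hp) a b l ha hb)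
    (fun p hp a b l ha hb => by
      rw [KB_comm _ _ _ a, KB_comm _ _ _ a b]
      exact hg p (hP p hp) b a l hb ha)
    (fun p hp => SP_cB hθ hθ1 hB₀ hSPs hS0 hy0 hly hn1 (hP p hp))
    1 1 one_pos one_pos (fun q => 2 * ψ q) (fun q => 2 * ψ q) f f (2 * s) (2 * s) N
    (by (clear * - hs; positivity)) (by positivity) (fun q => by have := hψ q; (clear * - this; positivity))
    (fun q => by have := hψ q; (clear * - this; positivity)) hw hw
  have hmono : psum (fun q r => Rel γ ψ s q r ∧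
          s / 2 < max ((cofac r q : ℝ) * ψ q) ((cofac q r : ℝ) * ψ r)) N f f ≤
      Lam (OmB γ V₀ s) P 1 1 (fun q => 2 * ψ q) (fun q => 2 * ψ q) (2 * s) (2 * s) N f f := by
    unfold Lam
    refine psum_mono _ _ N f f f f (fun q => (hf q).1) (fun q => (hf q).1) ?_
    intro q hq r hr hqr hne
    obtain ⟨⟨hr1, hr2, hr3, hr4⟩, hmax⟩ := hqr
    have hfq : f q ≠ 0 := left_ne_zero_of_mul hne
    have hfr : f r ≠ 0 := right_ne_zero_of_mul hne
    obtain ⟨-, -, hψq⟩ := hsupp q hfq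
    obtain ⟨-, -, hψr⟩ := hsupp r hfr
    refine ⟨⟨?_, ⟨?_, ?_⟩, ?_, ?_⟩, le_rfl⟩
    · intro p hp hpd
      rw [mem_Icc] at hq
      have h1 : p ∣ q := hpd.trans (Nat.gcd_dvd_left q r)
      have h2 : p ≤ q := Nat.le_of_dvd (by omega) h1
      simp only [hPdef, mem_filter, mem_Icc]
      exact ⟨⟨hp.one_lt.le, by omega⟩, hp⟩
    · rw [one_mul, one_mul]
      set m : ℝ := max (cofac q r : ℝ) (cofac r q : ℝ) with hm
      have hm1 : (cofac q r : ℝ) ≤ m := le_max_left _ _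
      have hm2 : (cofac r q : ℝ) ≤ m := le_max_right _ _
      have hm0 : 0 ≤ m := le_trans (Nat.cast_nonneg _) hm1
      have h1 : max ((cofac r q : ℝ) * ψ q) ((cofac q r : ℝ) * ψ r) ≤
          m * Real.exp (-(Real.log (Real.log X)) ^ (2 + δ)) := by
        refine max_le ?_ ?_
        · exact mul_le_mul hm2 hψq (hψ q) hm0
        · exact mul_le_mul hm1 hψr (hψ r) hm0
      have h2 : s / 2 ≤ m * Real.exp (-(Real.log (Real.log X)) ^ (2 + δ)) := hmax.le.trans h1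
      refine hn7.trans ?_
      calc s / 2 * Real.exp ((Real.log (Real.log X)) ^ (2 + δ))
          ≤ (m * Real.exp (-(Real.log (Real.log X)) ^ (2 + δ))) *
            Real.exp ((Real.log (Real.log X)) ^ (2 + δ)) :=
            mul_le_mul_of_nonneg_right h2 (Real.exp_pos _).le
        _ = m := by
            rw [mul_assoc, ← Real.exp_add, neg_add_cancel, Real.exp_zero, mul_one]
    · rw [one_mul, one_mul]
      exact hr4
    · push_cast
      linarith only [hr2]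
    · push_cast
      linarith only [hr3]
  refine hmono.trans (hL.trans ?_)
  have hK11 : KB (3 / 5) S y 1 1 = (16 : ℝ) ^ (1 - (3 / 5 : ℝ)) * S ^ (1 - (3 / 5 : ℝ)) := by
    unfold KB
    rw [mm_one]
    norm_num
  rw [hK11]
  have hpr := hprod S y hS0 hS1 hy0 hly hn1 hn3 P hP
  have hFF : ((∑ q ∈ Icc 1 N, f q) * ∑ r ∈ Icc 1 N, f r) ^ (3 / 5 : ℝ) =
      (∑ q ∈ Icc 1 N, f q) ^ (2 * (3 / 5 : ℝ)) := by
    rw [← sq, ← Real.rpow_natCast, ← Real.rpow_mul hF0]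
    norm_num
  rw [hFF]
  have hSpow : S ^ (1 - (3 / 5 : ℝ)) ≤ (C₂ * s) ^ (1 - (3 / 5 : ℝ)) :=
    Real.rpow_le_rpow hS0.le hSC (by norm_num)
  have hall : (2 * s * (2 * s)) ^ (1 - (3 / 5 : ℝ)) *
      ((16 : ℝ) ^ (1 - (3 / 5 : ℝ)) * (C₂ * s) ^ (1 - (3 / 5 : ℝ))) =
      (64 * C₂) ^ (2 / 5 : ℝ) * s ^ (1 + 1 / 5 : ℝ) := by
    rw [← Real.mul_rpow (by positivity) (by (clear * - hC₂ hs; positivity)),
      ← Real.mul_rpow (by (clear * - hs; positivity)) (by (clear * - hC₂ hs; positivity))]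
    rw [show (2 * s * (2 * s)) * (16 * (C₂ * s)) = (64 * C₂) * s ^ 3 by ring,
      Real.mul_rpow (by positivity) (by (clear * - hs; positivity)), ← Real.rpow_natCast s 3,
      ← Real.rpow_mul hs.le]
    norm_num
  calc (∏ p ∈ P, cB (3 / 5) B₀ C S y p) * (2 * s * (2 * s)) ^ (1 - (3 / 5 : ℝ)) *
        ((16 : ℝ) ^ (1 - (3 / 5 : ℝ)) * S ^ (1 - (3 / 5 : ℝ))) *
        (∑ q ∈ Icc 1 N, f q) ^ (2 * (3 / 5 : ℝ))
      ≤ K₀ * (2 * s * (2 * s)) ^ (1 - (3 / 5 : ℝ)) *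
        ((16 : ℝ) ^ (1 - (3 / 5 : ℝ)) * (C₂ * s) ^ (1 - (3 / 5 : ℝ))) *
        (∑ q ∈ Icc 1 N, f q) ^ (2 * (3 / 5 : ℝ)) := by
        have h1 : 0 ≤ (2 * s * (2 * s)) ^ (1 - (3 / 5 : ℝ)) := by (clear * - hs; positivity)
        have h2 : 0 ≤ (16 : ℝ) ^ (1 - (3 / 5 : ℝ)) := by positivity
        refine mul_le_mul_of_nonneg_right ?_ (by (clear * - hF0; positivity))
        refine mul_le_mul ?_ ?_ (by (clear * - hS0; positivity)) (by (clear * - hK₀ hs; positivity))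
        · exact mul_le_mul_of_nonneg_right hpr h1
        · exact mul_le_mul_of_nonneg_left hSpow h2
    _ = K₀ * ((2 * s * (2 * s)) ^ (1 - (3 / 5 : ℝ)) *
        ((16 : ℝ) ^ (1 - (3 / 5 : ℝ)) * (C₂ * s) ^ (1 - (3 / 5 : ℝ)))) *
        (∑ q ∈ Icc 1 N, f q) ^ (2 * (3 / 5 : ℝ)) := by ring
    _ = K₀ * (64 * C₂) ^ (2 / 5 : ℝ) * s ^ (1 + 1 / 5 : ℝ) *
        (∑ q ∈ Icc 1 N, f q) ^ (2 * (3 / 5 : ℝ)) := by rw [hall]; ring

end Vale.P028
end

section

/-!
# Core estimate: one of the cofactors is `≥ exp (A (log log X) log (1/s))`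
-/

namespace Vale.P028

open Finset

theorem numC1 {E ε₁ : ℝ} (hE : E = 2 / ε₁) (hε₁ : 0 < ε₁)
    {X s : ℝ} (hX : Real.exp (Real.exp 4) ≤ X)
    (hs : (18 * Real.log X) ^ (-1 / ε₁) ≤ s) :
    1 ≤ X ∧ 4 ≤ Real.log (Real.log X) ∧ Real.log X = Real.exp (Real.log (Real.log X)) ∧
    36 ≤ Real.log X ∧ 0 < s ∧ -(E * Real.log (Real.log X)) ≤ Real.log s := by
  have h := numB1 (A := 1 / 4) (δ := 1) hE hε₁ one_pos (by (clear * -; norm_num)) (X := X) (s := s) (by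
    refine le_trans (le_of_eq ?_) hX
    congr 2
    norm_num) hs
  obtain ⟨h1, h2, h3, h4, h5, h6, -⟩ := h
  exact ⟨h1, h2, h3, h4, h5, h6⟩

theorem numC2 {τ C₄ c₁ l A t logS logs : ℝ} (hτ : 1 ≤ τ) (hC₄0 : 0 < C₄)
    (hA : A = (τ + 1) * (C₄ + 1) + |c₁|) (hl4 : 4 ≤ l) (ht : 1 ≤ t)
    (hlogs : logs = -t) (hlogS : -t ≤ logS) {w : ℝ} (hw : A * l * t ≤ w) :
    (-logS * (C₄ * l) - logs) * τ + -logS * (C₄ * l) ≤ c₁ + w ∧
    -logS * (C₄ * l) - logs ≤ w := by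
  have h1 : -logS * (C₄ * l) ≤ t * (C₄ * l) :=
    mul_le_mul_of_nonneg_right (by linarith only [hlogS]) (by positivity)
  have hlt : 1 ≤ l * t := by nlinarith only [hl4, ht]
  have htl : t ≤ l * t := le_mul_of_one_le_left (by linarith only [ht]) (by linarith only [hl4])
  have h2 : -logS * (C₄ * l) - logs ≤ (C₄ + 1) * (l * t) := by
    have h3 : (C₄ + 1) * (l * t) = t * (C₄ * l) + l * t := by ring
    rw [hlogs]
    linarith only [h1, htl]
  have h3 : (-logS * (C₄ * l) - logs) * τ ≤ (C₄ + 1) * (l * t) * τ :=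
    mul_le_mul_of_nonneg_right h2 (by linarith only [hτ])
  have h4 : -|c₁| ≤ c₁ := neg_abs_le _
  have h5 : |c₁| ≤ |c₁| * (l * t) := le_mul_of_one_le_right (abs_nonneg _) hlt
  have h6 : A * l * t = (C₄ + 1) * (l * t) * τ + C₄ * (l * t) + l * t +
      |c₁| * (l * t) := by rw [hA]; ring
  have h7 : 0 ≤ (C₄ + 1) * (l * t) * τ := by positivity
  have h8 : 0 ≤ |c₁| * (l * t) := by positivity
  have h9 : 0 ≤ C₄ * (l * t) := by positivity
  have h11 : t * (C₄ * l) = C₄ * (l * t) := by ring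
  have h12 : (C₄ + 1) * (l * t) = C₄ * (l * t) + l * t := by ring
  refine ⟨?_, ?_⟩ <;> linarith only [hlogs, hw, h1, htl, h6, h7, h8, hlt, h3, h4, h5]

/-- numerical conditions of the core estimate -/
theorem numC {c₀ τ C₂ B₀ ε₁ : ℝ} (hc₀ : 0 < c₀) (hτ : 1 ≤ τ) (hC₂ : 1 ≤ C₂) (hB₀ : 0 < B₀)
    (hε₁ : 0 < ε₁) :
    ∃ A X₀ : ℝ, 0 < A ∧ ∀ X s : ℝ, X₀ ≤ X → (18 * Real.log X) ^ (-1 / ε₁) ≤ s → s ≤ 1 / 4 →
      1 ≤ X ∧ 0 < s ∧ ∃ y : ℝ, 0 < y ∧ 2 ≤ Real.log y ∧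
        1 ≤ min 1 (C₂ * s) * y * B₀ ∧ 1 ≤ min 1 (C₂ * s) * y ∧
        (min 1 (C₂ * s)) ^ (-(2 * (3 / 5 : ℝ))) ≤ y ^ ((3 / 5 : ℝ) - 1 / 2) ∧
        (∀ q : ℕ, 0 < q → (q : ℝ) ≤ X ^ 9 → 4 * Real.log q ≤ min 1 (C₂ * s) * y) ∧
        ∀ V₀ : ℝ, Real.exp (A * Real.log (Real.log X) * Real.log (1 / s)) ≤ V₀ →
        ((min 1 (C₂ * s)) ^ (-Real.log y) / s) ^ τ * (min 1 (C₂ * s)) ^ (-Real.log y) ≤
          c₀ * V₀ ∧
        (min 1 (C₂ * s)) ^ (-Real.log y) / s ≤ V₀ := by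
  have hE0 : 0 < 2 / ε₁ := by positivity
  obtain ⟨E, hE⟩ : ∃ E, E = 2 / ε₁ := ⟨_, rfl⟩
  rw [← hE] at hE0
  obtain ⟨C₄, hC₄⟩ : ∃ C₄, C₄ = 12 * E + |Real.log B₀| + 5 := ⟨_, rfl⟩
  have hC₄0 : 0 < C₄ := by rw [hC₄]; (clear * - hE0; positivity)
  obtain ⟨A, hA⟩ : ∃ A, A = (τ + 1) * (C₄ + 1) + |Real.log c₀| := ⟨_, rfl⟩
  have hA0 : 0 < A := by rw [hA]; positivity
  refine ⟨A, Real.exp (Real.exp 4), hA0, ?_⟩
  intro X s hX hs hs'
  obtain ⟨hX1, hl4, hLe, h36, hs0, hlogs⟩ := numC1 hE hε₁ hX hs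
  generalize hl : Real.log (Real.log X) = l at hl4 hLe hlogs ⊢
  have hlogs' : Real.log s ≤ 0 := Real.log_nonpos hs0.le (by linarith only [hs'])
  obtain ⟨S, hS⟩ : ∃ S, S = min 1 (C₂ * s) := ⟨_, rfl⟩
  rw [← hS]
  have hSs : s ≤ S := by
    rw [hS]
    refine le_min (by linarith only [hs']) ?_
    nlinarith only [hC₂, hs0]
  have hS0 : 0 < S := lt_of_lt_of_le hs0 hSs
  have hS1 : S ≤ 1 := by rw [hS]; exact min_le_left _ _
  have hlogSs : Real.log s ≤ Real.log S := Real.log_le_log hs0 hSs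
  have hlogS : -(E * l) ≤ Real.log S := hlogs.trans hlogSs
  have hly : Real.log (Real.exp (C₄ * l)) = C₄ * l := Real.log_exp _
  have hEl : 0 ≤ E * l := by (clear * - hE0 hl4; positivity)
  have hBl : |Real.log B₀| ≤ |Real.log B₀| * l :=
    le_mul_of_one_le_right (abs_nonneg _) (by linarith only [hl4])
  have hC4l : C₄ * l = 12 * (E * l) + |Real.log B₀| * l + 5 * l := by rw [hC₄]; ring
  have hB₀l : 0 ≤ |Real.log B₀| * l := by (clear * - hl4; positivity)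
  have hSy5 : Real.exp (5 * l) ≤ S * Real.exp (C₄ * l) := by
    calc Real.exp (5 * l) ≤ Real.exp (Real.log S + C₄ * l) := by
          apply Real.exp_le_exp.2
          linarith only [hlogs, hlogs', hlogSs, hC4l, hB₀l]
      _ = S * Real.exp (C₄ * l) := by rw [Real.exp_add, Real.exp_log hS0]
  have ht1 : 1 ≤ Real.log (1 / s) := by
    have h1 : Real.log 4 ≤ Real.log (1 / s) := by
      apply Real.log_le_log (by norm_num)
      rw [le_div_iff₀ hs0]
      linarith only [hs']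
    have h2 : Real.log 4 = 2 * Real.log 2 := by
      rw [show (4 : ℝ) = 2 ^ 2 by norm_num, Real.log_pow]
      norm_num
    have := Real.log_two_gt_d9
    linarith only [h1, h2, this]
  have hlogt : Real.log s = -Real.log (1 / s) := by
    rw [one_div, Real.log_inv, neg_neg]
  have hZ : S ^ (-Real.log (Real.exp (C₄ * l))) = Real.exp (-Real.log S * (C₄ * l)) := by
    rw [Real.rpow_def_of_pos hS0, hly]
    congr 1
    ring
  have hZs : Real.exp (-Real.log S * (C₄ * l)) / s =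
      Real.exp (-Real.log S * (C₄ * l) - Real.log s) := by
    rw [Real.exp_sub, Real.exp_log hs0]
  refine ⟨hX1, hs0, Real.exp (C₄ * l), Real.exp_pos _, ?_, ?_, ?_, ?_, ?_, ?_⟩
  · rw [hly]
    (clear * - hs' hs0 hl4 hlogs hC4l hB₀l ht1 hlogt; linarith)
  · calc (1 : ℝ) ≤ Real.exp (Real.log S + C₄ * l + Real.log B₀) := by
          apply Real.one_le_exp
          have := neg_abs_le (Real.log B₀)
          linarith only [hl4, hlogs, hlogSs, hBl, hC4l, ht1, hlogt, this]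
      _ = S * Real.exp (C₄ * l) * B₀ := by
          rw [Real.exp_add, Real.exp_add, Real.exp_log hS0, Real.exp_log hB₀]
  · refine le_trans ?_ hSy5
    exact Real.one_le_exp (by linarith only [hl4])
  · rw [Real.rpow_def_of_pos hS0, Real.rpow_def_of_pos (Real.exp_pos _), hly]
    apply Real.exp_le_exp.2
    linarith only [hl4, hlogs, hlogSs, hC4l, hB₀l]
  · intro q hq hqX
    refine le_trans ?_ hSy5
    have hq' : (0 : ℝ) < q := by exact_mod_cast hq
    have h1 := Real.log_le_log hq' hqX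
    rw [Real.log_pow] at h1
    push_cast at h1
    have h2 : Real.exp (5 * l) = (Real.log X) ^ 5 := by
      rw [hLe, ← Real.exp_nat_mul]
      norm_num
    rw [h2]
    have h3 : 36 * Real.log X ≤ (Real.log X) ^ 2 := by nlinarith only [h36]
    have h4 : (Real.log X) ^ 2 ≤ (Real.log X) ^ 5 := pow_le_pow_right₀ (by linarith only [h36]) (by norm_num)
    linarith only [h1, h3, h4]
  · intro V₀ hV₀
    obtain ⟨hn1, hn2⟩ := numC2 (logS := Real.log S) hτ hC₄0 hA hl4 ht1 hlogt (by linarith only [hlogSs, hlogt])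
      (w := A * l * Real.log (1 / s)) le_rfl
    constructor
    · rw [hZ, hZs, ← Real.exp_mul, ← Real.exp_add]
      calc Real.exp ((-Real.log S * (C₄ * l) - Real.log s) * τ + -Real.log S * (C₄ * l))
          ≤ Real.exp (Real.log c₀ + A * l * Real.log (1 / s)) := Real.exp_le_exp.2 hn1
        _ = c₀ * Real.exp (A * l * Real.log (1 / s)) := by rw [Real.exp_add, Real.exp_log hc₀]
        _ ≤ c₀ * V₀ := mul_le_mul_of_nonneg_left hV₀ hc₀.le
    · rw [hZ, hZs]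
      exact (Real.exp_le_exp.2 hn2).trans hV₀

/-- core estimate. -/
theorem caseB_core {γ c₀ τ : ℝ} (hc₀ : 0 < c₀) (hτ : 1 ≤ τ) (hD : Dioph γ c₀ τ) {ε₁ : ℝ}
    (hε₁ : 0 < ε₁) :
    ∃ A C X₀ : ℝ, 0 < A ∧ 0 < C ∧
      ∀ X s V₀ : ℝ, X₀ ≤ X → (18 * Real.log X) ^ (-1 / ε₁) ≤ s → s ≤ 1 / 4 →
        Real.exp (A * Real.log (Real.log X) * Real.log (1 / s)) ≤ V₀ →
      ∀ (N : ℕ) (ψ f : ℕ → ℝ), (∀ q, 0 ≤ ψ q) →
        (∀ q, 0 ≤ f q ∧ f q ≤ ψ q * (q.totient / q)) →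
        (∀ q, f q ≠ 0 → X ≤ q ∧ (q : ℝ) ≤ X ^ 9) →
        psum (fun q r => Rel γ ψ s q r ∧ V₀ ≤ max (cofac q r : ℝ) (cofac r q : ℝ)) N f f ≤
        C * s ^ (1 + 1 / 5 : ℝ) * (∑ q ∈ Icc 1 N, f q) ^ (2 * (3 / 5 : ℝ)) := by
  classical
  have hθ : (1 / 2 : ℝ) < 3 / 5 := by norm_num
  have hθ1 : (3 / 5 : ℝ) < 1 := by norm_num
  obtain ⟨C₂, hC₂, hbohr⟩ := bohr_count hc₀ hτ hD
  obtain ⟨B₀, hB₀, C, hC, hB₀1, hSPs⟩ := SP_small hθ hθ1
  obtain ⟨K₀, hK₀, hprod⟩ := prod_cB (C := C) hθ hθ1 hB₀ hC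
  obtain ⟨A, X₀, hA, hnum⟩ := numC hc₀ hτ hC₂ hB₀ hε₁
  refine ⟨A, K₀ * (64 * C₂) ^ (2 / 5 : ℝ), X₀, hA, by (clear * - hK₀ hC₂; positivity), ?_⟩
  intro X s V₀ hX hsX hs' hV₀ N ψ f hψ hf hsupp
  obtain ⟨hX1, hs, y, hy0, hly, hn1, hn2, hn3, hn4, hn56⟩ := hnum X s hX hsX hs'
  obtain ⟨hn5, hn6⟩ := hn56 V₀ hV₀
  obtain ⟨S, hS⟩ : ∃ S, S = min 1 (C₂ * s) := ⟨_, rfl⟩
  rw [← hS] at hn1 hn2 hn3 hn4 hn5 hn6
  have hS0 : 0 < S := by rw [hS]; exact lt_min one_pos (by (clear * - hC₂ hs; positivity))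
  have hS1 : S ≤ 1 := by rw [hS]; exact min_le_left _ _
  have hSC : S ≤ C₂ * s := by rw [hS]; exact min_le_right _ _
  have hy1 : 1 < y := by
    by_contra hne
    push Not at hne
    have := Real.log_nonpos hy0.le hne
    linarith only [hly, this]
  have hbase := caseB_base hθ hθ1 hc₀ hτ hC₂ hbohr hs hs' hS hy1 hn5 hn6
  set P : Finset ℕ := (Icc 1 N).filter Nat.Prime with hPdef
  have hP : ∀ p ∈ P, p.Prime := fun p hp => (mem_filter.1 hp).2
  have hxlt : ∀ p : ℕ, p.Prime → xB S y p < 1 := by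
    intro p hp
    obtain ⟨h1, h2⟩ := xB_le hS0 hly hp
    by_cases hpy : (p : ℝ) ≤ y
    · have h3 := (BqB_bounds (S := S) hly hp hpy).2.2.2
      have h4 : ((1 / 2 : ℝ)) ^ (1 / 2 : ℝ) < 1 :=
        Real.rpow_lt_one (by norm_num) (by norm_num) (by norm_num)
      linarith only [h2, h3, h4]
    · have h3 := (BqB_large hS0 hB₀ hy0 hn1 hpy).1
      linarith only [hB₀1, h2, h3]
  have hB0 : ∀ p : ℕ, p.Prime → 0 ≤ (BqB S y p) ^ (1 - (3 / 5 : ℝ)) := by
    intro p hp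
    obtain ⟨h1, h2⟩ := xB_le hS0 hly hp
    exact Real.rpow_nonneg (by linarith only [h1, h2]) _
  have hg : ∀ p : ℕ, p.Prime → ∀ a b l : ℕ, 0 < a → 0 < b →
      KB (3 / 5) S y (a * p ^ l) b ≤ ((BqB S y p) ^ (1 - (3 / 5 : ℝ))) ^ l * KB (3 / 5) S y a b := by
    intro p hp a b l ha hb
    rw [KB_grow hp a b l ha hb, BqB_eq hS0 hp]
  have hF0 : 0 ≤ ∑ q ∈ Icc 1 N, f q := sum_nonneg fun q _ => (hf q).1
  have hw : ∀ q, 0 ≤ f q ∧ f q ≤ (2 * ψ q) * ∏ p ∈ P with p ∣ q, (1 - xB S y p) := by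
    intro q
    refine ⟨(hf q).1, ?_⟩
    have hprod0 : 0 ≤ ∏ p ∈ P with p ∣ q, (1 - xB S y p) := by
      refine prod_nonneg fun p hp => ?_
      have := hxlt p (hP p (mem_filter.1 hp).1)
      linarith only [this]
    by_cases h0 : f q = 0
    · rw [h0]
      have := hψ q
      (clear * - this hprod0; positivity)
    · obtain ⟨hq1, hq2⟩ := hsupp q h0
      have hq : 0 < q := by
        rcases Nat.eq_zero_or_pos q with rfl | h
        · simp only [CharP.cast_eq_zero] at hq1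
          linarith only [hX1, hq1]
        · exact h
      have h1 := weightB hS0 hy0 hn2 hq (hn4 q hq hq2) P hP
      calc f q ≤ ψ q * (q.totient / q) := (hf q).2
        _ ≤ ψ q * (2 * ∏ p ∈ P with p ∣ q, (1 - xB S y p)) :=
            mul_le_mul_of_nonneg_left h1 (hψ q)
        _ = (2 * ψ q) * ∏ p ∈ P with p ∣ q, (1 - xB S y p) := by ring
  have hL := theoremL (OmB γ V₀ s) hθ hθ1 (KB (3 / 5) S y)
    (fun a b => KB_nonneg hθ1 hS0 hS1 hy1 a b) hbase P hP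
    (fun p => (BqB S y p) ^ (1 - (3 / 5 : ℝ))) (xB S y) (cB (3 / 5) B₀ C S y)
    (fun p hp => hB0 p (hP p hp))
    (fun p hp => ⟨(xB_le hS0 hly (hP p hp)).1.le, hxlt p (hP p hp)⟩)
    (fun p hp => cB_nonneg hθ1 hB₀ hC hS0 hy0 hly hn1 (hP p hp))
    (fun p hp a b l ha hb => hg p (hP p hp) a b l ha hb)
    (fun p hp a b l ha hb => by
      rw [KB_comm _ _ _ a, KB_comm _ _ _ a b]
      exact hg p (hP p hp) b a l hb ha)
    (fun p hp => SP_cB hθ hθ1 hB₀ hSPs hS0 hy0 hly hn1 (hP p hp))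
    1 1 one_pos one_pos (fun q => 2 * ψ q) (fun q => 2 * ψ q) f f (2 * s) (2 * s) N
    (by (clear * - hs; positivity)) (by (clear * - hs; positivity)) (fun q => by have := hψ q; (clear * - this; positivity))
    (fun q => by have := hψ q; (clear * - this; positivity)) hw hw
  have hmono : psum (fun q r => Rel γ ψ s q r ∧ V₀ ≤ max (cofac q r : ℝ) (cofac r q : ℝ)) N f f ≤
      Lam (OmB γ V₀ s) P 1 1 (fun q => 2 * ψ q) (fun q => 2 * ψ q) (2 * s) (2 * s) N f f := by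
    unfold Lam
    refine psum_mono _ _ N f f f f (fun q => (hf q).1) (fun q => (hf q).1) ?_
    intro q hq r hr hqr hne
    obtain ⟨⟨hr1, hr2, hr3, hr4⟩, hmax⟩ := hqr
    refine ⟨⟨?_, ⟨?_, ?_⟩, ?_, ?_⟩, le_rfl⟩
    · intro p hp hpd
      rw [mem_Icc] at hq
      have h1 : p ∣ q := hpd.trans (Nat.gcd_dvd_left q r)
      have h2 : p ≤ q := Nat.le_of_dvd (by (clear * - hq; omega)) h1
      simp only [hPdef, mem_filter, mem_Icc]
      exact ⟨⟨hp.one_lt.le, by omega⟩, hp⟩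
    · rw [one_mul, one_mul]
      exact hmax
    · rw [one_mul, one_mul]
      exact hr4
    · push_cast
      linarith only [hr2]
    · push_cast
      linarith only [hr3]
  refine hmono.trans (hL.trans ?_)
  have hK11 : KB (3 / 5) S y 1 1 = (16 : ℝ) ^ (1 - (3 / 5 : ℝ)) * S ^ (1 - (3 / 5 : ℝ)) := by
    unfold KB
    rw [mm_one]
    norm_num
  rw [hK11]
  have hpr := hprod S y hS0 hS1 hy0 hly hn1 hn3 P hP
  have hFF : ((∑ q ∈ Icc 1 N, f q) * ∑ r ∈ Icc 1 N, f r) ^ (3 / 5 : ℝ) =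
      (∑ q ∈ Icc 1 N, f q) ^ (2 * (3 / 5 : ℝ)) := by
    rw [← sq, ← Real.rpow_natCast, ← Real.rpow_mul hF0]
    norm_num
  rw [hFF]
  have hSpow : S ^ (1 - (3 / 5 : ℝ)) ≤ (C₂ * s) ^ (1 - (3 / 5 : ℝ)) :=
    Real.rpow_le_rpow hS0.le hSC (by norm_num)
  have hall : (2 * s * (2 * s)) ^ (1 - (3 / 5 : ℝ)) *
      ((16 : ℝ) ^ (1 - (3 / 5 : ℝ)) * (C₂ * s) ^ (1 - (3 / 5 : ℝ))) =
      (64 * C₂) ^ (2 / 5 : ℝ) * s ^ (1 + 1 / 5 : ℝ) := by
    rw [← Real.mul_rpow (by positivity) (by (clear * - hC₂ hs; positivity)),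
      ← Real.mul_rpow (by (clear * - hs; positivity)) (by (clear * - hC₂ hs; positivity))]
    rw [show (2 * s * (2 * s)) * (16 * (C₂ * s)) = (64 * C₂) * s ^ 3 by ring,
      Real.mul_rpow (by positivity) (by (clear * - hs; positivity)), ← Real.rpow_natCast s 3,
      ← Real.rpow_mul hs.le]
    norm_num
  calc (∏ p ∈ P, cB (3 / 5) B₀ C S y p) * (2 * s * (2 * s)) ^ (1 - (3 / 5 : ℝ)) *
        ((16 : ℝ) ^ (1 - (3 / 5 : ℝ)) * S ^ (1 - (3 / 5 : ℝ))) *
        (∑ q ∈ Icc 1 N, f q) ^ (2 * (3 / 5 : ℝ))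
      ≤ K₀ * (2 * s * (2 * s)) ^ (1 - (3 / 5 : ℝ)) *
        ((16 : ℝ) ^ (1 - (3 / 5 : ℝ)) * (C₂ * s) ^ (1 - (3 / 5 : ℝ))) *
        (∑ q ∈ Icc 1 N, f q) ^ (2 * (3 / 5 : ℝ)) := by
        have h1 : 0 ≤ (2 * s * (2 * s)) ^ (1 - (3 / 5 : ℝ)) := by (clear * - hs; positivity)
        have h2 : 0 ≤ (16 : ℝ) ^ (1 - (3 / 5 : ℝ)) := by positivity
        refine mul_le_mul_of_nonneg_right ?_ (by (clear * - hF0; positivity))
        refine mul_le_mul ?_ ?_ (by positivity) (by (clear * - hK₀ hs; positivity))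
        · exact mul_le_mul_of_nonneg_right hpr h1
        · exact mul_le_mul_of_nonneg_left hSpow h2
    _ = K₀ * ((2 * s * (2 * s)) ^ (1 - (3 / 5 : ℝ)) *
        ((16 : ℝ) ^ (1 - (3 / 5 : ℝ)) * (C₂ * s) ^ (1 - (3 / 5 : ℝ)))) *
        (∑ q ∈ Icc 1 N, f q) ^ (2 * (3 / 5 : ℝ)) := by ring
    _ = K₀ * (64 * C₂) ^ (2 / 5 : ℝ) * s ^ (1 + 1 / 5 : ℝ) *
        (∑ q ∈ Icc 1 N, f q) ^ (2 * (3 / 5 : ℝ)) := by rw [hall]; ring

end Vale.P028
end
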