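import Vale.Agent.P028.MathlibUsed
import Vale.Agent.P028.Bdl.B1
import Vale.Agent.P028.Bdl.B2
import Vale.Agent.P028.Bdl.B3

set_option linter.all false

section

/-!
# Tensor inequality
-/

namespace Vale.P028

open Finset

theorem ker_ad {p : ℝ} (hp : 2 ≤ p) (s : ℝ) (i j : ℕ) :
    ker p s ((i : ℤ) - j) = (p ^ (-s)) ^ ad i j := by
  rw [ker_eq hp]
  have h1 : (p⁻¹) ^ s = p ^ (-s) := by
    rw [Real.inv_rpow (by linarith only [hp]), Real.rpow_neg (by linarith only [hp])]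
  rw [h1]
  congr 1
  unfold ad
  omega

theorem SPn_all {θ μ : ℝ} (hθ : 1 / 2 < θ) (hθ1 : θ < 1) (hμ : 0 < μ) (hμ1 : μ < 1 - θ) :
    ∃ C ≥ 0, ∀ p : ℕ, p.Prime → SPn θ μ ((p : ℝ) ^ (-(1 - θ - μ))) (1 + C / p) := by
  obtain ⟨C, hC0, hC⟩ := oneDim_norm (s := 1 - θ - μ) hθ hμ (by linarith only [hμ1]) (by ring)
  refine ⟨C, hC0, ?_⟩
  intro p hp N φ χ ν hφ hχ hν
  have hp2 : (2 : ℝ) ≤ p := by exact_mod_cast hp.two_le
  have hθ0 : 0 < θ := by linarith only [hθ]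
  set I := range (N + 1) with hI
  set D := Icc (-(N : ℤ)) (N : ℤ) with hD
  set Φ := ∑ i ∈ I, φ i with hΦ
  set X := ∑ i ∈ I, χ i with hX
  set V := ∑ l ∈ D, ν l with hV
  have hΦ0 : 0 ≤ Φ := Finset.sum_nonneg fun i _ => hφ i
  have hX0 : 0 ≤ X := Finset.sum_nonneg fun i _ => hχ i
  have hV0 : 0 ≤ V := Finset.sum_nonneg fun i _ => hν i
  have hDmem : ∀ i ∈ I, ∀ j ∈ I, (i : ℤ) - j ∈ D := by
    intro i hi j hj
    rw [hI, Finset.mem_range] at hi hj
    rw [hD, Finset.mem_Icc]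
    constructor <;> omega
  have hRHS : 0 ≤ (1 + C / (p : ℝ)) * (Φ * X) ^ θ * V ^ μ := by
    have : 0 ≤ C / (p : ℝ) := by (clear * - hC0 hp2; positivity)
    have h1 : 0 ≤ (Φ * X) ^ θ := Real.rpow_nonneg (mul_nonneg hΦ0 hX0) _
    have h2 : 0 ≤ V ^ μ := Real.rpow_nonneg hV0 _
    (clear * - hC0 hp2 hΦ0 hX0 hV0; positivity)
  rcases eq_or_lt_of_le hΦ0 with h0 | hΦp
  · refine le_trans (le_of_eq ?_) hRHS
    refine Finset.sum_eq_zero fun i hi => Finset.sum_eq_zero fun j _ => ?_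
    have : φ i = 0 := (Finset.sum_eq_zero_iff_of_nonneg fun i _ => hφ i).1 h0.symm i hi
    rw [this, zero_mul, Real.zero_rpow hθ0.ne']
    ring
  rcases eq_or_lt_of_le hX0 with h0 | hXp
  · refine le_trans (le_of_eq ?_) hRHS
    refine Finset.sum_eq_zero fun i _ => Finset.sum_eq_zero fun j hj => ?_
    have : χ j = 0 := (Finset.sum_eq_zero_iff_of_nonneg fun i _ => hχ i).1 h0.symm j hj
    rw [this, mul_zero, Real.zero_rpow hθ0.ne']
    ring
  rcases eq_or_lt_of_le hV0 with h0 | hVp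
  · refine le_trans (le_of_eq ?_) hRHS
    refine Finset.sum_eq_zero fun i hi => Finset.sum_eq_zero fun j hj => ?_
    have : ν ((i : ℤ) - j) = 0 :=
      (Finset.sum_eq_zero_iff_of_nonneg fun i _ => hν i).1 h0.symm _ (hDmem i hi j hj)
    rw [this, Real.zero_rpow hμ.ne']
    ring
  have key := hC p hp2 I D (fun i => φ i / Φ) (fun i => χ i / X) (fun l => ν l / V)
    (fun i => div_nonneg (hφ i) hΦ0) (fun i => div_nonneg (hχ i) hX0)
    (fun i => div_nonneg (hν i) hV0) hDmem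
    (by rw [← Finset.sum_div, div_self hΦp.ne'])
    (by rw [← Finset.sum_div, div_self hXp.ne'])
    (by rw [← Finset.sum_div, div_self hVp.ne'])
  have hF : 0 ≤ (Φ * X) ^ θ * V ^ μ :=
    mul_nonneg (Real.rpow_nonneg (mul_nonneg hΦ0 hX0) _) (Real.rpow_nonneg hV0 _)
  have hmul := mul_le_mul_of_nonneg_left key hF
  refine le_trans (le_of_eq ?_) (hmul.trans (le_of_eq ?_))
  · rw [Finset.mul_sum]
    refine Finset.sum_congr rfl fun i hi => ?_
    rw [Finset.mul_sum]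
    refine Finset.sum_congr rfl fun j hj => ?_
    rw [ker_ad hp2, Real.div_rpow (hφ i) hΦ0, Real.div_rpow (hχ j) hX0, Real.div_rpow (hν _) hV0,
      Real.mul_rpow hΦ0 hX0, Real.mul_rpow (hφ i) (hχ j)]
    have n1 : Φ ^ θ ≠ 0 := (Real.rpow_pos_of_pos hΦp _).ne'
    have n2 : X ^ θ ≠ 0 := (Real.rpow_pos_of_pos hXp _).ne'
    have n3 : V ^ μ ≠ 0 := (Real.rpow_pos_of_pos hVp _).ne'
    (clear * - n1 n2 n3 hp2; field_simp)
  · ring

/-- Splitting a sum over `[1,N]` according to the power of `p`. -/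
theorem sum_split_prime {p : ℕ} (hp : p.Prime) (N : ℕ) (g : ℕ → ℝ) :
    ∑ q ∈ Icc 1 N, g q = ∑ i ∈ range (N + 1), ∑ q ∈ Icc 1 N,
      if ¬ p ∣ q ∧ p ^ i * q ≤ N then g (p ^ i * q) else 0 := by
  rw [← Finset.sum_product' (range (N + 1)) (Icc 1 N)
    (fun i q => if ¬ p ∣ q ∧ p ^ i * q ≤ N then g (p ^ i * q) else 0), ← Finset.sum_filter]
  refine Finset.sum_nbij' (fun q => (q.factorization p, q / p ^ (q.factorization p)))
    (fun x => p ^ x.1 * x.2) ?_ ?_ ?_ ?_ ?_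
  · intro q hq
    rw [Finset.mem_Icc] at hq
    have hq0 : q ≠ 0 := by omega
    have h1 : q.factorization p < q := Nat.factorization_lt p hq0
    have h2 : 0 < q / p ^ q.factorization p := Nat.ordCompl_pos p hq0
    have h3 : q / p ^ q.factorization p ≤ q := Nat.div_le_self _ _
    have h4 : ¬ p ∣ q / p ^ q.factorization p := Nat.not_dvd_ordCompl hp hq0
    have h5 : p ^ q.factorization p * (q / p ^ q.factorization p) = q :=
      Nat.ordProj_mul_ordCompl_eq_self q p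
    simp only [Finset.mem_filter, Finset.mem_product, Finset.mem_range, Finset.mem_Icc]
    refine ⟨⟨by (clear * - hq h1 h5; omega), by omega, by omega⟩, h4, ?_⟩
    rw [h5]
    omega
  · intro x hx
    simp only [Finset.mem_filter, Finset.mem_product, Finset.mem_range, Finset.mem_Icc] at hx
    rw [Finset.mem_Icc]
    have : 0 < p ^ x.1 * x.2 := Nat.mul_pos (pow_pos hp.pos _) (by omega)
    omega
  · intro q _
    exact Nat.ordProj_mul_ordCompl_eq_self q p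
  · intro x hx
    simp only [Finset.mem_filter, Finset.mem_product, Finset.mem_range, Finset.mem_Icc] at hx
    obtain ⟨⟨_, hx1, _⟩, hnd, _⟩ := hx
    have hx2 : x.2 ≠ 0 := by omega
    have hf : (p ^ x.1 * x.2).factorization p = x.1 := by
      rw [Nat.factorization_mul (pow_pos hp.pos _).ne' hx2, Finsupp.add_apply,
        hp.factorization_pow, Finsupp.single_eq_same, Nat.factorization_eq_zero_of_not_dvd hnd,
        add_zero]
    ext
    · simp only [hf]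
    · simp only [hf]
      exact Nat.mul_div_cancel_left _ (pow_pos hp.pos _)
  · intro q _
    simp only
    rw [Nat.ordProj_mul_ordCompl_eq_self q p]

theorem gcd_prime_pow_mul {p : ℕ} (hp : p.Prime) {q r : ℕ} (hq : ¬ p ∣ q) (hr : ¬ p ∣ r)
    (i j : ℕ) : Nat.gcd (p ^ i * q) (p ^ j * r) = p ^ min i j * Nat.gcd q r := by
  have cq : ∀ k : ℕ, Nat.Coprime q (p ^ k) := fun k =>
    Nat.Coprime.pow_right k ((Nat.Prime.coprime_iff_not_dvd hp).2 hq).symm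
  have cr : ∀ k : ℕ, Nat.Coprime r (p ^ k) := fun k =>
    Nat.Coprime.pow_right k ((Nat.Prime.coprime_iff_not_dvd hp).2 hr).symm
  rcases le_total i j with h | h
  · obtain ⟨k, rfl⟩ := Nat.exists_eq_add_of_le h
    rw [min_eq_left h, pow_add, mul_assoc, Nat.gcd_mul_left,
      Nat.Coprime.gcd_mul_left_cancel_right r (cq k).symm]
  · obtain ⟨k, rfl⟩ := Nat.exists_eq_add_of_le h
    rw [min_eq_right h, pow_add, mul_assoc, Nat.gcd_mul_left,
      Nat.Coprime.gcd_mul_left_cancel q (cr k).symm]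

theorem cofac_prime_pow_mul {p : ℕ} (hp : p.Prime) {q r : ℕ} (hq : ¬ p ∣ q) (hr : ¬ p ∣ r)
    (i j : ℕ) : cofac (p ^ i * q) (p ^ j * r) = p ^ (i - j) * cofac q r := by
  unfold cofac
  rw [gcd_prime_pow_mul hp hq hr]
  have h1 : p ^ i * q = p ^ min i j * (p ^ (i - j) * q) := by
    rw [← mul_assoc, ← pow_add]
    congr 2
    (clear * -; omega)
  rw [h1, Nat.mul_div_mul_left _ _ (pow_pos hp.pos _), Nat.mul_div_assoc _ (Nat.gcd_dvd_left q r)]

theorem cofac_dvd (q r : ℕ) : cofac q r ∣ q := Nat.div_dvd_of_dvd (Nat.gcd_dvd_left q r)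

theorem cofac_pos {q : ℕ} (r : ℕ) (hq : 0 < q) : 0 < cofac q r :=
  Nat.pos_of_dvd_of_pos (cofac_dvd q r) hq

theorem cofac_le {q : ℕ} (r : ℕ) (hq : 0 < q) : cofac q r ≤ q := Nat.le_of_dvd hq (cofac_dvd q r)

theorem cofac_coprime {q r : ℕ} (hq : 0 < q) : Nat.Coprime (cofac q r) (cofac r q) := by
  unfold cofac
  rw [Nat.gcd_comm r q]
  exact Nat.coprime_div_gcd_div_gcd (Nat.gcd_pos_of_pos_left r hq)

theorem gcd_mul_cofac (q r : ℕ) : Nat.gcd q r * cofac q r = q :=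
  Nat.mul_div_cancel' (Nat.gcd_dvd_left q r)

open Classical in
/-- The statement of the tensor inequality for a finite set of primes `P`. -/
def TensorStmt (θ μ : ℝ) (P : Finset ℕ) (K : ℝ) : Prop :=
  ∀ (N : ℕ) (f h : ℕ → ℝ) (z : ℕ → ℕ → ℝ), (∀ q, 0 ≤ f q) → (∀ q, 0 ≤ h q) →
    (∀ u v, 0 ≤ z u v) →
    ∑ q ∈ Icc 1 N, ∑ r ∈ Icc 1 N,
      (if (∀ l : ℕ, l.Prime → l ∣ cofac q r * cofac r q → l ∈ P) then
        (f q * h r) ^ θ * ((cofac q r : ℝ) * (cofac r q : ℝ)) ^ (-(1 - θ - μ)) *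
          (z (cofac q r) (cofac r q)) ^ μ else 0) ≤
    K * ((∑ q ∈ Icc 1 N, f q) * ∑ r ∈ Icc 1 N, h r) ^ θ *
      (∑ u ∈ Icc 1 N, ∑ v ∈ Icc 1 N, if Nat.Coprime u v then z u v else 0) ^ μ

theorem sum_mul_rpow_le {θ : ℝ} (hθ : 1 / 2 ≤ θ) (I : Finset ℕ) (f h : ℕ → ℝ)
    (hf : ∀ q, 0 ≤ f q) (hh : ∀ q, 0 ≤ h q) :
    ∑ q ∈ I, (f q * h q) ^ θ ≤ ((∑ q ∈ I, f q) * ∑ r ∈ I, h r) ^ θ := by
  have hθ0 : 0 < θ := by (clear * - hθ; linarith)
  set F := ∑ q ∈ I, f q with hF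
  set H := ∑ q ∈ I, h q with hH
  have hF0 : 0 ≤ F := Finset.sum_nonneg fun i _ => hf i
  have hH0 : 0 ≤ H := Finset.sum_nonneg fun i _ => hh i
  have hR : 0 ≤ (F * H) ^ θ := Real.rpow_nonneg (mul_nonneg hF0 hH0) _
  rcases eq_or_lt_of_le hF0 with h0 | hFp
  · refine le_trans (le_of_eq ?_) hR
    refine Finset.sum_eq_zero fun i hi => ?_
    have : f i = 0 := (Finset.sum_eq_zero_iff_of_nonneg fun i _ => hf i).1 h0.symm i hi
    rw [this, zero_mul, Real.zero_rpow hθ0.ne']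
  rcases eq_or_lt_of_le hH0 with h0 | hHp
  · refine le_trans (le_of_eq ?_) hR
    refine Finset.sum_eq_zero fun i hi => ?_
    have : h i = 0 := (Finset.sum_eq_zero_iff_of_nonneg fun i _ => hh i).1 h0.symm i hi
    rw [this, mul_zero, Real.zero_rpow hθ0.ne']
  have key : ∀ q ∈ I, (f q * h q) ^ θ ≤ (F * H) ^ θ * ((f q / F + h q / H) / 2) := by
    intro q hq
    have a0 : 0 ≤ f q / F := div_nonneg (hf q) hF0
    have b0 : 0 ≤ h q / H := div_nonneg (hh q) hH0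
    have a1 : f q / F ≤ 1 := (div_le_one hFp).2 (Finset.single_le_sum (fun i _ => hf i) hq)
    have b1 : h q / H ≤ 1 := (div_le_one hHp).2 (Finset.single_le_sum (fun i _ => hh i) hq)
    have e : f q * h q = (F * H) * ((f q / F) * (h q / H)) := by
      (clear * - hFp hHp; field_simp)
    rw [e, Real.mul_rpow (mul_nonneg hF0 hH0) (mul_nonneg a0 b0)]
    refine mul_le_mul_of_nonneg_left ?_ hR
    have hab : 0 ≤ f q / F * (h q / H) := mul_nonneg a0 b0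
    have hab1 : f q / F * (h q / H) ≤ 1 := by nlinarith only [a1, a0, b1]
    calc (f q / F * (h q / H)) ^ θ ≤ (f q / F * (h q / H)) ^ (1 / 2 : ℝ) := by
          rcases eq_or_lt_of_le hab with h | h
          · rw [← h, Real.zero_rpow hθ0.ne', Real.zero_rpow (by norm_num)]
          · exact Real.rpow_le_rpow_of_exponent_ge h hab1 hθ
      _ ≤ (f q / F + h q / H) / 2 := by
          rw [← Real.sqrt_eq_rpow, Real.sqrt_le_left (by linarith only [a0, b0])]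
          nlinarith only [sq_nonneg (f q / F - h q / H)]
  calc ∑ q ∈ I, (f q * h q) ^ θ
      ≤ ∑ q ∈ I, (F * H) ^ θ * ((f q / F + h q / H) / 2) := Finset.sum_le_sum key
    _ = (F * H) ^ θ * ((∑ q ∈ I, f q) / F / 2 + (∑ q ∈ I, h q) / H / 2) := by
        rw [← Finset.mul_sum, ← Finset.sum_div, Finset.sum_add_distrib, ← Finset.sum_div,
          ← Finset.sum_div]
        ring
    _ = (F * H) ^ θ := by
        rw [← hF, ← hH, div_self hFp.ne', div_self hHp.ne']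
        ring

theorem eq_of_cofac_eq_one {q r : ℕ} (h1 : cofac q r = 1) (h2 : cofac r q = 1) : q = r := by
  have e1 := gcd_mul_cofac q r
  have e2 := gcd_mul_cofac r q
  rw [h1, mul_one] at e1
  rw [h2, mul_one, Nat.gcd_comm] at e2
  exact e1.symm.trans e2

theorem cofac_self {q : ℕ} (hq : 0 < q) : cofac q q = 1 := by
  unfold cofac
  rw [Nat.gcd_self, Nat.div_self hq]

theorem tensorStmt_empty {θ μ : ℝ} (hθ : 1 / 2 < θ) (hμ : 0 < μ) :
    TensorStmt θ μ ∅ 1 := by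
  classical
  intro N f h z hf hh hz
  rcases Nat.eq_zero_or_pos N with hN | hN
  · subst hN
    simp only [Finset.Icc_eq_empty_of_lt (show (0 : ℕ) < 1 by norm_num), sum_empty]
    rw [Real.zero_rpow hμ.ne', mul_zero]
  have hterm : ∀ q ∈ Icc 1 N, ∑ r ∈ Icc 1 N,
      (if (∀ l : ℕ, l.Prime → l ∣ cofac q r * cofac r q → l ∈ (∅ : Finset ℕ)) then
        (f q * h r) ^ θ * ((cofac q r : ℝ) * (cofac r q : ℝ)) ^ (-(1 - θ - μ)) *
          (z (cofac q r) (cofac r q)) ^ μ else 0) = (f q * h q) ^ θ * z 1 1 ^ μ := by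
    intro q hq
    have hq0 : 0 < q := (Finset.mem_Icc.1 hq).1
    rw [Finset.sum_eq_single q]
    · rw [cofac_self hq0, if_pos]
      · simp only [Nat.cast_one, mul_one, neg_sub, Real.one_rpow]
      · intro l hl hd
        rw [mul_one, Nat.dvd_one] at hd
        exact absurd (hd ▸ hl) Nat.not_prime_one
    · intro r hr hrq
      rw [if_neg]
      intro hall
      have h1 : cofac q r * cofac r q = 1 := by
        by_contra hne
        obtain ⟨l, hl, hld⟩ := Nat.exists_prime_and_dvd hne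
        exact absurd (hall l hl hld) (by simp)
      exact hrq (eq_of_cofac_eq_one (Nat.eq_one_of_mul_eq_one_right h1)
        (Nat.eq_one_of_mul_eq_one_left h1)).symm
    · intro hn
      exact absurd hq hn
  rw [Finset.sum_congr rfl hterm, ← Finset.sum_mul, one_mul]
  have hz1 : z 1 1 ≤ ∑ u ∈ Icc 1 N, ∑ v ∈ Icc 1 N, if Nat.Coprime u v then z u v else 0 := by
    have m1 : (1 : ℕ) ∈ Icc 1 N := by
      rw [Finset.mem_Icc]
      omega
    have hnn : ∀ u v : ℕ, 0 ≤ (if Nat.Coprime u v then z u v else 0) := by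
      intro u v
      split_ifs
      · exact hz u v
      · exact le_rfl
    calc z 1 1 = (if Nat.Coprime 1 1 then z 1 1 else 0) := by simp
      _ ≤ ∑ v ∈ Icc 1 N, (if Nat.Coprime 1 v then z 1 v else 0) :=
          Finset.single_le_sum (f := fun v => (if Nat.Coprime 1 v then z 1 v else 0))
            (fun v _ => hnn 1 v) m1
      _ ≤ _ := Finset.single_le_sum
            (f := fun u => ∑ v ∈ Icc 1 N, (if Nat.Coprime u v then z u v else 0))
            (fun u _ => Finset.sum_nonneg fun v _ => hnn u v) m1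
  exact mul_le_mul (sum_mul_rpow_le hθ.le _ f h hf hh) (Real.rpow_le_rpow (hz 1 1) hz1 hμ.le)
    (Real.rpow_nonneg (hz 1 1) _)
    (Real.rpow_nonneg (mul_nonneg (Finset.sum_nonneg fun i _ => hf i)
      (Finset.sum_nonneg fun i _ => hh i)) _)

/-- The weights after removing the prime `p`, for the shift `l`. -/
noncomputable def zshift (p N : ℕ) (z : ℕ → ℕ → ℝ) (l : ℤ) (u v : ℕ) : ℝ :=
  if ¬ p ∣ u ∧ ¬ p ∣ v ∧ p ^ l.toNat * u ≤ N ∧ p ^ (-l).toNat * v ≤ N then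
    z (p ^ l.toNat * u) (p ^ (-l).toNat * v) else 0

theorem zshift_nonneg (p N : ℕ) {z : ℕ → ℕ → ℝ} (hz : ∀ u v, 0 ≤ z u v) (l : ℤ) (u v : ℕ) :
    0 ≤ zshift p N z l u v := by
  unfold zshift
  split_ifs
  · exact hz _ _
  · exact le_rfl

theorem sum_zshift_le {p : ℕ} (hp : p.Prime) (N : ℕ) (z : ℕ → ℕ → ℝ) (hz : ∀ u v, 0 ≤ z u v) :
    ∑ l ∈ Icc (-(N : ℤ)) N, ∑ u ∈ Icc 1 N, ∑ v ∈ Icc 1 N,
      (if Nat.Coprime u v then zshift p N z l u v else 0)
      ≤ ∑ u ∈ Icc 1 N, ∑ v ∈ Icc 1 N, if Nat.Coprime u v then z u v else 0 := by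
  classical
  -- left side as a sum over triples
  set S : Finset (ℤ × ℕ × ℕ) := (Icc (-(N : ℤ)) (N : ℤ) ×ˢ (Icc 1 N ×ˢ Icc 1 N)).filter
    (fun x => Nat.Coprime x.2.1 x.2.2 ∧ ¬ p ∣ x.2.1 ∧ ¬ p ∣ x.2.2 ∧ p ^ x.1.toNat * x.2.1 ≤ N ∧
      p ^ (-x.1).toNat * x.2.2 ≤ N) with hS
  set φ : ℤ × ℕ × ℕ → ℕ × ℕ := fun x => (p ^ x.1.toNat * x.2.1, p ^ (-x.1).toNat * x.2.2) with hφ
  have hL : ∑ l ∈ Icc (-(N : ℤ)) N, ∑ u ∈ Icc 1 N, ∑ v ∈ Icc 1 N,
      (if Nat.Coprime u v then zshift p N z l u v else 0) = ∑ x ∈ S, z (φ x).1 (φ x).2 := by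
    rw [hS, Finset.sum_filter, Finset.sum_product]
    refine Finset.sum_congr rfl fun l _ => ?_
    rw [Finset.sum_product]
    refine Finset.sum_congr rfl fun u _ => Finset.sum_congr rfl fun v _ => ?_
    unfold zshift
    by_cases h1 : Nat.Coprime u v
    · by_cases h2 : ¬ p ∣ u ∧ ¬ p ∣ v ∧ p ^ l.toNat * u ≤ N ∧ p ^ (-l).toNat * v ≤ N
      · rw [if_pos h1, if_pos h2, if_pos ⟨h1, h2⟩]
      · rw [if_pos h1, if_neg h2, if_neg (fun h => h2 h.2)]
    · rw [if_neg h1, if_neg (fun h => h1 h.1)]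
  have hR : ∑ u ∈ Icc 1 N, ∑ v ∈ Icc 1 N, (if Nat.Coprime u v then z u v else 0)
      = ∑ y ∈ (Icc 1 N ×ˢ Icc 1 N).filter (fun y => Nat.Coprime y.1 y.2), z y.1 y.2 := by
    rw [Finset.sum_filter, Finset.sum_product]
  have hfac : ∀ a m : ℕ, m ≠ 0 → ¬ p ∣ m → (p ^ a * m).factorization p = a := by
    intro a m hm hnd
    rw [Nat.factorization_mul (pow_pos hp.pos _).ne' hm, Finsupp.add_apply,
      hp.factorization_pow, Finsupp.single_eq_same, Nat.factorization_eq_zero_of_not_dvd hnd,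
      add_zero]
  have hinj : Set.InjOn φ S := by
    intro x hx y hy hxy
    simp only [hS, coe_filter, mem_product, mem_Icc, Set.mem_ofPred_eq] at hx hy
    obtain ⟨⟨_, ⟨hx1, _⟩, ⟨hx2, _⟩⟩, _, hxa, hxb, _, _⟩ := hx
    obtain ⟨⟨_, ⟨hy1, _⟩, ⟨hy2, _⟩⟩, _, hya, hyb, _, _⟩ := hy
    simp only [hφ, Prod.mk.injEq] at hxy
    obtain ⟨e1, e2⟩ := hxy
    have f1 : x.1.toNat = y.1.toNat := by
      rw [← hfac x.1.toNat x.2.1 (by omega) hxa, ← hfac y.1.toNat y.2.1 (by omega) hya, e1]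
    have f2 : (-x.1).toNat = (-y.1).toNat := by
      rw [← hfac (-x.1).toNat x.2.2 (by (clear * - hx2; omega)) hxb, ← hfac (-y.1).toNat y.2.2 (by omega) hyb, e2]
    have g0 : x.1 = y.1 := by (clear * - f1 f2; omega)
    rw [f1] at e1
    rw [f2] at e2
    have g1 := Nat.eq_of_mul_eq_mul_left (pow_pos hp.pos _) e1
    have g2 := Nat.eq_of_mul_eq_mul_left (pow_pos hp.pos _) e2
    exact Prod.ext g0 (Prod.ext g1 g2)
  rw [hL, hR, ← Finset.sum_image (f := fun y : ℕ × ℕ => z y.1 y.2) hinj]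
  refine Finset.sum_le_sum_of_subset_of_nonneg ?_ (fun y _ _ => hz _ _)
  intro y hy
  obtain ⟨x, hx, rfl⟩ := Finset.mem_image.1 hy
  simp only [hS, Finset.mem_filter, Finset.mem_product, Finset.mem_Icc] at hx
  obtain ⟨⟨_, ⟨hx1, _⟩, ⟨hx2, _⟩⟩, hco, hxa, hxb, hxN, hxM⟩ := hx
  simp only [hφ, Finset.mem_filter, Finset.mem_product, Finset.mem_Icc]
  refine ⟨⟨⟨?_, hxN⟩, ⟨?_, hxM⟩⟩, ?_⟩
  · exact Nat.mul_pos (pow_pos hp.pos _) (by omega)
  · exact Nat.mul_pos (pow_pos hp.pos _) (by omega)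
  · have c1 : ∀ k : ℕ, Nat.Coprime (p ^ k) x.2.1 := fun k =>
      Nat.Coprime.pow_left k ((Nat.Prime.coprime_iff_not_dvd hp).2 hxa)
    have c2 : ∀ k : ℕ, Nat.Coprime (p ^ k) x.2.2 := fun k =>
      Nat.Coprime.pow_left k ((Nat.Prime.coprime_iff_not_dvd hp).2 hxb)
    have c3 : Nat.Coprime (p ^ x.1.toNat) (p ^ (-x.1).toNat) := by
      rcases le_total 0 x.1 with h | h
      · have : (-x.1).toNat = 0 := by omega
        rw [this, pow_zero]
        exact Nat.coprime_one_right _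
      · have : x.1.toNat = 0 := by omega
        rw [this, pow_zero]
        exact Nat.coprime_one_left _
    exact Nat.Coprime.mul_left (Nat.Coprime.mul_right c3 (c2 _))
      (Nat.Coprime.mul_right (c1 _).symm hco)

theorem tensor_term_le {θ μ : ℝ} (hθ0 : 0 < θ) {p : ℕ} (hp : p.Prime)
    {P : Finset ℕ} (N : ℕ) (f h : ℕ → ℝ) (z : ℕ → ℕ → ℝ) (hz : ∀ u v, 0 ≤ z u v)
    (hf : ∀ q, 0 ≤ f q) (hh : ∀ q, 0 ≤ h q)
    (i j q r : ℕ) (hq0 : 0 < q) (hr0 : 0 < r) (hq : ¬ p ∣ q) (hqN : p ^ i * q ≤ N)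
    (hr : ¬ p ∣ r) (hrN : p ^ j * r ≤ N)
    (hcond : ∀ l : ℕ, l.Prime → l ∣ cofac (p ^ i * q) (p ^ j * r) * cofac (p ^ j * r) (p ^ i * q) →
      l ∈ insert p P) :
    (∀ l : ℕ, l.Prime → l ∣ cofac q r * cofac r q → l ∈ P) ∧
    (f (p ^ i * q) * h (p ^ j * r)) ^ θ *
      ((cofac (p ^ i * q) (p ^ j * r) : ℝ) * (cofac (p ^ j * r) (p ^ i * q) : ℝ)) ^ (-(1 - θ - μ)) *
        (z (cofac (p ^ i * q) (p ^ j * r)) (cofac (p ^ j * r) (p ^ i * q))) ^ μ
      = ((p : ℝ) ^ (-(1 - θ - μ))) ^ ad i j *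
        ((f (p ^ i * q) * h (p ^ j * r)) ^ θ *
          ((cofac q r : ℝ) * (cofac r q : ℝ)) ^ (-(1 - θ - μ)) *
          (zshift p N z ((i : ℤ) - j) (cofac q r) (cofac r q)) ^ μ) := by
  have hu : ¬ p ∣ cofac q r := fun hd => hq (hd.trans (cofac_dvd q r))
  have hv : ¬ p ∣ cofac r q := fun hd => hr (hd.trans (cofac_dvd r q))
  have e1 := cofac_prime_pow_mul hp hq hr i j
  have e2 := cofac_prime_pow_mul hp hr hq j i
  constructor
  · intro l hl hd
    have h1 : l ∣ cofac (p ^ i * q) (p ^ j * r) * cofac (p ^ j * r) (p ^ i * q) := by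
      rw [e1, e2]
      refine hd.trans ?_
      exact Nat.mul_dvd_mul (Dvd.intro_left _ rfl) (Dvd.intro_left _ rfl)
    have h2 := hcond l hl h1
    rw [Finset.mem_insert] at h2
    rcases h2 with h2 | h2
    · subst h2
      rcases hl.dvd_mul.1 hd with h3 | h3
      · exact absurd h3 hu
      · exact absurd h3 hv
    · exact h2
  · have hz1 : zshift p N z ((i : ℤ) - j) (cofac q r) (cofac r q)
        = z (cofac (p ^ i * q) (p ^ j * r)) (cofac (p ^ j * r) (p ^ i * q)) := by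
      have t1 : ((i : ℤ) - j).toNat = i - j := by (clear * -; omega)
      have t2 : (-((i : ℤ) - j)).toNat = j - i := by (clear * -; omega)
      unfold zshift
      rw [t1, t2, ← e1, ← e2, if_pos]
      refine ⟨hu, hv, ?_, ?_⟩
      · exact (cofac_le _ (Nat.mul_pos (pow_pos hp.pos _) hq0)).trans hqN
      · exact (cofac_le _ (Nat.mul_pos (pow_pos hp.pos _) hr0)).trans hrN
    rw [hz1, e1, e2]
    have hp0 : (0 : ℝ) ≤ p := Nat.cast_nonneg p
    have hpow : (((p ^ (i - j) * cofac q r : ℕ) : ℝ) * ((p ^ (j - i) * cofac r q : ℕ) : ℝ))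
        ^ (-(1 - θ - μ)) = ((p : ℝ) ^ (-(1 - θ - μ))) ^ ad i j *
          ((cofac q r : ℝ) * (cofac r q : ℝ)) ^ (-(1 - θ - μ)) := by
      have : (((p ^ (i - j) * cofac q r : ℕ) : ℝ) * ((p ^ (j - i) * cofac r q : ℕ) : ℝ))
          = (p : ℝ) ^ (ad i j) * ((cofac q r : ℝ) * (cofac r q : ℝ)) := by
        unfold ad
        push_cast
        rw [pow_add]
        ring
      rw [this, Real.mul_rpow (by (clear * -; positivity)) (by (clear * -; positivity))]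
      congr 1
      rw [← Real.rpow_natCast, ← Real.rpow_natCast, ← Real.rpow_mul hp0, ← Real.rpow_mul hp0,
        mul_comm]
    rw [hpow]
    ring

theorem tensorStmt_insert {θ μ : ℝ} (hθ0 : 0 < θ) (hμ : 0 < μ) {p : ℕ} (hp : p.Prime)
    {P : Finset ℕ} {K c : ℝ} (hK : 0 ≤ K) (hc : 0 ≤ c) (hT : TensorStmt θ μ P K)
    (hS : SPn θ μ ((p : ℝ) ^ (-(1 - θ - μ))) c) : TensorStmt θ μ (insert p P) (c * K) := by
  classical
  intro N f h z hf hh hz
  set ε : ℝ := (p : ℝ) ^ (-(1 - θ - μ)) with hε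
  have hε0 : 0 ≤ ε := Real.rpow_nonneg (Nat.cast_nonneg p) _
  set fi : ℕ → ℕ → ℝ := fun i q => if ¬ p ∣ q ∧ p ^ i * q ≤ N then f (p ^ i * q) else 0 with hfi
  set hj : ℕ → ℕ → ℝ := fun j q => if ¬ p ∣ q ∧ p ^ j * q ≤ N then h (p ^ j * q) else 0 with hhj
  have hfi0 : ∀ i q, 0 ≤ fi i q := by
    intro i q
    simp only [hfi]
    split_ifs
    · exact hf _
    · exact le_rfl
  have hhj0 : ∀ i q, 0 ≤ hj i q := by
    intro i q
    simp only [hhj]
    split_ifs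
    · exact hh _
    · exact le_rfl
  set φ : ℕ → ℝ := fun i => ∑ q ∈ Icc 1 N, fi i q with hφ
  set χ : ℕ → ℝ := fun j => ∑ r ∈ Icc 1 N, hj j r with hχ
  set ν : ℤ → ℝ := fun l => ∑ u ∈ Icc 1 N, ∑ v ∈ Icc 1 N,
    (if Nat.Coprime u v then zshift p N z l u v else 0) with hν
  have hφ0 : ∀ i, 0 ≤ φ i := fun i => Finset.sum_nonneg fun q _ => hfi0 i q
  have hχ0 : ∀ i, 0 ≤ χ i := fun i => Finset.sum_nonneg fun q _ => hhj0 i q
  have hν0 : ∀ l, 0 ≤ ν l := by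
    intro l
    refine Finset.sum_nonneg fun u _ => Finset.sum_nonneg fun v _ => ?_
    split_ifs
    · exact zshift_nonneg p N hz l u v
    · exact le_rfl
  set G : ℕ → ℕ → ℝ := fun q r =>
    if (∀ l : ℕ, l.Prime → l ∣ cofac q r * cofac r q → l ∈ insert p P) then
        (f q * h r) ^ θ * ((cofac q r : ℝ) * (cofac r q : ℝ)) ^ (-(1 - θ - μ)) *
          (z (cofac q r) (cofac r q)) ^ μ else 0 with hG
  set G' : ℕ → ℕ → ℕ → ℕ → ℝ := fun i j q r =>
    if (∀ l : ℕ, l.Prime → l ∣ cofac q r * cofac r q → l ∈ P) then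
        (fi i q * hj j r) ^ θ * ((cofac q r : ℝ) * (cofac r q : ℝ)) ^ (-(1 - θ - μ)) *
          (zshift p N z ((i : ℤ) - j) (cofac q r) (cofac r q)) ^ μ else 0 with hG'
  have hG'0 : ∀ i j q r, 0 ≤ G' i j q r := by
    intro i j q r
    simp only [hG']
    split_ifs
    · exact mul_nonneg (mul_nonneg (Real.rpow_nonneg (mul_nonneg (hfi0 _ _) (hhj0 _ _)) _)
        (Real.rpow_nonneg (by (clear * -; positivity)) _))
        (Real.rpow_nonneg (zshift_nonneg p N hz _ _ _) _)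
    · exact le_rfl
  have step1 : ∑ q ∈ Icc 1 N, ∑ r ∈ Icc 1 N, G q r
      = ∑ i ∈ range (N + 1), ∑ j ∈ range (N + 1), ∑ q ∈ Icc 1 N, ∑ r ∈ Icc 1 N,
        (if (¬ p ∣ q ∧ p ^ i * q ≤ N) ∧ (¬ p ∣ r ∧ p ^ j * r ≤ N) then
          G (p ^ i * q) (p ^ j * r) else 0) := by
    rw [sum_split_prime hp N (fun q => ∑ r ∈ Icc 1 N, G q r)]
    refine Finset.sum_congr rfl fun i _ => ?_
    rw [Finset.sum_comm]
    refine Finset.sum_congr rfl fun q _ => ?_
    by_cases h1 : ¬ p ∣ q ∧ p ^ i * q ≤ N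
    · rw [if_pos h1, sum_split_prime hp N (fun r => G (p ^ i * q) r)]
      refine Finset.sum_congr rfl fun j _ => Finset.sum_congr rfl fun r _ => ?_
      by_cases h2 : ¬ p ∣ r ∧ p ^ j * r ≤ N
      · rw [if_pos h2, if_pos ⟨h1, h2⟩]
      · rw [if_neg h2, if_neg (fun h => h2 h.2)]
    · rw [if_neg h1]
      symm
      refine Finset.sum_eq_zero fun j _ => Finset.sum_eq_zero fun r _ => ?_
      rw [if_neg (fun h => h1 h.1)]
  have step2 : ∀ i j q r : ℕ, q ∈ Icc 1 N → r ∈ Icc 1 N →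
      (if (¬ p ∣ q ∧ p ^ i * q ≤ N) ∧ (¬ p ∣ r ∧ p ^ j * r ≤ N) then
          G (p ^ i * q) (p ^ j * r) else 0) ≤ ε ^ ad i j * G' i j q r := by
    intro i j q r hq hr
    have hpos : 0 ≤ ε ^ ad i j * G' i j q r := mul_nonneg (pow_nonneg hε0 _) (hG'0 i j q r)
    split_ifs with hc1
    · obtain ⟨⟨hq1, hq2⟩, hr1, hr2⟩ := hc1
      simp only [hG]
      split_ifs with hc2
      · obtain ⟨t1, t2⟩ := tensor_term_le (μ := μ) hθ0 hp (P := P) N f h z hz hf hh i j q r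
          (Finset.mem_Icc.1 hq).1 (Finset.mem_Icc.1 hr).1 hq1 hq2 hr1 hr2 hc2
        rw [t2]
        simp only [hG']
        rw [if_pos t1]
        simp only [hfi, hhj]
        rw [if_pos ⟨hq1, hq2⟩, if_pos ⟨hr1, hr2⟩]
      · exact hpos
    · exact hpos
  have step3 : ∀ i j : ℕ, ∑ q ∈ Icc 1 N, ∑ r ∈ Icc 1 N,
      (if (¬ p ∣ q ∧ p ^ i * q ≤ N) ∧ (¬ p ∣ r ∧ p ^ j * r ≤ N) then
          G (p ^ i * q) (p ^ j * r) else 0)
      ≤ K * (ε ^ ad i j * (φ i * χ j) ^ θ * (ν ((i : ℤ) - j)) ^ μ) := by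
    intro i j
    calc _ ≤ ∑ q ∈ Icc 1 N, ∑ r ∈ Icc 1 N, ε ^ ad i j * G' i j q r :=
          Finset.sum_le_sum fun q hq => Finset.sum_le_sum fun r hr => step2 i j q r hq hr
      _ = ε ^ ad i j * ∑ q ∈ Icc 1 N, ∑ r ∈ Icc 1 N, G' i j q r := by
          simp only [Finset.mul_sum]
      _ ≤ ε ^ ad i j * (K * (φ i * χ j) ^ θ * (ν ((i : ℤ) - j)) ^ μ) := by
          refine mul_le_mul_of_nonneg_left ?_ (pow_nonneg hε0 _)
          exact hT N (fi i) (hj j) (zshift p N z ((i : ℤ) - j)) (hfi0 i) (hhj0 j)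
            (zshift_nonneg p N hz _)
      _ = _ := by ring
  have hφs : ∑ i ∈ range (N + 1), φ i = ∑ q ∈ Icc 1 N, f q := (sum_split_prime hp N f).symm
  have hχs : ∑ i ∈ range (N + 1), χ i = ∑ q ∈ Icc 1 N, h q := (sum_split_prime hp N h).symm
  have hνs : ∑ l ∈ Icc (-(N : ℤ)) N, ν l
      ≤ ∑ u ∈ Icc 1 N, ∑ v ∈ Icc 1 N, if Nat.Coprime u v then z u v else 0 :=
    sum_zshift_le hp N z hz
  have hsp := hS N φ χ ν hφ0 hχ0 hν0
  rw [hφs, hχs] at hsp
  have hFH : 0 ≤ ((∑ q ∈ Icc 1 N, f q) * ∑ r ∈ Icc 1 N, h r) ^ θ :=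
    Real.rpow_nonneg (mul_nonneg (Finset.sum_nonneg fun i _ => hf i)
      (Finset.sum_nonneg fun i _ => hh i)) _
  change ∑ q ∈ Icc 1 N, ∑ r ∈ Icc 1 N, G q r ≤ _
  rw [step1]
  calc _ ≤ ∑ i ∈ range (N + 1), ∑ j ∈ range (N + 1),
        K * (ε ^ ad i j * (φ i * χ j) ^ θ * (ν ((i : ℤ) - j)) ^ μ) :=
        Finset.sum_le_sum fun i _ => Finset.sum_le_sum fun j _ => step3 i j
    _ = K * ∑ i ∈ range (N + 1), ∑ j ∈ range (N + 1),
        ε ^ ad i j * (φ i * χ j) ^ θ * (ν ((i : ℤ) - j)) ^ μ := by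
        simp only [mul_sum]
    _ ≤ K * (c * ((∑ q ∈ Icc 1 N, f q) * ∑ r ∈ Icc 1 N, h r) ^ θ *
          (∑ l ∈ Icc (-(N : ℤ)) N, ν l) ^ μ) := mul_le_mul_of_nonneg_left hsp hK
    _ ≤ K * (c * ((∑ q ∈ Icc 1 N, f q) * ∑ r ∈ Icc 1 N, h r) ^ θ *
          (∑ u ∈ Icc 1 N, ∑ v ∈ Icc 1 N, if Nat.Coprime u v then z u v else 0) ^ μ) := by
        refine mul_le_mul_of_nonneg_left ?_ hK
        refine mul_le_mul_of_nonneg_left ?_ (mul_nonneg hc hFH)
        exact Real.rpow_le_rpow (Finset.sum_nonneg fun l _ => hν0 l) hνs hμ.le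
    _ = _ := by ring

theorem tensorStmt_primes {θ μ : ℝ} (hθ : 1 / 2 < θ) (hμ : 0 < μ)
    (c : ℕ → ℝ) (hc : ∀ p : ℕ, p.Prime → 0 ≤ c p)
    (hSP : ∀ p : ℕ, p.Prime → SPn θ μ ((p : ℝ) ^ (-(1 - θ - μ))) (c p))
    (P : Finset ℕ) (hP : ∀ p ∈ P, p.Prime) : TensorStmt θ μ P (∏ p ∈ P, c p) := by
  classical
  induction P using Finset.induction_on with
  | empty =>
    rw [Finset.prod_empty]
    exact tensorStmt_empty hθ hμ
  | insert p P hpP ih =>
    rw [Finset.prod_insert hpP]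
    have hpp := hP p (Finset.mem_insert_self p P)
    exact tensorStmt_insert (by linarith only [hθ]) hμ hpp
      (Finset.prod_nonneg fun q hq => hc q (hP q (Finset.mem_insert_of_mem hq)))
      (hc p hpp) (ih fun q hq => hP q (Finset.mem_insert_of_mem hq)) (hSP p hpp)

open Classical in
theorem tensor {θ μ : ℝ} (hθ : 1 / 2 < θ) (hθ1 : θ < 1) (hμ : 0 < μ) (hμ1 : μ < 1 - θ)
    (c : ℕ → ℝ) (hc : ∀ p : ℕ, p.Prime → 1 ≤ c p)
    (hSP : ∀ p : ℕ, p.Prime → SPn θ μ ((p : ℝ) ^ (-(1 - θ - μ))) (c p))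
    (Ω : ℕ → ℕ → Prop) (V N : ℕ) (f h : ℕ → ℝ) (hf : ∀ q, 0 ≤ f q) (hh : ∀ q, 0 ≤ h q) :
    ∑ q ∈ Icc 1 N, ∑ r ∈ Icc 1 N,
      (if Ω (cofac q r) (cofac r q) ∧ cofac q r ≤ V ∧ cofac r q ≤ V then
        (f q * h r) ^ θ * ((cofac q r : ℝ) * (cofac r q : ℝ)) ^ (-(1 - θ)) else 0) ≤
    (∏ p ∈ (Icc 1 V).filter Nat.Prime, c p) *
      ((∑ q ∈ Icc 1 N, f q) * ∑ r ∈ Icc 1 N, h r) ^ θ *
      (∑ u ∈ Icc 1 V, ∑ v ∈ Icc 1 V,
        if Nat.Coprime u v ∧ Ω u v then 1 / ((u : ℝ) * v) else 0) ^ μ := by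
  have hc0 : ∀ p : ℕ, p.Prime → 0 ≤ c p := fun p hp => zero_le_one.trans (hc p hp)
  set P := (Icc 1 V).filter Nat.Prime with hP
  set z : ℕ → ℕ → ℝ := fun u v => if Ω u v ∧ u ≤ V ∧ v ≤ V then 1 / ((u : ℝ) * v) else 0 with hz
  have hz0 : ∀ u v, 0 ≤ z u v := by
    intro u v
    simp only [hz]
    split_ifs
    · (clear * -; positivity)
    · exact le_rfl
  have hT := tensorStmt_primes hθ hμ c hc0 hSP P (fun p hp => (Finset.mem_filter.1 hp).2) N f h z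
    hf hh hz0
  have hK : 0 ≤ ∏ p ∈ P, c p :=
    Finset.prod_nonneg fun q hq => hc0 q (Finset.mem_filter.1 hq).2
  have hFH : 0 ≤ ((∑ q ∈ Icc 1 N, f q) * ∑ r ∈ Icc 1 N, h r) ^ θ :=
    Real.rpow_nonneg (mul_nonneg (Finset.sum_nonneg fun i _ => hf i)
      (Finset.sum_nonneg fun i _ => hh i)) _
  have hLHS : ∑ q ∈ Icc 1 N, ∑ r ∈ Icc 1 N,
      (if Ω (cofac q r) (cofac r q) ∧ cofac q r ≤ V ∧ cofac r q ≤ V then
        (f q * h r) ^ θ * ((cofac q r : ℝ) * (cofac r q : ℝ)) ^ (-(1 - θ)) else 0)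
      ≤ ∑ q ∈ Icc 1 N, ∑ r ∈ Icc 1 N,
      (if (∀ l : ℕ, l.Prime → l ∣ cofac q r * cofac r q → l ∈ P) then
        (f q * h r) ^ θ * ((cofac q r : ℝ) * (cofac r q : ℝ)) ^ (-(1 - θ - μ)) *
          (z (cofac q r) (cofac r q)) ^ μ else 0) := by
    refine Finset.sum_le_sum fun q hq => Finset.sum_le_sum fun r hr => ?_
    have hq0 : 0 < q := (Finset.mem_Icc.1 hq).1
    have hr0 : 0 < r := (Finset.mem_Icc.1 hr).1
    have hu0 : 0 < cofac q r := cofac_pos r hq0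
    have hv0 : 0 < cofac r q := cofac_pos q hr0
    by_cases hcnd : Ω (cofac q r) (cofac r q) ∧ cofac q r ≤ V ∧ cofac r q ≤ V
    · rw [if_pos hcnd, if_pos]
      · simp only [hz]
        rw [if_pos hcnd]
        have hpos : (0 : ℝ) < (cofac q r : ℝ) * (cofac r q : ℝ) := by (clear * - hu0 hv0; positivity)
        rw [one_div, Real.inv_rpow hpos.le, ← Real.rpow_neg hpos.le, mul_assoc,
          ← Real.rpow_add hpos]
        refine le_of_eq ?_
        congr 2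
        ring
      · intro l hl hd
        rw [hP, Finset.mem_filter, Finset.mem_Icc]
        refine ⟨⟨hl.one_lt.le, ?_⟩, hl⟩
        rcases hl.dvd_mul.1 hd with h1 | h1
        · exact (Nat.le_of_dvd hu0 h1).trans hcnd.2.1
        · exact (Nat.le_of_dvd hv0 h1).trans hcnd.2.2
    · rw [if_neg hcnd]
      split_ifs
      · exact mul_nonneg (mul_nonneg (Real.rpow_nonneg (mul_nonneg (hf _) (hh _)) _)
          (Real.rpow_nonneg (by (clear * - hu0 hv0; positivity)) _)) (Real.rpow_nonneg (hz0 _ _) _)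
      · exact le_rfl
  have hsum : ∑ u ∈ Icc 1 N, ∑ v ∈ Icc 1 N, (if Nat.Coprime u v then z u v else 0)
      ≤ ∑ u ∈ Icc 1 V, ∑ v ∈ Icc 1 V,
        if Nat.Coprime u v ∧ Ω u v then 1 / ((u : ℝ) * v) else 0 := by
    have hA : ∑ u ∈ Icc 1 N, ∑ v ∈ Icc 1 N, (if Nat.Coprime u v then z u v else 0)
        = ∑ x ∈ (Icc 1 N ×ˢ Icc 1 N).filter
          (fun x => Nat.Coprime x.1 x.2 ∧ (Ω x.1 x.2 ∧ x.1 ≤ V ∧ x.2 ≤ V)),
          1 / ((x.1 : ℝ) * x.2) := by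
      rw [← Finset.sum_product', Finset.sum_filter]
      refine Finset.sum_congr rfl fun x _ => ?_
      simp only [hz]
      by_cases h1 : Nat.Coprime x.1 x.2
      · by_cases h2 : Ω x.1 x.2 ∧ x.1 ≤ V ∧ x.2 ≤ V
        · rw [if_pos h1, if_pos h2, if_pos ⟨h1, h2⟩]
        · rw [if_pos h1, if_neg h2, if_neg (fun h3 => h2 h3.2)]
      · rw [if_neg h1, if_neg (fun h3 => h1 h3.1)]
    have hB : ∑ u ∈ Icc 1 V, ∑ v ∈ Icc 1 V,
        (if Nat.Coprime u v ∧ Ω u v then 1 / ((u : ℝ) * v) else 0)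
        = ∑ x ∈ (Icc 1 V ×ˢ Icc 1 V).filter
          (fun x => Nat.Coprime x.1 x.2 ∧ Ω x.1 x.2), 1 / ((x.1 : ℝ) * x.2) := by
      rw [← Finset.sum_product', Finset.sum_filter]
    rw [hA, hB]
    refine Finset.sum_le_sum_of_subset_of_nonneg ?_ (fun x _ _ => by (clear * -; positivity))
    intro x hx
    simp only [mem_filter, mem_product, mem_Icc] at hx ⊢
    (clear * - hx; tauto)
  refine hLHS.trans (hT.trans ?_)
  refine mul_le_mul_of_nonneg_left ?_ (mul_nonneg hK hFH)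
  refine Real.rpow_le_rpow ?_ hsum hμ.le
  refine Finset.sum_nonneg fun u _ => Finset.sum_nonneg fun v _ => ?_
  split_ifs
  · exact hz0 u v
  · exact le_rfl

end Vale.P028
end

section

/-!
# The near theorem
-/

namespace Vale.P028

open Finset

theorem nb_distInt_eq (t : ℝ) : distInt t = ‖(t : UnitAddCircle)‖ := by
  rw [UnitAddCircle.norm_eq, distInt]

theorem nb_distInt_neg (t : ℝ) : distInt (-t) = distInt t := by
  rw [nb_distInt_eq, nb_distInt_eq, AddCircle.coe_neg, norm_neg]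

theorem nb_distInt_sub_le (a b : ℝ) : distInt (a - b) ≤ distInt a + distInt b := by
  rw [nb_distInt_eq, nb_distInt_eq, nb_distInt_eq, AddCircle.coe_sub]
  exact norm_sub_le _ _

/-- If all elements of `B` are at least `R` and `R`-separated then `(|B| + 1) R ≤ b` for any `b`
that is at least `R` beyond all the elements. -/
theorem sep_card {R : ℝ} (B : Finset ℕ) (h1 : ∀ n ∈ B, R ≤ n)
    (h2 : ∀ m ∈ B, ∀ n ∈ B, m < n → R ≤ (n : ℝ) - m) (b : ℝ) (hb : R ≤ b)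
    (hbB : ∀ n ∈ B, (n : ℝ) + R ≤ b) : ((B.card : ℝ) + 1) * R ≤ b := by
  induction B using Finset.induction_on_max generalizing b with
  | empty => simpa only [card_empty, CharP.cast_eq_zero, zero_add, one_mul] using hb
  | insert a B ha ih =>
    have haB : a ∉ B := fun h => lt_irrefl _ (ha a h)
    have h3 := ih (fun n hn => h1 n (Finset.mem_insert_of_mem hn))
      (fun m hm n hn => h2 m (Finset.mem_insert_of_mem hm) n (Finset.mem_insert_of_mem hn))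
      (a : ℝ) (h1 a (Finset.mem_insert_self a B)) (fun n hn => by
        have := h2 n (Finset.mem_insert_of_mem hn) a (Finset.mem_insert_self a B) (ha n hn)
        linarith)
    have h4 := hbB a (Finset.mem_insert_self a B)
    rw [Finset.card_insert_of_notMem haB]
    push_cast
    linarith

theorem sep_sum_inv {R : ℝ} (hR : 0 < R) (B : Finset ℕ) (h1 : ∀ n ∈ B, R ≤ n)
    (h2 : ∀ m ∈ B, ∀ n ∈ B, m < n → R ≤ (n : ℝ) - m) :
    ∑ n ∈ B, 1 / (n : ℝ) ≤ (1 / R) * ∑ k ∈ range B.card, 1 / ((k : ℝ) + 1) := by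
  induction B using Finset.induction_on_max with
  | empty => simp only [one_div, sum_empty, card_empty, range_zero, mul_zero, Std.le_refl]
  | insert a B ha ih =>
    have haB : a ∉ B := fun h => lt_irrefl _ (ha a h)
    have h3 := sep_card B (fun n hn => h1 n (Finset.mem_insert_of_mem hn))
      (fun m hm n hn => h2 m (Finset.mem_insert_of_mem hm) n (Finset.mem_insert_of_mem hn))
      (a : ℝ) (h1 a (Finset.mem_insert_self a B)) (fun n hn => by
        have := h2 n (Finset.mem_insert_of_mem hn) a (Finset.mem_insert_self a B) (ha n hn)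
        linarith)
    have h4 := ih (fun n hn => h1 n (Finset.mem_insert_of_mem hn))
      (fun m hm n hn => h2 m (Finset.mem_insert_of_mem hm) n (Finset.mem_insert_of_mem hn))
    rw [Finset.sum_insert haB, Finset.card_insert_of_notMem haB, Finset.sum_range_succ, mul_add]
    have h5 : 1 / (a : ℝ) ≤ 1 / R * (1 / ((B.card : ℝ) + 1)) := by
      rw [one_div_mul_one_div]
      refine one_div_le_one_div_of_le (by (clear * - hR; positivity)) ?_
      rw [mul_comm]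
      exact h3
    linarith only [h4, h5]

theorem sum_inv_le_log (V : ℕ) : ∑ k ∈ range V, 1 / ((k : ℝ) + 1) ≤ 1 + Real.log V := by
  have h := harmonic_le_one_add_log V
  unfold harmonic at h
  push_cast at h
  simpa only [one_div, ge_iff_le] using h

theorem sum_inv_Icc_le_log (V : ℕ) : ∑ k ∈ Icc 1 V, 1 / (k : ℝ) ≤ 1 + Real.log V := by
  have h := sum_inv_le_log V
  have e : ∑ k ∈ Icc 1 V, 1 / (k : ℝ) = ∑ k ∈ range V, 1 / ((k : ℝ) + 1) := by
    induction V with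
    | zero => simp only [Order.lt_one_iff, Icc_eq_empty_of_lt, one_div, sum_empty, range_zero]
    | succ n ih =>
      rw [Finset.sum_Icc_succ_top (by (clear * -; omega)), Finset.sum_range_succ, ih (sum_inv_le_log n)]
      push_cast
      rfl
  rw [e]
  exact h

theorem bohr_gap {γ c₀ τ : ℝ} (hc₀ : 0 < c₀) (hτ : 1 ≤ τ) (hD : Dioph γ c₀ τ) {t : ℝ} (ht : 0 < t)
    {n : ℕ} (hn : 0 < n) (h : distInt (n * γ) < t) : (c₀ / t) ^ (1 / τ) ≤ n := by
  have h1 : c₀ * (n : ℝ) ^ (-τ) < t := (hD n hn).trans_lt h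
  have hn0 : (0 : ℝ) < n := by exact_mod_cast hn
  have h2 : c₀ / t ≤ (n : ℝ) ^ τ := by
    rw [div_le_iff₀ ht]
    rw [Real.rpow_neg hn0.le] at h1
    have h3 : 0 < (n : ℝ) ^ τ := Real.rpow_pos_of_pos hn0 _
    rw [← div_eq_mul_inv, div_lt_iff₀ h3] at h1
    linarith only [h1]
  have h4 : ((n : ℝ) ^ τ) ^ (1 / τ) = n := by
    rw [← Real.rpow_mul hn0.le, mul_one_div_cancel (by linarith only [hτ]), Real.rpow_one]
  rw [← h4]
  exact Real.rpow_le_rpow (by positivity) h2 (by positivity)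

open Classical in
theorem bohr_inv_sum {γ c₀ τ : ℝ} (hc₀ : 0 < c₀) (hτ : 1 ≤ τ) (hD : Dioph γ c₀ τ) {s : ℝ}
    (hs : 0 < s) (V : ℕ) :
    ∑ n ∈ (Icc 1 V).filter (fun n : ℕ => distInt (n * γ) < 2 * s), 1 / (n : ℝ)
      ≤ (4 * s / c₀) ^ (1 / τ) * (1 + Real.log V) := by
  set B := (Icc 1 V).filter (fun n : ℕ => distInt (n * γ) < 2 * s) with hB
  have hR : 0 < (c₀ / (4 * s)) ^ (1 / τ) := Real.rpow_pos_of_pos (by positivity) _
  have h1 : ∀ n ∈ B, (c₀ / (4 * s)) ^ (1 / τ) ≤ n := by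
    intro n hn
    rw [hB, Finset.mem_filter, Finset.mem_Icc] at hn
    exact bohr_gap hc₀ hτ hD (by positivity) (by omega) (by linarith only [hs, hn])
  have h2 : ∀ m ∈ B, ∀ n ∈ B, m < n → (c₀ / (4 * s)) ^ (1 / τ) ≤ (n : ℝ) - m := by
    intro m hm n hn hmn
    rw [hB, Finset.mem_filter, Finset.mem_Icc] at hn hm
    have h3 := bohr_gap (n := n - m) hc₀ hτ hD (t := 4 * s) (by positivity) (by (clear * - hmn; omega)) (by
      rw [Nat.cast_sub hmn.le, sub_mul]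
      refine (nb_distInt_sub_le _ _).trans_lt ?_
      linarith only [hm, hn])
    rwa [Nat.cast_sub hmn.le] at h3
  have h3 := sep_sum_inv hR B h1 h2
  refine h3.trans ?_
  have h4 : 1 / (c₀ / (4 * s)) ^ (1 / τ) = (4 * s / c₀) ^ (1 / τ) := by
    rw [one_div, ← Real.inv_rpow (by positivity), inv_div]
  rw [h4]
  refine mul_le_mul_of_nonneg_left ?_ (Real.rpow_nonneg (by positivity) _)
  refine le_trans ?_ (sum_inv_le_log V)
  refine Finset.sum_le_sum_of_subset_of_nonneg ?_ (fun k _ _ => by (clear * -; positivity))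
  refine Finset.range_mono ?_
  have := Finset.card_filter_le (Icc 1 V) (fun n : ℕ => distInt (n * γ) < 2 * s)
  simpa only [ge_iff_le, Nat.card_Icc, add_tsub_cancel_right] using this

open Classical in
theorem bohr_sum {γ c₀ τ : ℝ} (hc₀ : 0 < c₀) (hτ : 1 ≤ τ) (hD : Dioph γ c₀ τ) :
    ∃ C ≥ 0, ∀ (V : ℕ) (s : ℝ), 1 ≤ V → 0 < s → s ≤ 1 / 4 →
      ∑ u ∈ Icc 1 V, ∑ v ∈ Icc 1 V,
        (if u ≠ v ∧ distInt (((u : ℝ) - v) * γ) < 2 * s then 1 / ((u : ℝ) * v) else 0) ≤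
      C * (1 + Real.log V) ^ 2 * s ^ (1 / τ) := by
  refine ⟨2 * (4 / c₀) ^ (1 / τ), by positivity, ?_⟩
  intro V s hV hs _
  have hlog : 0 ≤ Real.log V := Real.log_natCast_nonneg V
  set g : ℕ → ℝ := fun n => if distInt (n * γ) < 2 * s then 1 / (n : ℝ) else 0 with hg
  have hg0 : ∀ n, 0 ≤ g n := by
    intro n
    simp only [hg]
    split_ifs
    · (clear * -; positivity)
    · exact le_rfl
  set G : ℝ := ∑ n ∈ Icc 1 V, g n with hG
  have hG0 : 0 ≤ G := Finset.sum_nonneg fun n _ => hg0 n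
  have hGle : G ≤ (4 * s / c₀) ^ (1 / τ) * (1 + Real.log V) := by
    rw [hG]
    simp only [hg]
    rw [← Finset.sum_filter]
    exact bohr_inv_sum hc₀ hτ hD hs V
  -- shifting
  have hshift : ∀ u : ℕ, ∑ v ∈ Icc 1 V, (if u < v then g (v - u) else 0) ≤ G := by
    intro u
    rw [← Finset.sum_filter, hG]
    have hinj : Set.InjOn (fun v : ℕ => v - u) ((Icc 1 V).filter (fun v => u < v)) := by
      intro a ha b hb hab
      simp only [Finset.coe_filter, Set.mem_ofPred_eq] at ha hb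
      simp only at hab
      omega
    rw [← Finset.sum_image (f := g) hinj]
    refine Finset.sum_le_sum_of_subset_of_nonneg ?_ (fun x _ _ => hg0 x)
    intro x hx
    simp only [Finset.mem_image, Finset.mem_filter, Finset.mem_Icc] at hx ⊢
    obtain ⟨a, ha, rfl⟩ := hx
    omega
  have hterm : ∀ u ∈ Icc 1 V, ∀ v ∈ Icc 1 V,
      (if u ≠ v ∧ distInt (((u : ℝ) - v) * γ) < 2 * s then 1 / ((u : ℝ) * v) else 0) ≤
      1 / (u : ℝ) * (if u < v then g (v - u) else 0) +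
        1 / (v : ℝ) * (if v < u then g (u - v) else 0) := by
    intro u hu v hv
    have hu0 : (0 : ℝ) < u := by exact_mod_cast (Finset.mem_Icc.1 hu).1
    have hv0 : (0 : ℝ) < v := by exact_mod_cast (Finset.mem_Icc.1 hv).1
    by_cases hc : u ≠ v ∧ distInt (((u : ℝ) - v) * γ) < 2 * s
    · rw [if_pos hc]
      rcases lt_or_gt_of_ne hc.1 with h | h
      · rw [if_pos h, if_neg (by omega), mul_zero, add_zero]
        have h1 : distInt (((v - u : ℕ) : ℝ) * γ) < 2 * s := by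
          rw [Nat.cast_sub h.le, ← nb_distInt_neg]
          have e : -(((v : ℝ) - u) * γ) = ((u : ℝ) - v) * γ := by ring
          rw [e]
          exact hc.2
        simp only [hg]
        rw [if_pos h1, one_div_mul_one_div]
        refine one_div_le_one_div_of_le ?_ ?_
        · have : (0 : ℝ) < ((v - u : ℕ) : ℝ) := by exact_mod_cast Nat.sub_pos_of_lt h
          (clear * - hu0 this; positivity)
        · refine mul_le_mul_of_nonneg_left ?_ hu0.le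
          exact_mod_cast Nat.sub_le v u
      · rw [if_neg (by omega), if_pos h, mul_zero, zero_add]
        have h1 : distInt (((u - v : ℕ) : ℝ) * γ) < 2 * s := by
          rw [Nat.cast_sub h.le]
          exact hc.2
        simp only [hg]
        rw [if_pos h1, one_div_mul_one_div, mul_comm (u : ℝ)]
        refine one_div_le_one_div_of_le ?_ ?_
        · have : (0 : ℝ) < ((u - v : ℕ) : ℝ) := by exact_mod_cast Nat.sub_pos_of_lt h
          (clear * - hv0 this; positivity)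
        · refine mul_le_mul_of_nonneg_left ?_ hv0.le
          exact_mod_cast Nat.sub_le u v
    · rw [if_neg hc]
      refine add_nonneg (mul_nonneg (by (clear * - hu0; positivity)) ?_) (mul_nonneg (by (clear * - hv0; positivity)) ?_)
      · split_ifs
        · exact hg0 _
        · exact le_rfl
      · split_ifs
        · exact hg0 _
        · exact le_rfl
  have hA : ∑ u ∈ Icc 1 V, ∑ v ∈ Icc 1 V, 1 / (u : ℝ) * (if u < v then g (v - u) else 0)
      ≤ (1 + Real.log V) * G := by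
    calc ∑ u ∈ Icc 1 V, ∑ v ∈ Icc 1 V, 1 / (u : ℝ) * (if u < v then g (v - u) else 0)
        = ∑ u ∈ Icc 1 V, 1 / (u : ℝ) * ∑ v ∈ Icc 1 V, (if u < v then g (v - u) else 0) := by
          refine Finset.sum_congr rfl fun u _ => ?_
          rw [Finset.mul_sum]
      _ ≤ ∑ u ∈ Icc 1 V, 1 / (u : ℝ) * G :=
          Finset.sum_le_sum fun u _ => mul_le_mul_of_nonneg_left (hshift u) (by (clear * -; positivity))
      _ = (∑ u ∈ Icc 1 V, 1 / (u : ℝ)) * G := by rw [Finset.sum_mul]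
      _ ≤ _ := mul_le_mul_of_nonneg_right (sum_inv_Icc_le_log V) hG0
  have hB : ∑ u ∈ Icc 1 V, ∑ v ∈ Icc 1 V, 1 / (v : ℝ) * (if v < u then g (u - v) else 0)
      ≤ (1 + Real.log V) * G := by
    rw [Finset.sum_comm]
    exact hA
  calc ∑ u ∈ Icc 1 V, ∑ v ∈ Icc 1 V,
        (if u ≠ v ∧ distInt (((u : ℝ) - v) * γ) < 2 * s then 1 / ((u : ℝ) * v) else 0)
      ≤ ∑ u ∈ Icc 1 V, ∑ v ∈ Icc 1 V, (1 / (u : ℝ) * (if u < v then g (v - u) else 0) +
        1 / (v : ℝ) * (if v < u then g (u - v) else 0)) :=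
        Finset.sum_le_sum fun u hu => Finset.sum_le_sum fun v hv => hterm u hu v hv
    _ ≤ (1 + Real.log V) * G + (1 + Real.log V) * G := by
        simp only [sum_add_distrib]
        exact add_le_add hA hB
    _ ≤ (1 + Real.log V) * ((4 * s / c₀) ^ (1 / τ) * (1 + Real.log V)) +
        (1 + Real.log V) * ((4 * s / c₀) ^ (1 / τ) * (1 + Real.log V)) := by
        have := mul_le_mul_of_nonneg_left hGle (by (clear γ c₀ τ hc₀ hτ hD hV g hg hg0 G hG hG0 hGle hshift hterm hA hB; linarith) : 0 ≤ 1 + Real.log V)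
        linarith only [this]
    _ = 2 * (4 / c₀) ^ (1 / τ) * (1 + Real.log V) ^ 2 * s ^ (1 / τ) := by
        have e : (4 * s / c₀) ^ (1 / τ) = (4 / c₀) ^ (1 / τ) * s ^ (1 / τ) := by
          rw [← Real.mul_rpow (by positivity) hs.le]
          congr 1
          ring
        rw [e]
        ring

open Classical in
/-- Passage from the pair sum to the tensor sum. -/
theorem near_step {γ s θ : ℝ} (hθ : 0 < θ) (hθ1 : θ < 1) (hs : 0 < s) (V N : ℕ) (E : ℝ)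
    (hV : ∀ n : ℕ, (n : ℝ) ≤ E → n ≤ V) (ψ f : ℕ → ℝ) (hf : ∀ q, 0 ≤ f q ∧ f q ≤ ψ q)
    (Ω : ℕ → ℕ → Prop) (hΩ : ∀ u v : ℕ, Ω u v ↔ u ≠ v ∧ distInt (((u : ℝ) - v) * γ) < 2 * s) :
    psum (fun q r => Rel γ ψ s q r ∧ (cofac q r : ℝ) ≤ E ∧ (cofac r q : ℝ) ≤ E) N f f ≤
      s ^ (2 * (1 - θ)) * ∑ q ∈ Icc 1 N, ∑ r ∈ Icc 1 N,
        (if Ω (cofac q r) (cofac r q) ∧ cofac q r ≤ V ∧ cofac r q ≤ V then
          (f q * f r) ^ θ * ((cofac q r : ℝ) * (cofac r q : ℝ)) ^ (-(1 - θ)) else 0) := by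
  unfold psum
  rw [Finset.mul_sum]
  refine Finset.sum_le_sum fun q hq => ?_
  rw [Finset.mul_sum]
  refine Finset.sum_le_sum fun r hr => ?_
  have hq0 : 0 < q := (Finset.mem_Icc.1 hq).1
  have hr0 : 0 < r := (Finset.mem_Icc.1 hr).1
  have hu0 : (0 : ℝ) < cofac q r := by exact_mod_cast cofac_pos r hq0
  have hv0 : (0 : ℝ) < cofac r q := by exact_mod_cast cofac_pos q hr0
  have hff : 0 ≤ f q * f r := mul_nonneg (hf q).1 (hf r).1
  by_cases hc : Rel γ ψ s q r ∧ (cofac q r : ℝ) ≤ E ∧ (cofac r q : ℝ) ≤ E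
  · obtain ⟨⟨h1, h2, h3, h4⟩, h5, h6⟩ := hc
    rw [if_pos ⟨⟨h1, h2, h3, h4⟩, h5, h6⟩, if_pos ⟨(hΩ _ _).2 ⟨h1, h4⟩, hV _ h5, hV _ h6⟩]
    have h7 : f q * f r = (f q * f r) ^ θ * (f q * f r) ^ (1 - θ) := by
      rw [← Real.rpow_add_of_nonneg hff hθ.le (by linarith only [hθ1])]
      rw [show θ + (1 - θ) = 1 by ring, Real.rpow_one]
    have h8 : (f q * f r) ^ (1 - θ) ≤
        s ^ (2 * (1 - θ)) * ((cofac q r : ℝ) * (cofac r q : ℝ)) ^ (-(1 - θ)) := by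
      have h9 : f q * f r ≤ s ^ 2 / ((cofac q r : ℝ) * (cofac r q : ℝ)) := by
        rw [le_div_iff₀ (by (clear * - hu0 hv0; positivity))]
        have ha : (cofac r q : ℝ) * f q ≤ s := (mul_le_mul_of_nonneg_left (hf q).2 hv0.le).trans h2
        have hb : (cofac q r : ℝ) * f r ≤ s := (mul_le_mul_of_nonneg_left (hf r).2 hu0.le).trans h3
        have hc := mul_le_mul ha hb (mul_nonneg hu0.le (hf r).1) hs.le
        calc f q * f r * ((cofac q r : ℝ) * (cofac r q : ℝ))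
            = (cofac r q : ℝ) * f q * ((cofac q r : ℝ) * f r) := by ring
          _ ≤ s * s := hc
          _ = s ^ 2 := by ring
      refine (Real.rpow_le_rpow hff h9 (by linarith only [hθ1])).trans (le_of_eq ?_)
      rw [Real.div_rpow (by positivity) (by (clear * - hu0 hv0; positivity)), Real.rpow_neg (by (clear * - hu0 hv0; positivity)),
        div_eq_mul_inv, ← Real.rpow_natCast, ← Real.rpow_mul hs.le]
      norm_num
    calc f q * f r = (f q * f r) ^ θ * (f q * f r) ^ (1 - θ) := h7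
      _ ≤ (f q * f r) ^ θ *
          (s ^ (2 * (1 - θ)) * ((cofac q r : ℝ) * (cofac r q : ℝ)) ^ (-(1 - θ))) :=
          mul_le_mul_of_nonneg_left h8 (Real.rpow_nonneg hff _)
      _ = _ := by ring
  · rw [if_neg hc]
    refine mul_nonneg (Real.rpow_nonneg hs.le _) ?_
    split_ifs
    · exact mul_nonneg (Real.rpow_nonneg hff _) (Real.rpow_nonneg (by (clear * - hu0 hv0; positivity)) _)
    · exact le_rfl

open Classical in
theorem near_of_prod (hmertens : ∀ A : ℝ, 0 ≤ A → ∃ C > 0, ∃ k ≥ 0, ∀ V : ℕ, 1 ≤ V →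
      ∏ p ∈ (Icc 1 V).filter Nat.Prime, (1 + A / (p : ℝ)) ≤ C * (1 + Real.log V) ^ (k : ℝ))
    {γ c₀ τ : ℝ} (hc₀ : 0 < c₀) (hτ : 1 ≤ τ) (hD : Dioph γ c₀ τ) :
    ∃ θ ε₁ c C : ℝ, 1 / 2 < θ ∧ θ < 1 ∧ 0 < ε₁ ∧ 0 < c ∧ 0 < C ∧
      ∀ s : ℝ, 0 < s → s ≤ 1 / 4 → ∀ (N : ℕ) (ψ f : ℕ → ℝ), (∀ q, 0 ≤ f q ∧ f q ≤ ψ q) →
        psum (fun q r => Rel γ ψ s q r ∧ (cofac q r : ℝ) ≤ Real.exp (s ^ (-ε₁)) ∧
          (cofac r q : ℝ) ≤ Real.exp (s ^ (-ε₁))) N f f ≤
        C * s ^ (1 + c) * (∑ q ∈ Icc 1 N, f q) ^ (2 * θ) := by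
  have hτ0 : 0 < τ := by linarith
  set θ : ℝ := (4 * τ + 1) / (8 * τ + 1) with hθd
  set μ : ℝ := 2 * τ / (8 * τ + 1) with hμd
  have hden : 0 < 8 * τ + 1 := by linarith only [hτ]
  have hθ : 1 / 2 < θ := by
    rw [hθd, div_lt_div_iff₀ (by norm_num) hden]
    linarith only []
  have hθ1 : θ < 1 := by
    rw [hθd, div_lt_one hden]
    linarith only [hτ]
  have hμ : 0 < μ := by
    rw [hμd]
    positivity
  have h1θ : 1 - θ = 4 * τ / (8 * τ + 1) := by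
    rw [hθd]
    field_simp
    ring
  have hμ1 : μ < 1 - θ := by
    rw [h1θ, hμd]
    exact div_lt_div_of_pos_right (by linarith only [hτ]) hden
  have hexp : 2 * (1 - θ) + 1 / τ * μ = 1 + 1 / (8 * τ + 1) := by
    rw [h1θ, hμd]
    field_simp
    ring
  obtain ⟨A, hA, hSP⟩ := SPn_all hθ hθ1 hμ hμ1
  obtain ⟨C₁, hC₁, k, hk, hprod⟩ := hmertens A hA
  obtain ⟨C₂, hC₂, hbohr⟩ := bohr_sum hc₀ hτ hD
  set κ : ℝ := k + 2 * μ with hκ
  have hκ0 : 0 < κ := by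
    rw [hκ]
    linarith only [hμ, hk]
  set ε₁ : ℝ := 1 / (2 * (8 * τ + 1) * κ) with hε
  have hε0 : 0 < ε₁ := by
    rw [hε]
    (clear * - hτ hk; positivity)
  have hεκ : ε₁ * κ = 1 / (2 * (8 * τ + 1)) := by
    rw [hε]
    (clear * - hκ0 hτ; field_simp)
  refine ⟨θ, ε₁, 1 / (2 * (8 * τ + 1)), C₁ * (C₂ + 1) ^ μ * 2 ^ κ, hθ, hθ1, hε0, by positivity,
    by (clear * - hC₁ hC₂; positivity), ?_⟩
  intro s hs hs4 N ψ f hf
  set E : ℝ := Real.exp (s ^ (-ε₁)) with hE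
  set V : ℕ := ⌊E⌋₊ with hV
  have hE1 : 1 ≤ E := by
    rw [hE]
    exact Real.one_le_exp (Real.rpow_nonneg hs.le _)
  have hV1 : 1 ≤ V := Nat.le_floor (by simpa only [Nat.cast_one] using hE1)
  have hVE : (V : ℝ) ≤ E := Nat.floor_le (by linarith only [hE1])
  obtain ⟨Ω, hΩ⟩ : ∃ Ω : ℕ → ℕ → Prop, ∀ u v : ℕ,
      Ω u v ↔ u ≠ v ∧ distInt (((u : ℝ) - v) * γ) < 2 * s := ⟨_, fun _ _ => Iff.rfl⟩
  have hstep := near_step (γ := γ) (s := s) (θ := θ) (by linarith only [hθ]) hθ1 hs V N E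
    (fun n hn => Nat.le_floor hn) ψ f hf Ω hΩ
  refine hstep.trans ?_
  have htens := tensor hθ hθ1 hμ hμ1 (fun p => 1 + A / p)
    (fun p _ => by
      have : 0 ≤ A / (p : ℝ) := by (clear * - hA; positivity)
      linarith only [this]) hSP
    Ω V N f f
    (fun q => (hf q).1) (fun q => (hf q).1)
  have hlogV : Real.log V ≤ s ^ (-ε₁) := by
    have : Real.log V ≤ Real.log E := Real.log_le_log (by exact_mod_cast hV1) hVE
    rwa [hE, Real.log_exp] at this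
  have hsε : 1 ≤ s ^ (-ε₁) := by
    refine Real.one_le_rpow_of_pos_of_le_one_of_nonpos hs (by linarith only [hs4]) (by linarith only [hε0])
  have hL0 : 0 ≤ Real.log V := Real.log_natCast_nonneg V
  have hL1 : 1 + Real.log V ≤ 2 * s ^ (-ε₁) := by linarith only [hlogV, hsε]
  set L : ℝ := 1 + Real.log V with hL
  have hLpos : 0 < L := by linarith only [hL0]
  have hP : ∏ p ∈ (Icc 1 V).filter Nat.Prime, (1 + A / (p : ℝ)) ≤ C₁ * L ^ k := hprod V hV1
  have hP0 : 0 ≤ ∏ p ∈ (Icc 1 V).filter Nat.Prime, (1 + A / (p : ℝ)) :=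
    Finset.prod_nonneg fun p _ => by (clear * - hA; positivity)
  set T : ℝ := ∑ u ∈ Icc 1 V, ∑ v ∈ Icc 1 V,
        if Nat.Coprime u v ∧ Ω u v then 1 / ((u : ℝ) * v) else 0 with hT
  have hT0 : 0 ≤ T := by
    rw [hT]
    refine Finset.sum_nonneg fun u _ => Finset.sum_nonneg fun v _ => ?_
    split_ifs
    · (clear * -; positivity)
    · exact le_rfl
  have hTle : T ≤ (C₂ + 1) * L ^ 2 * s ^ (1 / τ) := by
    have h1 : T ≤ ∑ u ∈ Icc 1 V, ∑ v ∈ Icc 1 V,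
        (if u ≠ v ∧ distInt (((u : ℝ) - v) * γ) < 2 * s then 1 / ((u : ℝ) * v) else 0) := by
      rw [hT]
      refine Finset.sum_le_sum fun u _ => Finset.sum_le_sum fun v _ => ?_
      by_cases h2 : u ≠ v ∧ distInt (((u : ℝ) - v) * γ) < 2 * s
      · rw [if_pos h2]
        split_ifs
        · exact le_rfl
        · (clear * -; positivity)
      · rw [if_neg h2, if_neg (fun h3 => h2 ((hΩ _ _).1 h3.2))]
    refine h1.trans ((hbohr V s hV1 hs hs4).trans ?_)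
    have h3 : 0 ≤ L ^ 2 * s ^ (1 / τ) := by (clear * - hs; positivity)
    nlinarith only [h3]
  have hS0 : 0 ≤ ∑ q ∈ Icc 1 N, f q := Finset.sum_nonneg fun q _ => (hf q).1
  have hSS : ((∑ q ∈ Icc 1 N, f q) * ∑ q ∈ Icc 1 N, f q) ^ θ = (∑ q ∈ Icc 1 N, f q) ^ (2 * θ) := by
    rw [Real.mul_rpow hS0 hS0, ← Real.rpow_add_of_nonneg hS0 (by linarith only [hθ]) (by linarith only [hθ])]
    congr 1
    ring
  rw [hSS] at htens
  have hS1 : 0 ≤ (∑ q ∈ Icc 1 N, f q) ^ (2 * θ) := Real.rpow_nonneg hS0 _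
  have hTμ : T ^ μ ≤ (C₂ + 1) ^ μ * L ^ (2 * μ) * s ^ (1 / τ * μ) := by
    refine (Real.rpow_le_rpow hT0 hTle hμ.le).trans (le_of_eq ?_)
    rw [Real.mul_rpow (by (clear * - hC₂; positivity)) (by (clear * - hs; positivity)), Real.mul_rpow (by (clear * - hC₂; positivity)) (by (clear * -; positivity)),
      ← Real.rpow_mul hs.le, ← Real.rpow_natCast L 2, ← Real.rpow_mul hLpos.le]
    norm_num
  have hLκ : L ^ κ ≤ 2 ^ κ * s ^ (-(1 / (2 * (8 * τ + 1)))) := by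
    refine (Real.rpow_le_rpow hLpos.le hL1 hκ0.le).trans (le_of_eq ?_)
    rw [Real.mul_rpow (by norm_num) (Real.rpow_nonneg hs.le _), ← Real.rpow_mul hs.le, neg_mul, hεκ]
  calc s ^ (2 * (1 - θ)) * ∑ q ∈ Icc 1 N, ∑ r ∈ Icc 1 N,
        (if Ω (cofac q r) (cofac r q) ∧ cofac q r ≤ V ∧ cofac r q ≤ V then
          (f q * f r) ^ θ * ((cofac q r : ℝ) * (cofac r q : ℝ)) ^ (-(1 - θ)) else 0)
      ≤ s ^ (2 * (1 - θ)) * ((∏ p ∈ (Icc 1 V).filter Nat.Prime, (1 + A / (p : ℝ))) *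
          (∑ q ∈ Icc 1 N, f q) ^ (2 * θ) * T ^ μ) :=
        mul_le_mul_of_nonneg_left htens (Real.rpow_nonneg hs.le _)
    _ ≤ s ^ (2 * (1 - θ)) * ((C₁ * L ^ k) * (∑ q ∈ Icc 1 N, f q) ^ (2 * θ) *
          ((C₂ + 1) ^ μ * L ^ (2 * μ) * s ^ (1 / τ * μ))) := by
        refine mul_le_mul_of_nonneg_left ?_ (Real.rpow_nonneg hs.le _)
        refine mul_le_mul ?_ hTμ (Real.rpow_nonneg hT0 _) (by (clear * - hC₁ hS0; positivity))
        exact mul_le_mul_of_nonneg_right hP hS1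
    _ = C₁ * (C₂ + 1) ^ μ * L ^ κ * s ^ (1 + 1 / (8 * τ + 1)) *
          (∑ q ∈ Icc 1 N, f q) ^ (2 * θ) := by
        rw [← hexp, Real.rpow_add hs, hκ, Real.rpow_add hLpos]
        ring
    _ ≤ C₁ * (C₂ + 1) ^ μ * (2 ^ κ * s ^ (-(1 / (2 * (8 * τ + 1))))) * s ^ (1 + 1 / (8 * τ + 1)) *
          (∑ q ∈ Icc 1 N, f q) ^ (2 * θ) := by
        refine mul_le_mul_of_nonneg_right ?_ hS1
        refine mul_le_mul_of_nonneg_right ?_ (Real.rpow_nonneg hs.le _)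
        exact mul_le_mul_of_nonneg_left hLκ (by (clear * - hC₁ hC₂; positivity))
    _ = C₁ * (C₂ + 1) ^ μ * 2 ^ κ * s ^ (1 + 1 / (2 * (8 * τ + 1))) *
          (∑ q ∈ Icc 1 N, f q) ^ (2 * θ) := by
        have e : s ^ (1 + 1 / (2 * (8 * τ + 1))) =
            s ^ (-(1 / (2 * (8 * τ + 1)))) * s ^ (1 + 1 / (8 * τ + 1)) := by
          rw [← Real.rpow_add hs]
          congr 1
          field_simp
          ring
        rw [e]
        ring

theorem near {γ c₀ τ : ℝ} (hc₀ : 0 < c₀) (hτ : 1 ≤ τ) (hD : Dioph γ c₀ τ) :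
    ∃ θ ε₁ c C : ℝ, 1 / 2 < θ ∧ θ < 1 ∧ 0 < ε₁ ∧ 0 < c ∧ 0 < C ∧
      ∀ s : ℝ, 0 < s → s ≤ 1 / 4 → ∀ (N : ℕ) (ψ f : ℕ → ℝ), (∀ q, 0 ≤ f q ∧ f q ≤ ψ q) →
        psum (fun q r => Rel γ ψ s q r ∧ (cofac q r : ℝ) ≤ Real.exp (s ^ (-ε₁)) ∧
          (cofac r q : ℝ) ≤ Real.exp (s ^ (-ε₁))) N f f ≤
        C * s ^ (1 + c) * (∑ q ∈ Icc 1 N, f q) ^ (2 * θ) :=
  near_of_prod prod_one_add_div_prime_le hc₀ hτ hD

end Vale.P028
end

section

/-!
# Dyadic summation with summable losses, and the levels argument for a general hypothesis `H`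
-/

namespace Vale.P028

open Finset

/-- Dyadic summation over the levels, with summable losses. -/
theorem dyadic_sum2 {γ : ℝ} {ψ f : ℕ → ℝ} {N : ℕ} {A : ℝ} {a : ℕ → ℝ}
    (ha0 : ∀ j, 0 ≤ a j) (haA : ∀ J, ∑ j ∈ range J, a j ≤ A)
    (S : Finset ℕ) (hS : ∀ q ∈ S, 0 < q ∧ q ≤ N ∧ 0 < ψ q) (hf0 : ∀ q, 0 ≤ f q)
    (hf : ∀ q, f q ≤ ψ q)
    (hyp : ∀ j : ℕ, 2 ≤ j →
      psum (fun q r => Rel γ ψ ((1 / 2 : ℝ) ^ j) q r ∧
        (1 / 2 : ℝ) ^ j / 2 < max ((cofac r q : ℝ) * ψ q) ((cofac q r : ℝ) * ψ r)) N f f ≤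
        a j * (1 / 2 : ℝ) ^ j * ∑ q ∈ Icc 1 N, f q)
    (T : Finset (ℕ × ℕ)) (hT : ∀ p ∈ T, p.1 ∈ S ∧ p.2 ∈ S ∧ DD p.1 p.2 (ψ p.1) (ψ p.2) < 1 / 4 ∧
        ∃ m : ℤ, |(m : ℝ) - (((p.2 / Nat.gcd p.1 p.2 : ℕ) : ℝ) - (p.1 / Nat.gcd p.1 p.2 : ℕ)) * γ|
          < 2 * DD p.1 p.2 (ψ p.1) (ψ p.2)) :
    ∑ p ∈ T, f p.1 * f p.2 / DD p.1 p.2 (ψ p.1) (ψ p.2) ≤
      (1 + 2 * A) * ∑ q ∈ Icc 1 N, f q := by
  classical
  set F : ℝ := ∑ q ∈ Icc 1 N, f q with hF
  have hF0 : 0 ≤ F := sum_nonneg fun q _ => hf0 q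
  have hDpos : ∀ p ∈ T, 0 < DD p.1 p.2 (ψ p.1) (ψ p.2) := by
    intro p hp
    obtain ⟨h1, h2, _⟩ := hT p hp
    rw [DD_eq _ _ (hS _ h1).1]
    apply lt_max_of_lt_left
    apply mul_pos _ (hS _ h1).2.2
    have : 0 < p.2 / Nat.gcd p.1 p.2 :=
      Nat.div_pos (Nat.gcd_le_right _ (hS _ h2).1) (Nat.gcd_pos_of_pos_left _ (hS _ h1).1)
    exact_mod_cast this
  set T₁ := T.filter (fun p => p.1 = p.2) with hT₁
  set T₂ := T.filter (fun p => ¬ p.1 = p.2) with hT₂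
  have hsplit : ∑ p ∈ T, f p.1 * f p.2 / DD p.1 p.2 (ψ p.1) (ψ p.2) =
      ∑ p ∈ T₁, f p.1 * f p.2 / DD p.1 p.2 (ψ p.1) (ψ p.2) +
      ∑ p ∈ T₂, f p.1 * f p.2 / DD p.1 p.2 (ψ p.1) (ψ p.2) :=
    (sum_filter_add_sum_filter_not T (fun p => p.1 = p.2) _).symm
  -- diagonal
  have hdiag : ∑ p ∈ T₁, f p.1 * f p.2 / DD p.1 p.2 (ψ p.1) (ψ p.2) ≤ F := by
    have h1 : ∑ p ∈ T₁, f p.1 * f p.2 / DD p.1 p.2 (ψ p.1) (ψ p.2) ≤ ∑ p ∈ T₁, f p.1 := by
      refine sum_le_sum fun p hp => ?_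
      rw [hT₁, mem_filter] at hp
      obtain ⟨hpT, hpe⟩ := hp
      obtain ⟨h1, h2, _⟩ := hT p hpT
      have hq := (hS _ h1).1
      have hψ := (hS _ h1).2.2
      have e : DD p.1 p.2 (ψ p.1) (ψ p.2) = ψ p.1 := by
        rw [DD_eq _ _ hq, ← hpe, Nat.gcd_self, Nat.div_self hq]
        simp only [Nat.cast_one, one_mul, max_self]
      rw [e, ← hpe, div_le_iff₀ hψ]
      exact mul_le_mul_of_nonneg_left (hf _) (hf0 _)
    have h2 : ∑ p ∈ T₁, f p.1 ≤ F := by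
      have hinj : Set.InjOn (Prod.fst : ℕ × ℕ → ℕ) (T₁ : Set (ℕ × ℕ)) := by
        intro p hp p' hp' he
        rw [mem_coe, hT₁, mem_filter] at hp hp'
        ext
        · exact he
        · rw [← hp.2, ← hp'.2]; exact he
      rw [← sum_image (f := f) (g := Prod.fst) hinj]
      refine sum_le_sum_of_subset_of_nonneg ?_ fun q _ _ => hf0 q
      intro q hq
      rw [mem_image] at hq
      obtain ⟨p, hp, rfl⟩ := hq
      rw [hT₁, mem_filter] at hp
      have := hS _ (hT p hp.1).1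
      rw [mem_Icc]
      exact ⟨this.1, this.2.1⟩
    exact h1.trans h2
  -- off-diagonal
  have hj : ∀ p ∈ T₂, ∃ j : ℕ, 2 ≤ j ∧ (1 / 2 : ℝ) ^ (j + 1) < DD p.1 p.2 (ψ p.1) (ψ p.2) ∧
      DD p.1 p.2 (ψ p.1) (ψ p.2) ≤ (1 / 2 : ℝ) ^ j := by
    intro p hp
    rw [hT₂, mem_filter] at hp
    obtain ⟨h1, h2, h3, _⟩ := hT p hp.1
    obtain ⟨j, hj1, hj2⟩ := exists_nat_pow_near_of_lt_one (hDpos p hp.1) (by linarith only [h3])
      (by norm_num : (0 : ℝ) < 1 / 2) (by norm_num : (1 / 2 : ℝ) < 1)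
    refine ⟨j, ?_, hj1, hj2⟩
    by_contra hlt
    push Not at hlt
    have h4 : (1 / 2 : ℝ) ^ 2 ≤ (1 / 2 : ℝ) ^ (j + 1) :=
      pow_le_pow_of_le_one (by norm_num) (by norm_num) (by omega)
    norm_num at h4
    norm_num at hj1 h3
    linarith only [h4, hj1, h3]
  choose! jj hjj2 hjj3 hjj4 using hj
  have hoff : ∑ p ∈ T₂, f p.1 * f p.2 / DD p.1 p.2 (ψ p.1) (ψ p.2) ≤
      2 * A * F := by
    obtain ⟨J, hJ⟩ : ∃ J : ℕ, ∀ p ∈ T₂, jj p < J := by
      refine ⟨(T₂.sup jj) + 1, fun p hp => ?_⟩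
      have := le_sup (f := jj) hp
      (clear * - this; omega)
    have h1 : ∑ p ∈ T₂, f p.1 * f p.2 / DD p.1 p.2 (ψ p.1) (ψ p.2) =
        ∑ j ∈ range J, ∑ p ∈ T₂ with jj p = j, f p.1 * f p.2 / DD p.1 p.2 (ψ p.1) (ψ p.2) :=
      (sum_fiberwise_of_maps_to (fun p hp => mem_range.mpr (hJ p hp)) _).symm
    have h2 : ∀ j ∈ range J, ∑ p ∈ T₂ with jj p = j,
        f p.1 * f p.2 / DD p.1 p.2 (ψ p.1) (ψ p.2) ≤ 2 * F * a j := by
      intro j _
      by_cases hj2 : 2 ≤ j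
      · set s : ℝ := (1 / 2 : ℝ) ^ j with hs
        have hs0 : 0 < s := by positivity
        have hs4 : s ≤ 1 / 4 := by
          have : (1 / 2 : ℝ) ^ j ≤ (1 / 2 : ℝ) ^ 2 :=
            pow_le_pow_of_le_one (by norm_num) (by norm_num) hj2
          rw [hs]; norm_num at this ⊢; linarith only [this]
        have h3 : ∑ p ∈ T₂ with jj p = j, f p.1 * f p.2 / DD p.1 p.2 (ψ p.1) (ψ p.2) ≤
            (2 / s) * ∑ p ∈ T₂ with jj p = j, f p.1 * f p.2 := by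
          rw [mul_sum]
          refine sum_le_sum fun p hp => ?_
          rw [mem_filter] at hp
          have h4 := hjj3 p hp.1
          rw [hp.2, pow_succ, ← hs] at h4
          have h5 := mul_nonneg (hf0 p.1) (hf0 p.2)
          rw [div_le_iff₀ (by linarith only [hs0, h4])]
          calc f p.1 * f p.2 = 2 / s * (f p.1 * f p.2) * (s * (1 / 2)) := by
                (clear * - hs0; field_simp)
            _ ≤ 2 / s * (f p.1 * f p.2) * DD p.1 p.2 (ψ p.1) (ψ p.2) := by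
                (clear * - h4 h5; gcongr)
        have h6 : ∑ p ∈ T₂ with jj p = j, f p.1 * f p.2 ≤ a j * s * F := by
          refine le_trans ?_ (hyp j hj2)
          refine sum_le_psum _ N f f hf0 hf0 _ ?_
          intro p hp
          rw [mem_filter] at hp
          obtain ⟨hp1, hp2⟩ := hp
          have hD1 := hjj3 p hp1
          have hD2 := hjj4 p hp1
          rw [hp2] at hD1 hD2
          rw [← hs] at hD2
          rw [pow_succ, ← hs] at hD1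
          rw [hT₂, mem_filter] at hp1
          obtain ⟨h7, h8, h9, m, hm⟩ := hT p hp1.1
          have hq := hS _ h7
          have hr := hS _ h8
          have hD := DD_eq p.1 p.2 hq.1 (ψ p.1) (ψ p.2)
          have hcv : cofac p.2 p.1 = p.2 / Nat.gcd p.1 p.2 := by
            unfold cofac; rw [Nat.gcd_comm]
          have hcu : cofac p.1 p.2 = p.1 / Nat.gcd p.1 p.2 := rfl
          rw [← hcv, ← hcu] at hD hm
          refine ⟨mem_Icc.mpr ⟨hq.1, hq.2.1⟩, mem_Icc.mpr ⟨hr.1, hr.2.1⟩, ⟨?_, ?_, ?_, ?_⟩, ?_⟩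
          · intro he
            exact hp1.2 (eq_of_cofac_eq he)
          · exact (le_max_left _ _).trans (hD ▸ hD2)
          · exact (le_max_right _ _).trans (hD ▸ hD2)
          · have h10 := distInt_le_of_int m hm
            have e : ((cofac p.1 p.2 : ℝ) - (cofac p.2 p.1 : ℝ)) * γ
                = -(((cofac p.2 p.1 : ℝ) - (cofac p.1 p.2 : ℝ)) * γ) := by ring
            rw [e, distInt_neg]
            linarith only [hD2, h10]
          · rw [← hD]; linarith only [hD1]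
        calc ∑ p ∈ T₂ with jj p = j, f p.1 * f p.2 / DD p.1 p.2 (ψ p.1) (ψ p.2)
            ≤ (2 / s) * ∑ p ∈ T₂ with jj p = j, f p.1 * f p.2 := h3
          _ ≤ (2 / s) * (a j * s * F) := by (clear * - h6; gcongr)
          _ = 2 * F * a j := by
              (clear * - hs0; field_simp)
      · have h3 : (T₂.filter (fun p => jj p = j)) = ∅ := by
          rw [filter_eq_empty_iff]
          intro p hp he
          exact hj2 (he ▸ hjj2 p hp)
        rw [h3, sum_empty]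
        have := ha0 j
        (clear * - hF0 this; positivity)
    rw [h1]
    calc ∑ j ∈ range J, ∑ p ∈ T₂ with jj p = j, f p.1 * f p.2 / DD p.1 p.2 (ψ p.1) (ψ p.2)
        ≤ ∑ j ∈ range J, 2 * F * a j := sum_le_sum h2
      _ = 2 * F * ∑ j ∈ range J, a j := (mul_sum _ _ _).symm
      _ ≤ 2 * F * A := mul_le_mul_of_nonneg_left (haA J) (by (clear * - hF0; positivity))
      _ = 2 * A * F := by ring
  rw [hsplit]
  calc _ ≤ F + 2 * A * F := add_le_add hdiag hoff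
    _ = _ := by ring

/-- level index: `3^i ≤ log q < 3^(i+1)` -/
noncomputable def lv (q : ℕ) : ℕ := ⌊Real.logb 3 (Real.log q)⌋₊

theorem lv_spec {q : ℕ} (hq : 3 ≤ q) :
    (3 : ℝ) ^ lv q ≤ Real.log q ∧ Real.log q < (3 : ℝ) ^ (lv q + 1) := by
  have h1 : 1 < Real.log q := by
    have h2 : Real.exp 1 < 3 := lt_trans Real.exp_one_lt_d9 (by norm_num)
    rw [Real.lt_log_iff_exp_lt (by positivity)]
    refine h2.trans_le ?_
    exact_mod_cast hq
  have h0 : 0 < Real.log q := by linarith only [h1]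
  have h3 : 0 ≤ Real.logb 3 (Real.log q) := Real.logb_nonneg (by norm_num) h1.le
  constructor
  · have := Nat.floor_le h3
    rw [← Real.rpow_natCast, ← Real.le_logb_iff_rpow_le (by norm_num) h0]
    exact this
  · have := Nat.lt_floor_add_one (Real.logb 3 (Real.log q))
    rw [← Real.rpow_natCast, ← Real.logb_lt_iff_lt_rpow (by norm_num) h0]
    push_cast
    exact this

theorem lv_le_of_lt_cube {q r : ℕ} (hq : 3 ≤ q) (hr : 3 ≤ r) (h : (r : ℝ) < (q : ℝ) ^ 3) :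
    lv r ≤ lv q + 1 := by
  obtain ⟨h1, h2⟩ := lv_spec hq
  obtain ⟨h3, h4⟩ := lv_spec hr
  have hr0 : (0 : ℝ) < r := by positivity
  have h5 : Real.log r < 3 * Real.log q := by
    have := Real.log_lt_log hr0 h
    rwa [Real.log_pow] at this
  have h6 : (3 : ℝ) ^ lv r < (3 : ℝ) ^ (lv q + 2) := by
    calc (3 : ℝ) ^ lv r ≤ Real.log r := h3
      _ < 3 * Real.log q := h5
      _ < 3 * (3 : ℝ) ^ (lv q + 1) := by linarith only [h2]
      _ = (3 : ℝ) ^ (lv q + 2) := by ring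
  have h7 := (pow_lt_pow_iff_right₀ (by norm_num : (1 : ℝ) < 3)).mp h6
  (clear * - h7; omega)


/-- Bound for one block `[X, X^9]`, for weights satisfying the hypothesis `H`. -/
def BlockBound (γ : ℝ) (H : ℝ → (ℕ → ℝ) → (ℕ → ℝ) → Prop) (A X₁ : ℝ) : Prop :=
  ∀ X, X₁ ≤ X → ∀ (N : ℕ) (ψ f : ℕ → ℝ), (∀ q, 0 ≤ ψ q) →
    (∀ q, 0 ≤ f q ∧ f q ≤ ψ q * (q.totient / q)) → H X ψ f →
    (∀ q, f q ≠ 0 → X ≤ q ∧ (q : ℝ) ≤ X ^ 9) → (∑ q ∈ Icc 1 N, f q) ≤ 2 →
    ∃ a : ℕ → ℝ, (∀ j, 0 ≤ a j) ∧ (∀ J, ∑ j ∈ range J, a j ≤ A) ∧ ∀ j, 2 ≤ j →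
      psum (fun q r => Rel γ ψ ((1 / 2 : ℝ) ^ j) q r ∧
        (1 / 2 : ℝ) ^ j / 2 < max ((cofac r q : ℝ) * ψ q) ((cofac q r : ℝ) * ψ r)) N f f ≤
        a j * (1 / 2 : ℝ) ^ j * ∑ q ∈ Icc 1 N, f q

theorem levels_T {γ A X₁ : ℝ} {H : ℝ → (ℕ → ℝ) → (ℕ → ℝ) → Prop} (hA : 0 ≤ A)
    (hBB : BlockBound γ H A X₁) :
    ∃ (C : ℝ) (Q₀ : ℕ), 0 ≤ C ∧ ∀ (S : Finset ℕ) (ψ g : ℕ → ℝ), (∀ q, 0 ≤ ψ q) →
      (∀ q, 0 ≤ g q ∧ g q ≤ ψ q * (q.totient / q)) →
      (∀ q ∈ S, Q₀ ≤ q ∧ ((q : ℝ) ^ 2)⁻¹ ≤ ψ q) →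
      (∀ i : ℕ, H (Real.exp ((3 : ℝ) ^ i)) ψ
        (fun q => if q ∈ S ∧ (lv q = i ∨ lv q = i + 1) then g q else 0)) →
      (∑ q ∈ S, g q) ≤ 2 →
      ∀ T : Finset (ℕ × ℕ), (∀ p ∈ T, p.1 ∈ S ∧ p.2 ∈ S ∧ DD p.1 p.2 (ψ p.1) (ψ p.2) < 1 / 4 ∧
        ∃ m : ℤ, |(m : ℝ) - (((p.2 / Nat.gcd p.1 p.2 : ℕ) : ℝ) - (p.1 / Nat.gcd p.1 p.2 : ℕ)) * γ|
          < 2 * DD p.1 p.2 (ψ p.1) (ψ p.2)) →
      ∑ p ∈ T, g p.1 * g p.2 / DD p.1 p.2 (ψ p.1) (ψ p.2) ≤ C * ∑ q ∈ S, g q := by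
  classical
  obtain ⟨i₀, hi₀⟩ : ∃ i₀ : ℕ, max X₁ 1 ≤ Real.exp ((3 : ℝ) ^ i₀) := by
    obtain ⟨i₀, hi₀⟩ := pow_unbounded_of_one_lt (max X₁ 1) (by norm_num : (1 : ℝ) < 3)
    exact ⟨i₀, hi₀.le.trans ((by linarith only [Real.add_one_le_exp ((3 : ℝ) ^ i₀)]))⟩
  set C' : ℝ := 1 + 2 * A with hC'
  have hC'0 : 0 ≤ C' := by linarith only [hA]
  refine ⟨2 * C', max 3 (⌈Real.exp ((3 : ℝ) ^ i₀)⌉₊), by (clear * - hA; positivity), ?_⟩
  intro S ψ g hψ hg hS hH hF T hT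
  have hS3 : ∀ q ∈ S, 3 ≤ q := fun q hq => (le_max_left _ _).trans (hS q hq).1
  have hSbig : ∀ q ∈ S, Real.exp ((3 : ℝ) ^ i₀) ≤ q := by
    intro q hq
    have := (le_max_right _ _).trans (hS q hq).1
    exact Nat.ceil_le.mp this
  have hlev0 : ∀ q ∈ S, i₀ ≤ lv q := by
    intro q hq
    have h3 := hS3 q hq
    obtain ⟨h1, h2⟩ := lv_spec h3
    have h4 : (3 : ℝ) ^ i₀ ≤ Real.log q := by
      rw [Real.le_log_iff_exp_le (by (clear * - h3; positivity))]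
      exact hSbig q hq
    have h5 := (pow_lt_pow_iff_right₀ (by norm_num : (1 : ℝ) < 3)).mp (h4.trans_lt h2)
    omega
  have hg0 : ∀ q, 0 ≤ g q := fun q => (hg q).1
  have hψpos : ∀ q ∈ S, 0 < ψ q := by
    intro q hq
    have h3 := hS3 q hq
    have : (0 : ℝ) < ((q : ℝ) ^ 2)⁻¹ := by (clear * - h3; positivity)
    exact this.trans_le (hS q hq).2
  -- size relation
  have hcube : ∀ q ∈ S, ∀ r ∈ S, DD q r (ψ q) (ψ r) < 1 / 4 → (r : ℝ) < (q : ℝ) ^ 3 := by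
    intro q hq r hr hDD
    have hq3 := hS3 q hq
    have hr3 := hS3 r hr
    have hq0 : (0 : ℝ) < q := by positivity
    have hgcd : 0 < Nat.gcd q r := Nat.gcd_pos_of_pos_left _ (by omega)
    have hgR : (0 : ℝ) < Nat.gcd q r := by exact_mod_cast hgcd
    have hgq : (Nat.gcd q r : ℝ) ≤ q := by exact_mod_cast Nat.gcd_le_left r (by omega)
    have h1 : (r : ℝ) * ψ q / Nat.gcd q r ≤ DD q r (ψ q) (ψ r) := by
      unfold DD
      gcongr
      exact le_max_left _ _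
    have h2 : (r : ℝ) * ((q : ℝ) ^ 2)⁻¹ / q ≤ (r : ℝ) * ψ q / Nat.gcd q r := by
      have := (hS q hq).2
      have := hψ q
      (clear γ A X₁ H hA hBB hi₀ C' hC' hC'0 g hg hH hF T hT hSbig hlev0 hg0 hψpos hDD hq0 hgcd hgR h1; gcongr)
    have h3 : (r : ℝ) * ((q : ℝ) ^ 2)⁻¹ / q = r / (q : ℝ) ^ 3 := by
      (clear * - hq3 hr3; field_simp)
    rw [h3] at h2
    have h4 : (r : ℝ) / (q : ℝ) ^ 3 < 1 := by linarith only [hDD, h1, h2]
    rwa [div_lt_one (by (clear * - hq3; positivity))] at h4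
  have hDsymm : ∀ q r : ℕ, DD q r (ψ q) (ψ r) = DD r q (ψ r) (ψ q) := by
    intro q r
    unfold DD
    rw [max_comm, Nat.gcd_comm]
  -- blocks
  set B : ℕ → Finset ℕ := fun i => S.filter (fun q => lv q = i ∨ lv q = i + 1) with hB
  set TT : ℕ → Finset (ℕ × ℕ) := fun i => T.filter (fun p => p.1 ∈ B i ∧ p.2 ∈ B i) with hTT
  set I : ℕ := (S.sup lv) + 1 with hI
  have hlevI : ∀ q ∈ S, lv q < I := by
    intro q hq
    have := le_sup (f := lv) hq
    omega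
  have hblocksum : ∀ i ∈ Ico i₀ I, ∑ p ∈ TT i, g p.1 * g p.2 / DD p.1 p.2 (ψ p.1) (ψ p.2) ≤
      C' * ∑ q ∈ B i, g q := by
    intro i hi
    rw [mem_Ico] at hi
    set X : ℝ := Real.exp ((3 : ℝ) ^ i) with hX
    have hX1 : X₁ ≤ X := by
      refine (le_max_left _ _).trans (hi₀.trans ?_)
      rw [hX]
      apply Real.exp_le_exp.mpr
      exact pow_le_pow_right₀ (by norm_num) hi.1
    set f : ℕ → ℝ := fun q => if q ∈ B i then g q else 0 with hf
    set N : ℕ := (B i).sup id with hN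
    have hBN : ∀ q ∈ B i, q ≤ N := fun q hq => le_sup (f := id) hq
    have hBS : ∀ q ∈ B i, q ∈ S := fun q hq => (mem_filter.mp hq).1
    have hfsum : ∑ q ∈ Icc 1 N, f q = ∑ q ∈ B i, g q := by
      rw [hf, ← sum_filter]
      congr 1
      ext q
      rw [mem_filter, mem_Icc]
      constructor
      · exact fun h => h.2
      · intro h
        have := hS3 q (hBS q h)
        exact ⟨⟨by omega, hBN q h⟩, h⟩
    have hFi : ∑ q ∈ Icc 1 N, f q ≤ 2 := by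
      rw [hfsum]
      refine le_trans ?_ hF
      exact sum_le_sum_of_subset_of_nonneg (filter_subset _ _) fun q _ _ => hg0 q
    have hf0 : ∀ q, 0 ≤ f q := by
      intro q; rw [hf]; dsimp only
      split_ifs
      · exact hg0 q
      · exact le_rfl
    have hfg : ∀ q, f q ≤ g q := by
      intro q; rw [hf]; dsimp only
      split_ifs
      · exact le_rfl
      · exact hg0 q
    obtain ⟨a, ha0, haA, hkey⟩ := hBB X hX1 N ψ f hψ
      (fun q => ⟨hf0 q, (hfg q).trans (hg q).2⟩) (by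
        have h1 := hH i
        rw [hX]
        convert h1 using 3 with q
        rw [hB, mem_filter]) (by
      intro q hq
      have hqB : q ∈ B i := by
        by_contra h
        apply hq
        rw [hf]; dsimp only
        rw [if_neg h]
      have hqS := hBS q hqB
      have hq3 := hS3 q hqS
      have hq0 : (0 : ℝ) < q := by (clear * - hq3; positivity)
      obtain ⟨h1, h2⟩ := lv_spec hq3
      have hl : lv q = i ∨ lv q = i + 1 := (mem_filter.mp hqB).2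
      have h3 : (3 : ℝ) ^ i ≤ (3 : ℝ) ^ lv q := pow_le_pow_right₀ (by norm_num) (by omega)
      have h4 : (3 : ℝ) ^ (lv q + 1) ≤ (3 : ℝ) ^ (i + 2) :=
        pow_le_pow_right₀ (by norm_num) (by (clear * - hl; omega))
      refine ⟨?_, ?_⟩
      · rw [hX, ← Real.le_log_iff_exp_le hq0]
        linarith only [h1, h3]
      · have h5 : X ^ 9 = Real.exp ((3 : ℝ) ^ (i + 2)) := by
          rw [hX, ← Real.exp_nat_mul]
          congr 1
          push_cast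
          ring
        rw [h5, ← Real.log_le_iff_le_exp hq0]
        linarith only [h2, h4]) hFi
    have h5 := dyadic_sum2 (γ := γ) (ψ := ψ) (f := f) (N := N) ha0 haA (B i)
      (fun q hq => ⟨by have := hS3 q (hBS q hq); omega, hBN q hq, hψpos q (hBS q hq)⟩)
      hf0 (fun q => (hfg q).trans ((hg q).2.trans (by
        have h1 : (q.totient : ℝ) / q ≤ 1 := by
          rcases Nat.eq_zero_or_pos q with h | h
          · subst h; simp only [Nat.totient_zero, CharP.cast_eq_zero, div_zero, zero_le_one]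
          · rw [div_le_one (by exact_mod_cast h)]
            exact_mod_cast Nat.totient_le q
        calc ψ q * (q.totient / q) ≤ ψ q * 1 := mul_le_mul_of_nonneg_left h1 (hψ q)
          _ = ψ q := mul_one _))) hkey (TT i) (by
        intro p hp
        rw [hTT, mem_filter] at hp
        obtain ⟨hp1, hp2, hp3⟩ := hp
        exact ⟨hp2, hp3, (hT p hp1).2.2⟩)
    rw [hfsum] at h5
    refine le_trans (le_of_eq ?_) h5
    refine sum_congr rfl fun p hp => ?_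
    rw [hTT, mem_filter] at hp
    rw [hf]; dsimp only
    rw [if_pos hp.2.1, if_pos hp.2.2]
  -- covering
  have hcover : ∑ p ∈ T, g p.1 * g p.2 / DD p.1 p.2 (ψ p.1) (ψ p.2) ≤
      ∑ i ∈ Ico i₀ I, ∑ p ∈ TT i, g p.1 * g p.2 / DD p.1 p.2 (ψ p.1) (ψ p.2) := by
    have hDnn : ∀ p ∈ T, 0 ≤ g p.1 * g p.2 / DD p.1 p.2 (ψ p.1) (ψ p.2) := by
      intro p hp
      have h1 : 0 ≤ DD p.1 p.2 (ψ p.1) (ψ p.2) := by
        unfold DD
        have := hψ p.1
        (clear * - this; positivity)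
      exact div_nonneg (mul_nonneg (hg0 _) (hg0 _)) h1
    have hmaps : ∀ p ∈ T, min (lv p.1) (lv p.2) ∈ Ico i₀ I := by
      intro p hp
      obtain ⟨h1, h2, _⟩ := hT p hp
      rw [mem_Ico]
      exact ⟨le_min (hlev0 _ h1) (hlev0 _ h2), (min_le_left _ _).trans_lt (hlevI _ h1)⟩
    rw [← sum_fiberwise_of_maps_to hmaps]
    refine sum_le_sum fun i _ => ?_
    refine sum_le_sum_of_subset_of_nonneg ?_ ?_
    · intro p hp
      rw [mem_filter] at hp
      obtain ⟨hp1, hp2⟩ := hp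
      obtain ⟨h1, h2, h3, _⟩ := hT p hp1
      have h4 := lv_le_of_lt_cube (hS3 _ h1) (hS3 _ h2) (hcube _ h1 _ h2 h3)
      have h5 := lv_le_of_lt_cube (hS3 _ h2) (hS3 _ h1)
        (hcube _ h2 _ h1 (by rw [← hDsymm]; exact h3))
      rw [hTT, mem_filter, hB]
      dsimp only
      rw [mem_filter, mem_filter]
      refine ⟨hp1, ⟨h1, ?_⟩, ⟨h2, ?_⟩⟩ <;>
      · rcases le_total (lv p.1) (lv p.2) with h | h
        · rw [min_eq_left h] at hp2; omega
        · rw [min_eq_right h] at hp2; omega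
    · intro p hp _
      rw [hTT, mem_filter] at hp
      exact hDnn p hp.1
  have hdouble : ∑ i ∈ Ico i₀ I, ∑ q ∈ B i, g q ≤ 2 * ∑ q ∈ S, g q := by
    have h1 : ∀ i, ∑ q ∈ B i, g q =
        ∑ q ∈ S, (if lv q = i ∨ lv q = i + 1 then g q else 0) := by
      intro i
      rw [hB, sum_filter]
    simp only [h1]
    rw [sum_comm, mul_sum]
    refine sum_le_sum fun q _ => ?_
    have h2 : ∑ i ∈ Ico i₀ I, (if lv q = i ∨ lv q = i + 1 then g q else 0) ≤
        ∑ i ∈ Ico i₀ I, ((if lv q = i then g q else 0) + (if lv q = i + 1 then g q else 0)) := by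
      refine sum_le_sum fun i _ => ?_
      have := hg0 q
      split_ifs <;> first | linarith only [this] | omega
    refine h2.trans ?_
    rw [sum_add_distrib, two_mul]
    have h3 : ∑ i ∈ Ico i₀ I, (if lv q = i then g q else 0) ≤ g q := by
      rw [sum_ite_eq]
      split_ifs
      · exact le_rfl
      · exact hg0 q
    have h4 : ∑ i ∈ Ico i₀ I, (if lv q = i + 1 then g q else 0) ≤ g q := by
      have h5 : ∀ i ∈ Ico i₀ I, (if lv q = i + 1 then g q else 0)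
          = (if lv q - 1 = i then (if lv q = i + 1 then g q else 0) else 0) := by
        intro i _
        by_cases h : lv q = i + 1
        · rw [if_pos h, if_pos (by omega)]
        · rw [if_neg h]; simp only [ite_self]
      rw [sum_congr rfl h5, sum_ite_eq]
      have := hg0 q
      split_ifs <;> linarith only [this]
    linarith only [h3, h4]
  calc ∑ p ∈ T, g p.1 * g p.2 / DD p.1 p.2 (ψ p.1) (ψ p.2)
      ≤ ∑ i ∈ Ico i₀ I, ∑ p ∈ TT i, g p.1 * g p.2 / DD p.1 p.2 (ψ p.1) (ψ p.2) := hcover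
    _ ≤ ∑ i ∈ Ico i₀ I, C' * ∑ q ∈ B i, g q := sum_le_sum hblocksum
    _ = C' * ∑ i ∈ Ico i₀ I, ∑ q ∈ B i, g q := (mul_sum _ _ _).symm
    _ ≤ C' * (2 * ∑ q ∈ S, g q) := by gcongr
    _ = 2 * C' * ∑ q ∈ S, g q := by ring

end Vale.P028
end

section

/-!
# Block bounds for the improved main theorem
-/

namespace Vale.P028

open Finset

theorem rpow_two_le {F θ : ℝ} (hF0 : 0 ≤ F) (hF : F ≤ 2) (hθ : 1 / 2 < θ) (hθ1 : θ < 1) :
    F ^ (2 * θ) ≤ 2 * F := by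
  rcases hF0.eq_or_lt with h | h
  · rw [← h, Real.zero_rpow (by linarith only [hθ])]; simp
  · have h1 : F ^ (2 * θ) = F ^ (2 * θ - 1) * F := by
      rw [← Real.rpow_add_one h.ne']; ring_nf
    have h2 : F ^ (2 * θ - 1) ≤ (2 : ℝ) ^ (2 * θ - 1) := Real.rpow_le_rpow hF0 hF (by linarith only [hθ])
    have h3 : (2 : ℝ) ^ (2 * θ - 1) ≤ (2 : ℝ) ^ (1 : ℝ) :=
      Real.rpow_le_rpow_of_exponent_le (by norm_num) (by linarith only [hθ1])
    rw [Real.rpow_one] at h3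
    rw [h1]
    gcongr
    linarith only [h2, h3]

theorem tot_le_one (q : ℕ) : (q.totient : ℝ) / q ≤ 1 := by
  rcases Nat.eq_zero_or_pos q with h | h
  · subst h; simp only [Nat.totient_zero, CharP.cast_eq_zero, div_zero, zero_le_one]
  · rw [div_le_one (by exact_mod_cast h)]
    exact_mod_cast Nat.totient_le q

theorem tot_nonneg (q : ℕ) : 0 ≤ (q.totient : ℝ) / q := by positivity

theorem block_common {γ c₀ τ : ℝ} (hc₀ : 0 < c₀) (hτ : 1 ≤ τ) (hD : Dioph γ c₀ τ) :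
    ∃ ε₁ A C c X₀ : ℝ, 0 < ε₁ ∧ 0 < A ∧ 0 < C ∧ 0 < c ∧
      ∀ X s : ℝ, X₀ ≤ X → 0 < s → s ≤ 1 / 4 → ∀ (N : ℕ) (ψ f : ℕ → ℝ), (∀ q, 0 ≤ ψ q) →
        (∀ q, 0 ≤ f q ∧ f q ≤ ψ q * (q.totient / q)) →
        (∀ q, f q ≠ 0 → X ≤ q ∧ (q : ℝ) ≤ X ^ 9) → (∑ q ∈ Icc 1 N, f q) ≤ 2 →
        (psum (fun q r => Rel γ ψ s q r ∧
          s / 2 < max ((cofac r q : ℝ) * ψ q) ((cofac q r : ℝ) * ψ r)) N f f ≤
            C * s ^ (1 + c) * ∑ q ∈ Icc 1 N, f q) ∨
        (s ^ (-ε₁) < A * Real.log (Real.log X) * Real.log (1 / s) ∧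
          (∀ V₀, Real.exp (A * Real.log (Real.log X) * Real.log (1 / s)) ≤ V₀ →
            psum (fun q r => Rel γ ψ s q r ∧ V₀ ≤ max (cofac q r : ℝ) (cofac r q : ℝ)) N f f ≤
              C * s ^ (1 + c) * ∑ q ∈ Icc 1 N, f q) ∧
          psum (fun q r => Rel γ ψ s q r ∧
            s / 2 < max ((cofac r q : ℝ) * ψ q) ((cofac q r : ℝ) * ψ r)) N f f ≤
            C * s ^ (1 + c) * ∑ q ∈ Icc 1 N, f q +
              psum (fun q r => Rel γ ψ s q r ∧
                Real.exp (s ^ (-ε₁)) ≤ max (cofac q r : ℝ) (cofac r q : ℝ)) N f f) := by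
  classical
  obtain ⟨θ₁, ε₁, c₁, C₁, hθ₁, hθ₁', hε₁, hc₁, hC₁, hnear⟩ := near hc₀ hτ hD
  obtain ⟨A, C₂, X₀, hA, hC₂, hB⟩ := caseB_core hc₀ hτ hD hε₁
  refine ⟨ε₁, A, 2 * C₁ + 2 * C₂, min c₁ (1 / 5), max X₀ 3, hε₁, hA, by (clear * - hC₁ hC₂; positivity),
    lt_min hc₁ (by norm_num), ?_⟩
  intro X s hX hs hs4 N ψ f hψ hf hsupp hF
  have hX3 : 3 ≤ X := (le_max_right _ _).trans hX
  have hX0' : X₀ ≤ X := (le_max_left _ _).trans hX
  have hlogX : 0 < Real.log X := Real.log_pos (by linarith only [hX3])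
  set F : ℝ := ∑ q ∈ Icc 1 N, f q with hFdef
  have hf0 : ∀ q, 0 ≤ f q := fun q => (hf q).1
  have hF0 : 0 ≤ F := sum_nonneg fun q _ => hf0 q
  have hfψ : ∀ q, f q ≤ ψ q := by
    intro q
    refine (hf q).2.trans ?_
    calc ψ q * (q.totient / q) ≤ ψ q * 1 := by
          gcongr
          · exact hψ q
          · exact tot_le_one q
      _ = ψ q := mul_one _
  have hs1 : s ≤ 1 := by linarith only [hs4]
  obtain ⟨c, hc⟩ : ∃ c, c = min c₁ (1 / 5) := ⟨_, rfl⟩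
  rw [← hc]
  have hcc1 : c ≤ c₁ := by rw [hc]; exact min_le_left _ _
  have hcc2 : c ≤ 1 / 5 := by rw [hc]; exact min_le_right _ _
  have hp1 : s ^ (1 + c₁) ≤ s ^ (1 + c) :=
    Real.rpow_le_rpow_of_exponent_ge hs hs1 (by linarith only [hcc1])
  have hp2 : s ^ (1 + 1 / 5 : ℝ) ≤ s ^ (1 + c) :=
    Real.rpow_le_rpow_of_exponent_ge hs hs1 (by linarith only [hcc2])
  have hp0 : 0 ≤ s ^ (1 + c) := (Real.rpow_pos_of_pos hs _).le
  have hpn1 : 0 ≤ s ^ (1 + c₁) := (Real.rpow_pos_of_pos hs _).le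
  have hpn2 : 0 ≤ s ^ (1 + 1 / 5 : ℝ) := (Real.rpow_pos_of_pos hs _).le
  have hFθ₁ := rpow_two_le hF0 hF hθ₁ hθ₁'
  have hFθ₂ := rpow_two_le (θ := 3 / 5) hF0 hF (by norm_num) (by norm_num)
  -- the near part
  have hnearpart : psum (fun q r => Rel γ ψ s q r ∧ (cofac q r : ℝ) ≤ Real.exp (s ^ (-ε₁)) ∧
          (cofac r q : ℝ) ≤ Real.exp (s ^ (-ε₁))) N f f ≤ 2 * C₁ * s ^ (1 + c) * F := by
    calc _ ≤ C₁ * s ^ (1 + c₁) * F ^ (2 * θ₁) :=
          hnear s hs hs4 N ψ f (fun q => ⟨hf0 q, hfψ q⟩)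
      _ ≤ C₁ * s ^ (1 + c) * (2 * F) := by (clear * - hp1 hC₁ hFθ₁ hF0 hs; gcongr)
      _ = 2 * C₁ * s ^ (1 + c) * F := by ring
  -- near + far
  have hsplit : psum (fun q r => Rel γ ψ s q r ∧
        s / 2 < max ((cofac r q : ℝ) * ψ q) ((cofac q r : ℝ) * ψ r)) N f f ≤
      psum (fun q r => Rel γ ψ s q r ∧ (cofac q r : ℝ) ≤ Real.exp (s ^ (-ε₁)) ∧
          (cofac r q : ℝ) ≤ Real.exp (s ^ (-ε₁))) N f f +
      psum (fun q r => Rel γ ψ s q r ∧
          Real.exp (s ^ (-ε₁)) ≤ max (cofac q r : ℝ) (cofac r q : ℝ)) N f f := by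
    apply psum_or_le _ _ _ _ _ _ hf0 hf0
    rintro q r ⟨hR, -⟩
    by_cases h : (cofac q r : ℝ) ≤ Real.exp (s ^ (-ε₁)) ∧
          (cofac r q : ℝ) ≤ Real.exp (s ^ (-ε₁))
    · exact Or.inl ⟨hR, h⟩
    · refine Or.inr ⟨hR, ?_⟩
      rw [not_and_or] at h
      rcases h with h | h
      · push Not at h
        exact h.le.trans (le_max_left _ _)
      · push Not at h
        exact h.le.trans (le_max_right _ _)
  rcases le_or_gt ((18 * Real.log X) ^ (-1 / ε₁)) s with hcase | hcase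
  · have hcore : ∀ V₀, Real.exp (A * Real.log (Real.log X) * Real.log (1 / s)) ≤ V₀ →
            psum (fun q r => Rel γ ψ s q r ∧ V₀ ≤ max (cofac q r : ℝ) (cofac r q : ℝ)) N f f ≤
              2 * C₂ * s ^ (1 + c) * F := by
      intro V₀ hV₀
      calc _ ≤ C₂ * s ^ (1 + 1 / 5 : ℝ) * F ^ (2 * (3 / 5 : ℝ)) :=
            hB X s V₀ hX0' hcase hs4 hV₀ N ψ f hψ hf hsupp
        _ ≤ C₂ * s ^ (1 + c) * (2 * F) := by (clear * - hp2 hC₂ hFθ₂ hF0 hs; gcongr)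
        _ = 2 * C₂ * s ^ (1 + c) * F := by ring
    rcases lt_or_ge (s ^ (-ε₁)) (A * Real.log (Real.log X) * Real.log (1 / s)) with h | h
    · right
      refine ⟨h, ?_, ?_⟩
      · intro V₀ hV₀
        refine (hcore V₀ hV₀).trans ?_
        have : 0 ≤ 2 * C₁ * s ^ (1 + c) * F := by (clear * - hC₁ hs hF0; positivity)
        linarith only [this]
      · have : 0 ≤ 2 * C₂ * s ^ (1 + c) * F := by (clear * - hC₂ hs hF0; positivity)
        linarith only [hnearpart, hsplit, this]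
    · left
      have h1 := hcore (Real.exp (s ^ (-ε₁))) (Real.exp_le_exp.2 h)
      linarith only [hnearpart, hsplit, h1]
  · left
    have hA' : 18 * Real.log X ≤ s ^ (-ε₁) := by
      have hA0 : 0 < 18 * Real.log X := by (clear * - hlogX; positivity)
      have h2 : ((18 * Real.log X) ^ (-1 / ε₁)) ^ (-ε₁) ≤ s ^ (-ε₁) :=
        Real.rpow_le_rpow_of_nonpos hs hcase.le (by linarith only [hε₁])
      rw [← Real.rpow_mul hA0.le] at h2
      have e : -1 / ε₁ * -ε₁ = 1 := by (clear * - hε₁; field_simp)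
      rwa [e, Real.rpow_one] at h2
    have hbound : ∀ q r : ℕ, f q ≠ 0 → (cofac q r : ℝ) ≤ Real.exp (s ^ (-ε₁)) := by
      intro q r hq
      obtain ⟨_, h3⟩ := hsupp q hq
      have h4 : (cofac q r : ℝ) ≤ q := by exact_mod_cast Nat.div_le_self _ _
      have hX0 : 0 < X := by linarith only [hX3]
      have h5 : X ^ 9 = Real.exp (9 * Real.log X) := by
        rw [mul_comm, Real.exp_mul, Real.exp_log hX0]
        norm_cast
      rw [h5] at h3
      refine h4.trans (h3.trans (Real.exp_le_exp.mpr ?_))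
      linarith only [hlogX, hA']
    have hmono : psum (fun q r => Rel γ ψ s q r ∧
        s / 2 < max ((cofac r q : ℝ) * ψ q) ((cofac q r : ℝ) * ψ r)) N f f ≤
        psum (fun q r => Rel γ ψ s q r ∧ (cofac q r : ℝ) ≤ Real.exp (s ^ (-ε₁)) ∧
          (cofac r q : ℝ) ≤ Real.exp (s ^ (-ε₁))) N f f := by
      apply psum_mono _ _ _ _ _ _ _ hf0 hf0
      rintro q _ r _ ⟨hR, _⟩ hne
      exact ⟨⟨hR, hbound q r (left_ne_zero_of_mul hne), hbound r q (right_ne_zero_of_mul hne)⟩,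
        le_rfl⟩
    have : 0 ≤ 2 * C₂ * s ^ (1 + c) * F := by (clear * - hC₂ hs hF0; positivity)
    linarith only [hnearpart, hmono, this]

/-- the hard range of `t = log (1/s)` -/
theorem hard_range {ε₁ M t : ℝ} (hε₁ : 0 < ε₁) (ht : 0 < t) (h : Real.exp (ε₁ * t) < M * t) :
    0 < M ∧ t ≤ 2 / ε₁ * Real.log (2 * M / ε₁) := by
  have hM : 0 < M := by
    by_contra hne
    push Not at hne
    have h1 : M * t ≤ 0 := mul_nonpos_of_nonpos_of_nonneg hne ht.le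
    linarith only [h, h1, Real.exp_pos (ε₁ * t)]
  refine ⟨hM, ?_⟩
  have h1 : ε₁ * t / 2 + 1 ≤ Real.exp (ε₁ * t / 2) := Real.add_one_le_exp _
  have h2 : Real.exp (ε₁ * t) = Real.exp (ε₁ * t / 2) * Real.exp (ε₁ * t / 2) := by
    rw [← Real.exp_add]
    congr 1
    ring
  have h3 : Real.exp (ε₁ * t / 2) * (ε₁ * t / 2) ≤ Real.exp (ε₁ * t) := by
    rw [h2]
    exact mul_le_mul_of_nonneg_left (by linarith only [h1]) (Real.exp_pos _).le
  have h4 : Real.exp (ε₁ * t / 2) < 2 * M / ε₁ := by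
    rw [lt_div_iff₀ hε₁]
    have h5 : Real.exp (ε₁ * t / 2) * (ε₁ * t / 2) < M * t := lt_of_le_of_lt h3 h
    have h6 : (Real.exp (ε₁ * t / 2) * ε₁) * t < (2 * M) * t := by linarith only [h, h3]
    exact lt_of_mul_lt_mul_right h6 ht.le
  have h5 : ε₁ * t / 2 < Real.log (2 * M / ε₁) := by
    rw [Real.lt_log_iff_exp_lt (by (clear * - hM hε₁; positivity))]
    exact h4
  calc t = 2 / ε₁ * (ε₁ * t / 2) := by field_simp
    _ ≤ 2 / ε₁ * Real.log (2 * M / ε₁) := mul_le_mul_of_nonneg_left h5.le (by positivity)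

theorem log_inv_ge_one {s : ℝ} (hs : 0 < s) (hs4 : s ≤ 1 / 4) : 1 ≤ Real.log (1 / s) := by
  have h1 : Real.log 4 ≤ Real.log (1 / s) := by
    apply Real.log_le_log (by norm_num)
    rw [le_div_iff₀ hs]
    linarith only [hs4]
  have h2 : Real.log 4 = 2 * Real.log 2 := by
    rw [show (4 : ℝ) = 2 ^ 2 by norm_num, Real.log_pow]
    norm_num
  have := Real.log_two_gt_d9
  linarith only [h1, h2, this]

theorem rpow_neg_eq_exp {s ε₁ : ℝ} (hs : 0 < s) :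
    s ^ (-ε₁) = Real.exp (ε₁ * Real.log (1 / s)) := by
  rw [Real.rpow_def_of_pos hs, one_div, Real.log_inv]
  congr 1
  ring

theorem geom_half {c : ℝ} (hc : 0 < c) (J : ℕ) :
    ∑ j ∈ range J, ((1 / 2 : ℝ) ^ c) ^ j ≤ (1 - (1 / 2 : ℝ) ^ c)⁻¹ := by
  have hc1 : (1 / 2 : ℝ) ^ c < 1 := Real.rpow_lt_one (by norm_num) (by norm_num) hc
  have hc0 : 0 < (1 / 2 : ℝ) ^ c := Real.rpow_pos_of_pos (by norm_num) _
  rw [← tsum_geometric_of_lt_one hc0.le hc1]
  exact (summable_geometric_of_lt_one hc0.le hc1).sum_le_tsum _ (fun j _ => by positivity)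

theorem half_pow_rpow (c : ℝ) (j : ℕ) :
    ((1 / 2 : ℝ) ^ j) ^ (1 + c) = ((1 / 2 : ℝ) ^ c) ^ j * (1 / 2 : ℝ) ^ j := by
  have hs0 : (0 : ℝ) < (1 / 2 : ℝ) ^ j := by positivity
  rw [Real.rpow_add hs0, Real.rpow_one, ← Real.rpow_natCast, ← Real.rpow_natCast,
    ← Real.rpow_mul (by (clear * -; norm_num)), ← Real.rpow_mul (by norm_num), mul_comm (j : ℝ) c, mul_comm]

/-- block bound for `ψ ≤ exp (-(log log q)^(1+δ))` -/
theorem block2 {γ c₀ τ : ℝ} (hc₀ : 0 < c₀) (hτ : 1 ≤ τ) (hD : Dioph γ c₀ τ) {δ : ℝ}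
    (hδ : 0 < δ) :
    ∃ A X₁ : ℝ, 0 ≤ A ∧ BlockBound γ (fun X ψ f => ∀ q, f q ≠ 0 →
      ψ q ≤ Real.exp (-(Real.log (Real.log X)) ^ (1 + δ))) A X₁ := by
  classical
  obtain ⟨ε₁, A, C, c, X₀, hε₁, hA, hC, hc, hcom⟩ := block_common hc₀ hτ hD
  set κ : ℝ := (2 * A / ε₁) ^ (δ / 2) / (δ / 2) with hκ
  have hκ0 : 0 < κ := by (clear * - hA hε₁ hδ; positivity)
  set C₆ : ℝ := (A + 1) * (2 / ε₁ * κ) + 1 with hC₆
  have hC₆0 : 0 < C₆ := by positivity
  set l₀ : ℝ := max 1 (C₆ ^ (2 / δ)) with hl₀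
  have hc1 : (1 / 2 : ℝ) ^ c < 1 := Real.rpow_lt_one (by norm_num) (by norm_num) hc
  refine ⟨C * (1 - (1 / 2 : ℝ) ^ c)⁻¹, max X₀ (Real.exp (Real.exp l₀)), ?_, ?_⟩
  · have : 0 < 1 - (1 / 2 : ℝ) ^ c := by linarith only [hc1]
    (clear * - hC hc1; positivity)
  intro X hX N ψ f hψ hf hH hsupp hF
  have hX0 : X₀ ≤ X := (le_max_left _ _).trans hX
  have hXe : Real.exp (Real.exp l₀) ≤ X := (le_max_right _ _).trans hX
  have hXpos : 0 < X := (Real.exp_pos _).trans_le hXe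
  have hLge : Real.exp l₀ ≤ Real.log X := by
    rw [Real.le_log_iff_exp_le hXpos]
    exact hXe
  have hlge : l₀ ≤ Real.log (Real.log X) := by
    rw [Real.le_log_iff_exp_le ((Real.exp_pos _).trans_le hLge)]
    exact hLge
  generalize hldef : Real.log (Real.log X) = l at hlge hH hcom
  have hl1 : 1 ≤ l := (le_max_left _ _).trans hlge
  have hl2 : C₆ ≤ l ^ (δ / 2) := by
    have h1 : C₆ ^ (2 / δ) ≤ l := (le_max_right _ _).trans hlge
    have h2 : (C₆ ^ (2 / δ)) ^ (δ / 2) ≤ l ^ (δ / 2) :=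
      Real.rpow_le_rpow (by positivity) h1 (by positivity)
    rw [← Real.rpow_mul hC₆0.le] at h2
    rw [show 2 / δ * (δ / 2) = 1 by field_simp, Real.rpow_one] at h2
    exact h2
  refine ⟨fun j => C * ((1 / 2 : ℝ) ^ c) ^ j, fun j => by positivity, ?_, ?_⟩
  · intro J
    rw [← mul_sum]
    exact mul_le_mul_of_nonneg_left (geom_half hc J) hC.le
  · intro j hj
    have hs0 : (0 : ℝ) < (1 / 2 : ℝ) ^ j := by positivity
    have hs4 : (1 / 2 : ℝ) ^ j ≤ 1 / 4 := by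
      have : (1 / 2 : ℝ) ^ j ≤ (1 / 2 : ℝ) ^ 2 :=
        pow_le_pow_of_le_one (by norm_num) (by norm_num) hj
      norm_num at this ⊢
      linarith only [this]
    have hpw := half_pow_rpow c j
    have h1 := hcom X ((1 / 2 : ℝ) ^ j) hX0 hs0 hs4 N ψ f hψ hf hsupp hF
    rw [hldef] at h1
    generalize (1 / 2 : ℝ) ^ j = s at hs0 hs4 h1 hpw ⊢
    have hgoal : ∀ Y : ℝ, Y ≤ C * s ^ (1 + c) * ∑ q ∈ Icc 1 N, f q →
        Y ≤ C * ((1 / 2 : ℝ) ^ c) ^ j * s * ∑ q ∈ Icc 1 N, f q := by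
      intro Y hY
      refine hY.trans (le_of_eq ?_)
      rw [hpw]
      ring
    rcases h1 with h1 | ⟨h1, h2, -⟩
    · exact hgoal _ h1
    · apply hgoal
      have ht1 := log_inv_ge_one hs0 hs4
      rw [rpow_neg_eq_exp hs0] at h1
      obtain ⟨hM, ht⟩ := hard_range hε₁ (by linarith only [ht1]) h1
      generalize htdef : Real.log (1 / s) = t at ht1 ht h1 h2
      have hlogM : Real.log (2 * (A * l) / ε₁) ≤ κ * l ^ (δ / 2) := by
        have h3 := Real.log_le_rpow_div (x := 2 * (A * l) / ε₁) (ε := δ / 2) (by (clear * - hA hl1 hε₁; positivity))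
          (by positivity)
        refine h3.trans (le_of_eq ?_)
        rw [hκ, show 2 * (A * l) / ε₁ = (2 * A / ε₁) * l by ring,
          Real.mul_rpow (by positivity) (by (clear * - hl1; positivity))]
        ring
      have ht2 : t ≤ 2 / ε₁ * κ * l ^ (δ / 2) := by
        calc t ≤ 2 / ε₁ * Real.log (2 * (A * l) / ε₁) := ht
          _ ≤ 2 / ε₁ * (κ * l ^ (δ / 2)) := mul_le_mul_of_nonneg_left hlogM (by positivity)
          _ = _ := by ring
      have hlδ1 : 1 ≤ l ^ (δ / 2) := Real.one_le_rpow hl1 (by positivity)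
      have hpow : l ^ (1 + δ) = l * (l ^ (δ / 2) * l ^ (δ / 2)) := by
        rw [← Real.rpow_add (by linarith only [hl1]), ← Real.rpow_one_add' (by linarith only [hl1]) (by positivity)]
        congr 1
        ring
      have hmain : A * l * t + t + 1 ≤ l ^ (1 + δ) := by
        have h4 : A * l * t + t ≤ (A + 1) * l * t := by nlinarith only [hl1, ht1]
        have h5 : (A + 1) * l * t ≤ (A + 1) * l * (2 / ε₁ * κ * l ^ (δ / 2)) :=
          mul_le_mul_of_nonneg_left ht2 (by (clear * - hA hl1; positivity))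
        have h6 : (1 : ℝ) ≤ l * l ^ (δ / 2) := by nlinarith only [hl2, ht1, h4, h5, hA, hC₆0, hl1]
        have h7 : C₆ * (l * l ^ (δ / 2)) ≤ l ^ (δ / 2) * (l * l ^ (δ / 2)) :=
          mul_le_mul_of_nonneg_right hl2 (by (clear * - hl1; positivity))
        have h8 : C₆ * (l * l ^ (δ / 2)) = (A + 1) * l * (2 / ε₁ * κ * l ^ (δ / 2)) +
            l * l ^ (δ / 2) := by rw [hC₆]; ring
        rw [hpow]
        linarith only [h4, h5, h6, h7]
      have hlog2 : Real.log 2 ≤ 1 := by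
        have := Real.log_two_lt_d9
        linarith only [this]
      have hV : Real.exp (A * l * t) ≤ s / 2 * Real.exp (l ^ (1 + δ)) := by
        have h4 : s / 2 * Real.exp (l ^ (1 + δ)) =
            Real.exp (Real.log s - Real.log 2 + l ^ (1 + δ)) := by
          rw [Real.exp_add, Real.exp_sub, Real.exp_log hs0, Real.exp_log (by norm_num)]
        rw [h4]
        apply Real.exp_le_exp.2
        have h5 : Real.log s = -t := by
          rw [← htdef, one_div, Real.log_inv, neg_neg]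
        linarith only [hmain, hlog2, h5]
      refine le_trans ?_ (h2 _ hV)
      apply psum_mono _ _ _ _ _ _ _ (fun q => (hf q).1) (fun q => (hf q).1)
      rintro q _ r _ ⟨hR, hmax⟩ hne
      refine ⟨⟨hR, ?_⟩, le_rfl⟩
      have hψq := hH q (left_ne_zero_of_mul hne)
      have hψr := hH r (right_ne_zero_of_mul hne)
      set m : ℝ := max (cofac q r : ℝ) (cofac r q : ℝ) with hm
      have hm1 : (cofac q r : ℝ) ≤ m := le_max_left _ _
      have hm2 : (cofac r q : ℝ) ≤ m := le_max_right _ _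
      have hm0 : 0 ≤ m := le_trans (Nat.cast_nonneg _) hm1
      have h5 : max ((cofac r q : ℝ) * ψ q) ((cofac q r : ℝ) * ψ r) ≤
          m * Real.exp (-l ^ (1 + δ)) := by
        refine max_le ?_ ?_
        · exact mul_le_mul hm2 hψq (hψ q) hm0
        · exact mul_le_mul hm1 hψr (hψ r) hm0
      have h6 : s / 2 ≤ m * Real.exp (-l ^ (1 + δ)) := hmax.le.trans h5
      calc s / 2 * Real.exp (l ^ (1 + δ))
          ≤ (m * Real.exp (-l ^ (1 + δ))) * Real.exp (l ^ (1 + δ)) :=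
            mul_le_mul_of_nonneg_right h6 (Real.exp_pos _).le
        _ = m := by
            rw [mul_assoc, ← Real.exp_add, neg_add_cancel, Real.exp_zero, mul_one]


end Vale.P028
end

section

/-!
# Level set bound with the extra weight `(1 + log 1/ψ)^(-ε)`
-/

namespace Vale.P028

open Finset

/-- extra weight -/
noncomputable def omegaW (ε x : ℝ) : ℝ := (1 + Real.log (1 / x)) ^ (-ε)

theorem log_inv_nonneg {x : ℝ} (h0 : 0 ≤ x) (h1 : x ≤ 1) : 0 ≤ Real.log (1 / x) := by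
  rcases h0.eq_or_lt with h | h
  · rw [← h]; simp
  · apply Real.log_nonneg
    rw [le_div_iff₀ h]; linarith

theorem omegaW_pos {ε x : ℝ} (h0 : 0 ≤ x) (h1 : x ≤ 1) : 0 < omegaW ε x := by
  have := log_inv_nonneg h0 h1
  exact Real.rpow_pos_of_pos (by linarith) _

theorem omegaW_le_one {ε x : ℝ} (hε : 0 < ε) (h0 : 0 ≤ x) (h1 : x ≤ 1) : omegaW ε x ≤ 1 := by
  have := log_inv_nonneg h0 h1
  exact Real.rpow_le_one_of_one_le_of_nonpos (by linarith) (by linarith only [hε])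

theorem rpow_two_theta_le {F θ : ℝ} (hF0 : 0 ≤ F) (hF : F ≤ 2) (hθ : 1 / 2 < θ) (hθ1 : θ < 1) :
    F ^ (2 * θ) ≤ 2 * F := by
  rcases hF0.eq_or_lt with h | h
  · rw [← h, Real.zero_rpow (by linarith)]; simp
  · have h1 : F ^ (2 * θ) = F ^ (2 * θ - 1) * F := by
      rw [← Real.rpow_add_one h.ne']; ring_nf
    have h2 : F ^ (2 * θ - 1) ≤ (2 : ℝ) ^ (2 * θ - 1) := Real.rpow_le_rpow hF0 hF (by linarith)
    have h3 : (2 : ℝ) ^ (2 * θ - 1) ≤ (2 : ℝ) ^ (1 : ℝ) :=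
      Real.rpow_le_rpow_of_exponent_le (by norm_num) (by linarith only [hθ1])
    rw [Real.rpow_one] at h3
    rw [h1]
    gcongr
    linarith only [h2, h3]

theorem psum_swap (R : ℕ → ℕ → Prop) (N : ℕ) (f h : ℕ → ℝ) :
    psum R N f h = psum (fun q r => R r q) N h f := by
  classical
  unfold psum
  rw [sum_comm]
  refine sum_congr rfl fun q _ => sum_congr rfl fun r _ => ?_
  simp only [mul_comm]

/-- key estimate: large cofactor forces a small weight. -/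
theorem omegaW_le_of_large {ε ε₁ s x v : ℝ} (hε : 0 < ε) (hs : 0 < s)
    (hs4 : s ≤ 1 / 4) (hx : 0 < x) (hx1 : x ≤ 1) (hv : Real.exp (s ^ (-ε₁)) < v) (h : v * x ≤ s) :
    omegaW ε x ≤ s ^ (ε * ε₁) := by
  have hv0 : 0 < v := (Real.exp_pos _).trans hv
  have h1 : x ≤ 1 / v := by
    rw [le_div_iff₀ hv0, mul_comm]; linarith only [hs4, h]
  have h2 : s ^ (-ε₁) ≤ Real.log (1 / x) := by
    have h3 : v ≤ 1 / x := by
      rw [le_div_iff₀ hx]; linarith only [hs4, h]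
    have h4 : Real.exp (s ^ (-ε₁)) ≤ 1 / x := hv.le.trans h3
    rw [Real.le_log_iff_exp_le (by positivity)]
    exact h4
  have hpos : 0 < s ^ (-ε₁) := Real.rpow_pos_of_pos hs _
  calc omegaW ε x = (1 + Real.log (1 / x)) ^ (-ε) := rfl
    _ ≤ (s ^ (-ε₁)) ^ (-ε) :=
        Real.rpow_le_rpow_of_nonpos hpos (by linarith only [h2]) (by linarith only [hε])
    _ = s ^ (ε * ε₁) := by
        rw [← Real.rpow_mul hs.le]; ring_nf

/-- The far part. -/
theorem far_bound {ε ε₁ : ℝ} (hε : 0 < ε) (hε₁ : 0 < ε₁) :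
    ∃ C c : ℝ, 0 ≤ C ∧ 0 < c ∧ ∀ (N : ℕ) (γ : ℝ) (ψ f : ℕ → ℝ), (∀ q, 0 ≤ ψ q ∧ ψ q ≤ 1 / 4) →
      (∀ q, 0 ≤ f q ∧ f q ≤ ψ q * (q.totient / q) * omegaW ε (ψ q)) →
      (∑ q ∈ Icc 1 N, f q) ≤ 2 → ∀ s : ℝ, 0 < s → s ≤ 1 / 4 →
      psum (fun q r => Rel γ ψ s q r ∧ Real.exp (s ^ (-ε₁)) < (cofac r q : ℝ)) N f f ≤
        C * s ^ (1 + c) * ∑ q ∈ Icc 1 N, f q := by
  classical
  set η : ℝ := ε * ε₁ with hη
  have hη0 : 0 < η := mul_pos hε hε₁
  set θ : ℝ := 1 - 1 / (2 + η / 2) with hθdef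
  have h2η : 0 < 2 + η / 2 := by (clear * - hη0; linarith)
  have hlam : 1 - θ = 1 / (2 + η / 2) := by rw [hθdef]; ring
  have hlam2 : 1 / (2 + η / 2) < 1 / 2 := by
    apply one_div_lt_one_div_of_lt <;> linarith only [hη0]
  have hlam0 : 0 < 1 / (2 + η / 2) := by positivity
  have hθ : 1 / 2 < θ := by rw [hθdef]; linarith only [hlam2]
  have hθ1 : θ < 1 := by rw [hθdef]; linarith only [hlam0]
  obtain ⟨C, hC0, hC⟩ := T1 hθ hθ1
  refine ⟨C * 2, (η / 2) / (2 + η / 2), by (clear * - hC0; positivity), by positivity, ?_⟩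
  intro N γ ψ f hψ hf hF s hs hs4
  set F : ℝ := ∑ q ∈ Icc 1 N, f q with hFdef
  have hf0 : ∀ q, 0 ≤ f q := fun q => (hf q).1
  have hF0 : 0 ≤ F := sum_nonneg fun q _ => hf0 q
  have hφ : ∀ q : ℕ, (0 : ℝ) ≤ (q.totient : ℝ) / q := fun q => by (clear * -; positivity)
  have hω0 : ∀ q, 0 < omegaW ε (ψ q) := fun q =>
    omegaW_pos (hψ q).1 (by linarith only [(hψ q).2])
  have hω1 : ∀ q, omegaW ε (ψ q) ≤ 1 := fun q =>
    omegaW_le_one hε (hψ q).1 (by linarith only [(hψ q).2])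
  -- the truncated function
  set f₁ : ℕ → ℝ := fun q => if omegaW ε (ψ q) ≤ s ^ η then f q else 0 with hf₁
  set ψ₁ : ℕ → ℝ := fun q => if omegaW ε (ψ q) ≤ s ^ η then ψ q * omegaW ε (ψ q) else 0 with hψ₁
  have hf₁0 : ∀ q, 0 ≤ f₁ q := by
    intro q; rw [hf₁]; dsimp only
    split_ifs
    · exact hf0 q
    · exact le_rfl
  have hsη : 0 < s ^ η := Real.rpow_pos_of_pos hs _
  have hkey := hC ψ₁ ψ f₁ f (s * s ^ η) s N (mul_pos hs hsη) hs
    (by
      intro q; rw [hψ₁]; dsimp only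
      split_ifs
      · exact mul_nonneg (hψ q).1 (hω0 q).le
      · exact le_rfl)
    (fun q => (hψ q).1)
    (by
      intro q
      refine ⟨hf₁0 q, ?_⟩
      rw [hf₁, hψ₁]; dsimp only
      split_ifs
      · have := (hf q).2
        linarith only [this]
      · simp)
    (by
      intro r
      refine ⟨hf0 r, (hf r).2.trans ?_⟩
      have h1 : 0 ≤ ψ r * ((r.totient : ℝ) / r) := mul_nonneg (hψ r).1 (hφ r)
      calc ψ r * ((r.totient : ℝ) / r) * omegaW ε (ψ r) ≤ ψ r * ((r.totient : ℝ) / r) * 1 := by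
            gcongr
            exact hω1 r
        _ = _ := by ring)
  have hmono : psum (fun q r => Rel γ ψ s q r ∧ Real.exp (s ^ (-ε₁)) < (cofac r q : ℝ)) N f f ≤
      psum (fun q r => (cofac r q : ℝ) * ψ₁ q ≤ s * s ^ η ∧ (cofac q r : ℝ) * ψ r ≤ s) N f₁ f := by
    apply psum_mono _ _ _ _ _ _ _ hf₁0 hf0
    intro q hq r hr hR hne
    obtain ⟨⟨_, h1, h2, _⟩, h3⟩ := hR
    have hfq : f q ≠ 0 := left_ne_zero_of_mul hne
    have hψq : 0 < ψ q := by
      rcases (hψ q).1.eq_or_lt with h | h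
      · exfalso
        have h4 := (hf q).2
        rw [← h] at h4
        simp only [zero_mul] at h4
        exact hfq (le_antisymm h4 (hf0 q))
      · exact h
    have hω := omegaW_le_of_large (ε := ε) hε hs hs4 hψq (by linarith only [(hψ q).2]) h3 h1
    rw [← hη] at hω
    refine ⟨⟨?_, h2⟩, ?_⟩
    · rw [hψ₁]; dsimp only
      rw [if_pos hω]
      calc (cofac r q : ℝ) * (ψ q * omegaW ε (ψ q)) = ((cofac r q : ℝ) * ψ q) * omegaW ε (ψ q) := by
            ring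
        _ ≤ s * s ^ η := mul_le_mul h1 hω (hω0 q).le hs.le
    · rw [hf₁]; dsimp only
      rw [if_pos hω]
  have hF1 : ∑ q ∈ Icc 1 N, f₁ q ≤ F := by
    refine sum_le_sum fun q _ => ?_
    rw [hf₁]; dsimp only
    split_ifs
    · exact le_rfl
    · exact hf0 q
  have hF10 : 0 ≤ ∑ q ∈ Icc 1 N, f₁ q := sum_nonneg fun q _ => hf₁0 q
  have hpow : ((∑ q ∈ Icc 1 N, f₁ q) * F) ^ θ ≤ 2 * F := by
    calc ((∑ q ∈ Icc 1 N, f₁ q) * F) ^ θ ≤ (F * F) ^ θ := by
          apply Real.rpow_le_rpow (by (clear * - hF10 hF0; positivity)) _ (by linarith only [hlam2])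
          (clear * - hF1 hF0; gcongr)
      _ = F ^ (2 * θ) := by
          rw [← sq, ← Real.rpow_natCast, ← Real.rpow_mul hF0]; norm_num
      _ ≤ 2 * F := rpow_two_theta_le hF0 hF hθ hθ1
  have hexp : (s * s ^ η * s) ^ (1 - θ) = s ^ (1 + (η / 2) / (2 + η / 2)) := by
    have h1 : s * s ^ η * s = s ^ (2 + η) := by
      rw [Real.rpow_add hs, mul_right_comm, ← sq]
      norm_cast
    rw [h1, ← Real.rpow_mul hs.le, hlam]
    congr 1
    field_simp
    ring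
  calc psum (fun q r => Rel γ ψ s q r ∧ Real.exp (s ^ (-ε₁)) < (cofac r q : ℝ)) N f f
      ≤ _ := hmono
    _ ≤ C * (s * s ^ η * s) ^ (1 - θ) * ((∑ q ∈ Icc 1 N, f₁ q) * F) ^ θ := hkey
    _ ≤ C * (s * s ^ η * s) ^ (1 - θ) * (2 * F) := by
        have : 0 ≤ (s * s ^ η * s) ^ (1 - θ) := Real.rpow_nonneg (by (clear * - hs; positivity)) _
        (clear * - hpow hC0 hs; gcongr)
    _ = C * 2 * s ^ (1 + (η / 2) / (2 + η / 2)) * F := by rw [hexp]; ring

theorem classII_bound {γ c₀ τ : ℝ} (hc₀ : 0 < c₀) (hτ : 1 ≤ τ) (hD : Dioph γ c₀ τ) {ε : ℝ}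
    (hε : 0 < ε) :
    ∃ C c : ℝ, 0 ≤ C ∧ 0 < c ∧ ∀ (N : ℕ) (ψ f : ℕ → ℝ), (∀ q, 0 ≤ ψ q ∧ ψ q ≤ 1 / 4) →
      (∀ q, 0 ≤ f q ∧ f q ≤ ψ q * (q.totient / q) * omegaW ε (ψ q)) →
      (∑ q ∈ Icc 1 N, f q) ≤ 2 → ∀ s : ℝ, 0 < s → s ≤ 1 / 4 →
      psum (fun q r => Rel γ ψ s q r ∧
        s / 2 < max ((cofac r q : ℝ) * ψ q) ((cofac q r : ℝ) * ψ r)) N f f ≤
        C * s ^ (1 + c) * ∑ q ∈ Icc 1 N, f q := by
  classical
  obtain ⟨θ₁, ε₁, c₁, C₁, hθ₁, hθ₁', hε₁, hc₁, hC₁, hnear⟩ := near hc₀ hτ hD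
  obtain ⟨C₂, c₂, hC₂, hc₂, hfar⟩ := far_bound hε hε₁
  refine ⟨2 * C₁ + 2 * C₂, min c₁ c₂, by (clear * - hC₁ hC₂; positivity), lt_min hc₁ hc₂, ?_⟩
  intro N ψ f hψ hf hF s hs hs4
  set F : ℝ := ∑ q ∈ Icc 1 N, f q with hFdef
  have hf0 : ∀ q, 0 ≤ f q := fun q => (hf q).1
  have hF0 : 0 ≤ F := sum_nonneg fun q _ => hf0 q
  have hfψ : ∀ q, f q ≤ ψ q := by
    intro q
    have h1 := (hf q).2
    have h2 : (q.totient : ℝ) / q ≤ 1 := by
      rcases Nat.eq_zero_or_pos q with h | h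
      · subst h; simp only [Nat.totient_zero, CharP.cast_eq_zero, div_zero, zero_le_one]
      · rw [div_le_one (by exact_mod_cast h)]
        exact_mod_cast Nat.totient_le q
    have h3 := omegaW_le_one (ε := ε) hε (hψ q).1 (by linarith [(hψ q).2])
    have h4 := (omegaW_pos (ε := ε) (hψ q).1 (by linarith only [(hψ q).2])).le
    have h5 := (hψ q).1
    have h6 : (0 : ℝ) ≤ (q.totient : ℝ) / q := by (clear * -; positivity)
    calc f q ≤ ψ q * (q.totient / q) * omegaW ε (ψ q) := h1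
      _ ≤ ψ q * 1 * 1 := by (clear * - h2 h5 h3 h4; gcongr)
      _ = ψ q := by ring
  have h1 := hnear s hs hs4 N ψ f (fun q => ⟨hf0 q, hfψ q⟩)
  have h2 := hfar N γ ψ f hψ hf hF s hs hs4
  have hsplit : psum (fun q r => Rel γ ψ s q r ∧
        s / 2 < max ((cofac r q : ℝ) * ψ q) ((cofac q r : ℝ) * ψ r)) N f f ≤
      psum (fun q r => Rel γ ψ s q r ∧ (cofac q r : ℝ) ≤ Real.exp (s ^ (-ε₁)) ∧
          (cofac r q : ℝ) ≤ Real.exp (s ^ (-ε₁))) N f f +
      (psum (fun q r => Rel γ ψ s q r ∧ Real.exp (s ^ (-ε₁)) < (cofac r q : ℝ)) N f f +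
       psum (fun q r => Rel γ ψ s q r ∧ Real.exp (s ^ (-ε₁)) < (cofac q r : ℝ)) N f f) := by
    refine (psum_or_le _ (fun q r => Rel γ ψ s q r ∧ (cofac q r : ℝ) ≤ Real.exp (s ^ (-ε₁)) ∧
          (cofac r q : ℝ) ≤ Real.exp (s ^ (-ε₁)))
        (fun q r => (Rel γ ψ s q r ∧ Real.exp (s ^ (-ε₁)) < (cofac r q : ℝ)) ∨
          (Rel γ ψ s q r ∧ Real.exp (s ^ (-ε₁)) < (cofac q r : ℝ))) N f f hf0 hf0 ?_).trans ?_
    · rintro q r ⟨hR, _⟩
      by_cases h3 : Real.exp (s ^ (-ε₁)) < (cofac r q : ℝ)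
      · exact Or.inr (Or.inl ⟨hR, h3⟩)
      · by_cases h4 : Real.exp (s ^ (-ε₁)) < (cofac q r : ℝ)
        · exact Or.inr (Or.inr ⟨hR, h4⟩)
        · exact Or.inl ⟨hR, not_lt.mp h4, not_lt.mp h3⟩
    · gcongr
      exact psum_or_le _ _ _ N f f hf0 hf0 (fun q r h => h)
  have hswap : psum (fun q r => Rel γ ψ s q r ∧ Real.exp (s ^ (-ε₁)) < (cofac q r : ℝ)) N f f ≤
      psum (fun q r => Rel γ ψ s q r ∧ Real.exp (s ^ (-ε₁)) < (cofac r q : ℝ)) N f f := by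
    rw [psum_swap]
    apply psum_mono _ _ _ _ _ _ _ hf0 hf0
    rintro q _ r _ ⟨⟨h3, h4, h5, h6⟩, h7⟩ _
    refine ⟨⟨⟨fun h => h3 h.symm, h5, h4, ?_⟩, h7⟩, le_rfl⟩
    have e : ((cofac q r : ℝ) - (cofac r q : ℝ)) * γ = -(((cofac r q : ℝ) - (cofac q r : ℝ)) * γ) := by
      ring
    rw [e, distInt_neg]
    exact h6
  have hs1 : s ≤ 1 := by linarith only [hs4]
  have hp1 : s ^ (1 + c₁) ≤ s ^ (1 + min c₁ c₂) :=
    Real.rpow_le_rpow_of_exponent_ge hs hs1 (by linarith only [min_le_left c₁ c₂])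
  have hp2 : s ^ (1 + c₂) ≤ s ^ (1 + min c₁ c₂) :=
    Real.rpow_le_rpow_of_exponent_ge hs hs1 (by linarith only [min_le_right c₁ c₂])
  have hFθ := rpow_two_theta_le hF0 hF hθ₁ hθ₁'
  have hpn : 0 ≤ s ^ (1 + c₁) := (Real.rpow_pos_of_pos hs _).le
  calc _ ≤ _ := hsplit
    _ ≤ C₁ * s ^ (1 + c₁) * F ^ (2 * θ₁) +
        (C₂ * s ^ (1 + c₂) * F + C₂ * s ^ (1 + c₂) * F) := by
        gcongr
        · exact hswap.trans h2
    _ ≤ C₁ * s ^ (1 + min c₁ c₂) * (2 * F) +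
        (C₂ * s ^ (1 + min c₁ c₂) * F + C₂ * s ^ (1 + min c₁ c₂) * F) := by
        (clear * - hp1 hC₁ hFθ hF0 hs hp2 hC₂; gcongr)
    _ = (2 * C₁ + 2 * C₂) * s ^ (1 + min c₁ c₂) * F := by ring

end Vale.P028
end
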