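import Vale.Agent.P028.MathlibUsed
import Vale.Agent.P028.Bdl.B4
import Vale.Agent.P028.Bdl.B3
import Vale.Agent.P028.Bdl.B1

set_option linter.all false

section

/-!
# Supports with `ψ(q) ≤ exp(-(log log q)^(2+δ))`
-/

namespace Vale.P028

open Finset

theorem totient_div_le_one (q : ℕ) : (q.totient : ℝ) / q ≤ 1 := by
  rcases Nat.eq_zero_or_pos q with h | h
  · subst h; simp only [Nat.totient_zero, CharP.cast_eq_zero, div_zero, zero_le_one]
  · rw [div_le_one (by exact_mod_cast h)]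
    exact_mod_cast Nat.totient_le q

theorem totient_div_nonneg (q : ℕ) : 0 ≤ (q.totient : ℝ) / q := by positivity

theorem cofac_le_self (q r : ℕ) : cofac q r ≤ q := Nat.div_le_self _ _

theorem classI_block {γ c₀ τ : ℝ} (hc₀ : 0 < c₀) (hτ : 1 ≤ τ) (hD : Dioph γ c₀ τ) {δ : ℝ}
    (hδ : 0 < δ) :
    ∃ C c X₁ : ℝ, 0 ≤ C ∧ 0 < c ∧ ∀ X : ℝ, X₁ ≤ X → ∀ (N : ℕ) (ψ f : ℕ → ℝ), (∀ q, 0 ≤ ψ q) →
      (∀ q, 0 ≤ f q ∧ f q ≤ ψ q * (q.totient / q)) →
      (∀ q, f q ≠ 0 → X ≤ q ∧ (q : ℝ) ≤ X ^ 9 ∧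
          ψ q ≤ Real.exp (-(Real.log (Real.log X)) ^ (2 + δ))) →
      (∑ q ∈ Icc 1 N, f q) ≤ 2 → ∀ s : ℝ, 0 < s → s ≤ 1 / 4 →
      psum (fun q r => Rel γ ψ s q r ∧
        s / 2 < max ((cofac r q : ℝ) * ψ q) ((cofac q r : ℝ) * ψ r)) N f f ≤
        C * s ^ (1 + c) * ∑ q ∈ Icc 1 N, f q := by
  classical
  obtain ⟨θ₁, ε₁, c₁, C₁, hθ₁, hθ₁', hε₁, hc₁, hC₁, hnear⟩ := near hc₀ hτ hD
  obtain ⟨θ₂, c₂, C₂, X₀, hθ₂, hθ₂', hc₂, hC₂, hB⟩ := caseB hc₀ hτ hD hε₁ hδ
  refine ⟨2 * C₁ + 2 * C₂, min c₁ c₂, max X₀ 3, by positivity, lt_min hc₁ hc₂, ?_⟩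
  intro X hX N ψ f hψ hf hsupp hF s hs hs4
  have hX3 : 3 ≤ X := (le_max_right _ _).trans hX
  have hlogX : 0 < Real.log X := Real.log_pos (by linarith only [hX3])
  set F : ℝ := ∑ q ∈ Icc 1 N, f q with hFdef
  have hf0 : ∀ q, 0 ≤ f q := fun q => (hf q).1
  have hF0 : 0 ≤ F := sum_nonneg fun q _ => hf0 q
  have hfψ : ∀ q, f q ≤ ψ q := by
    intro q
    refine (hf q).2.trans ?_
    calc ψ q * (q.totient / q) ≤ ψ q * 1 := by
          gcongr
          · exact hψ q
          · exact totient_div_le_one q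
      _ = ψ q := mul_one _
  have hs1 : s ≤ 1 := by linarith only [hs4]
  have hp1 : s ^ (1 + c₁) ≤ s ^ (1 + min c₁ c₂) :=
    Real.rpow_le_rpow_of_exponent_ge hs hs1 (by linarith only [min_le_left c₁ c₂])
  have hp2 : s ^ (1 + c₂) ≤ s ^ (1 + min c₁ c₂) :=
    Real.rpow_le_rpow_of_exponent_ge hs hs1 (by linarith only [min_le_right c₁ c₂])
  have hp0 : 0 ≤ s ^ (1 + min c₁ c₂) := (Real.rpow_pos_of_pos hs _).le
  have hpn1 : 0 ≤ s ^ (1 + c₁) := (Real.rpow_pos_of_pos hs _).le
  have hpn2 : 0 ≤ s ^ (1 + c₂) := (Real.rpow_pos_of_pos hs _).le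
  have hFθ₁ := rpow_two_theta_le hF0 hF hθ₁ hθ₁'
  have hFθ₂ := rpow_two_theta_le hF0 hF hθ₂ hθ₂'
  rcases le_or_gt ((18 * Real.log X) ^ (-1 / ε₁)) s with hcase | hcase
  · have h1 := hB X s ((le_max_left _ _).trans hX) hcase hs4 N ψ f hψ hf hsupp
    calc _ ≤ _ := h1
      _ ≤ C₂ * s ^ (1 + min c₁ c₂) * (2 * F) := by (clear * - hp2 hC₂ hFθ₂ hF0 hs; gcongr)
      _ ≤ (2 * C₁ + 2 * C₂) * s ^ (1 + min c₁ c₂) * F := by
          have : 0 ≤ 2 * C₁ * s ^ (1 + min c₁ c₂) * F := by (clear * - hC₁ hs hF0; positivity)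
          linarith only [this]
  · have hA : 18 * Real.log X ≤ s ^ (-ε₁) := by
      have hA0 : 0 < 18 * Real.log X := by (clear * - hlogX; positivity)
      have h2 : ((18 * Real.log X) ^ (-1 / ε₁)) ^ (-ε₁) ≤ s ^ (-ε₁) :=
        Real.rpow_le_rpow_of_nonpos hs hcase.le (by linarith only [hε₁])
      rw [← Real.rpow_mul hA0.le] at h2
      have e : -1 / ε₁ * -ε₁ = 1 := by (clear * - hε₁; field_simp)
      rwa [e, Real.rpow_one] at h2
    have h1 := hnear s hs hs4 N ψ f (fun q => ⟨hf0 q, hfψ q⟩)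
    have hbound : ∀ q r : ℕ, f q ≠ 0 → (cofac q r : ℝ) ≤ Real.exp (s ^ (-ε₁)) := by
      intro q r hq
      obtain ⟨_, h3, _⟩ := hsupp q hq
      have h4 : (cofac q r : ℝ) ≤ q := by exact_mod_cast cofac_le_self q r
      have hX0 : 0 < X := by linarith only [hX3]
      have h5 : X ^ 9 = Real.exp (9 * Real.log X) := by
        rw [mul_comm, Real.exp_mul, Real.exp_log hX0]
        norm_cast
      rw [h5] at h3
      refine h4.trans (h3.trans (Real.exp_le_exp.mpr ?_))
      linarith only [hlogX, hA]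
    have hmono : psum (fun q r => Rel γ ψ s q r ∧
        s / 2 < max ((cofac r q : ℝ) * ψ q) ((cofac q r : ℝ) * ψ r)) N f f ≤
        psum (fun q r => Rel γ ψ s q r ∧ (cofac q r : ℝ) ≤ Real.exp (s ^ (-ε₁)) ∧
          (cofac r q : ℝ) ≤ Real.exp (s ^ (-ε₁))) N f f := by
      apply psum_mono _ _ _ _ _ _ _ hf0 hf0
      rintro q _ r _ ⟨hR, _⟩ hne
      exact ⟨⟨hR, hbound q r (left_ne_zero_of_mul hne), hbound r q (right_ne_zero_of_mul hne)⟩,
        le_rfl⟩
    calc _ ≤ _ := hmono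
      _ ≤ _ := h1
      _ ≤ C₁ * s ^ (1 + min c₁ c₂) * (2 * F) := by (clear * - hp1 hC₁ hFθ₁ hF0 hs; gcongr)
      _ ≤ (2 * C₁ + 2 * C₂) * s ^ (1 + min c₁ c₂) * F := by
          have : 0 ≤ 2 * C₂ * s ^ (1 + min c₁ c₂) * F := by (clear * - hC₂ hs hF0; positivity)
          linarith only [this]

/-- level index: `3^i ≤ log q < 3^(i+1)` -/
noncomputable def lev (q : ℕ) : ℕ := ⌊Real.logb 3 (Real.log q)⌋₊

theorem lev_spec {q : ℕ} (hq : 3 ≤ q) :
    (3 : ℝ) ^ lev q ≤ Real.log q ∧ Real.log q < (3 : ℝ) ^ (lev q + 1) := by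
  have h1 : 1 < Real.log q := by
    have h2 : Real.exp 1 < 3 := lt_trans Real.exp_one_lt_d9 (by norm_num)
    rw [Real.lt_log_iff_exp_lt (by (clear * - hq; positivity))]
    refine h2.trans_le ?_
    exact_mod_cast hq
  have h0 : 0 < Real.log q := by linarith only [h1]
  have h3 : 0 ≤ Real.logb 3 (Real.log q) := Real.logb_nonneg (by norm_num) h1.le
  constructor
  · have := Nat.floor_le h3
    rw [← Real.rpow_natCast, ← Real.le_logb_iff_rpow_le (by norm_num) h0]
    exact this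
  · have := Nat.lt_floor_add_one (Real.logb 3 (Real.log q))
    rw [← Real.rpow_natCast, ← Real.logb_lt_iff_lt_rpow (by norm_num) h0]
    push_cast
    exact this

theorem lev_le_of_lt_cube {q r : ℕ} (hq : 3 ≤ q) (hr : 3 ≤ r) (h : (r : ℝ) < (q : ℝ) ^ 3) :
    lev r ≤ lev q + 1 := by
  obtain ⟨h1, h2⟩ := lev_spec hq
  obtain ⟨h3, h4⟩ := lev_spec hr
  have hr0 : (0 : ℝ) < r := by (clear * - hr; positivity)
  have h5 : Real.log r < 3 * Real.log q := by
    have := Real.log_lt_log hr0 h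
    rwa [Real.log_pow] at this
  have h6 : (3 : ℝ) ^ lev r < (3 : ℝ) ^ (lev q + 2) := by
    calc (3 : ℝ) ^ lev r ≤ Real.log r := h3
      _ < 3 * Real.log q := h5
      _ < 3 * (3 : ℝ) ^ (lev q + 1) := by linarith only [h2]
      _ = (3 : ℝ) ^ (lev q + 2) := by ring
  have h7 := (pow_lt_pow_iff_right₀ (by norm_num : (1 : ℝ) < 3)).mp h6
  omega

theorem classI_T {γ c₀ τ : ℝ} (hc₀ : 0 < c₀) (hτ : 1 ≤ τ) (hD : Dioph γ c₀ τ) {δ : ℝ}
    (hδ : 0 < δ) :
    ∃ (C : ℝ) (Q₀ : ℕ), 0 ≤ C ∧ ∀ (S : Finset ℕ) (ψ : ℕ → ℝ), (∀ q, 0 ≤ ψ q) →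
      (∀ q ∈ S, Q₀ ≤ q ∧ ((q : ℝ) ^ 2)⁻¹ ≤ ψ q ∧
        ψ q ≤ Real.exp (-(Real.log (Real.log q)) ^ (2 + δ))) →
      (∑ q ∈ S, ψ q * (q.totient / q)) ≤ 2 →
      ∀ T : Finset (ℕ × ℕ), (∀ p ∈ T, p.1 ∈ S ∧ p.2 ∈ S ∧ DD p.1 p.2 (ψ p.1) (ψ p.2) < 1 / 4 ∧
        ∃ m : ℤ, |(m : ℝ) - (((p.2 / Nat.gcd p.1 p.2 : ℕ) : ℝ) - (p.1 / Nat.gcd p.1 p.2 : ℕ)) * γ|
          < 2 * DD p.1 p.2 (ψ p.1) (ψ p.2)) →
      ∑ p ∈ T, (ψ p.1 * (p.1.totient / p.1)) * (ψ p.2 * (p.2.totient / p.2)) /
        DD p.1 p.2 (ψ p.1) (ψ p.2) ≤ C * ∑ q ∈ S, ψ q * (q.totient / q) := by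
  classical
  obtain ⟨C, c, X₁, hC, hc, hblock⟩ := classI_block hc₀ hτ hD hδ
  obtain ⟨i₀, hi₀⟩ : ∃ i₀ : ℕ, max X₁ 1 ≤ Real.exp ((3 : ℝ) ^ i₀) := by
    obtain ⟨i₀, hi₀⟩ := pow_unbounded_of_one_lt (max X₁ 1) (by norm_num : (1 : ℝ) < 3)
    exact ⟨i₀, hi₀.le.trans ((by linarith [Real.add_one_le_exp ((3 : ℝ) ^ i₀)]))⟩
  have hc1 : (1 / 2 : ℝ) ^ c < 1 := Real.rpow_lt_one (by norm_num) (by norm_num) hc
  set C' : ℝ := 1 + 2 * C / (1 - (1 / 2 : ℝ) ^ c) with hC'
  have hC'0 : 0 ≤ C' := by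
    have : 0 ≤ 2 * C / (1 - (1 / 2 : ℝ) ^ c) := div_nonneg (by (clear * - hC; positivity)) (by linarith only [hc1])
    linarith only [this]
  refine ⟨2 * C', max 3 (⌈Real.exp ((3 : ℝ) ^ i₀)⌉₊), by (clear * - hC hc1; positivity), ?_⟩
  intro S ψ hψ hS hF T hT
  have hS3 : ∀ q ∈ S, 3 ≤ q := fun q hq => (le_max_left _ _).trans (hS q hq).1
  have hSbig : ∀ q ∈ S, Real.exp ((3 : ℝ) ^ i₀) ≤ q := by
    intro q hq
    have := (le_max_right _ _).trans (hS q hq).1
    exact Nat.ceil_le.mp this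
  have hlev0 : ∀ q ∈ S, i₀ ≤ lev q := by
    intro q hq
    have h3 := hS3 q hq
    obtain ⟨h1, h2⟩ := lev_spec h3
    have h4 : (3 : ℝ) ^ i₀ ≤ Real.log q := by
      rw [Real.le_log_iff_exp_le (by (clear * - h3; positivity))]
      exact hSbig q hq
    have h5 := (pow_lt_pow_iff_right₀ (by norm_num : (1 : ℝ) < 3)).mp (h4.trans_lt h2)
    (clear * - h5; omega)
  set g : ℕ → ℝ := fun q => ψ q * (q.totient / q) with hg
  have hg0 : ∀ q, 0 ≤ g q := fun q => mul_nonneg (hψ q) (totient_div_nonneg q)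
  have hψpos : ∀ q ∈ S, 0 < ψ q := by
    intro q hq
    have h3 := hS3 q hq
    have : (0 : ℝ) < ((q : ℝ) ^ 2)⁻¹ := by (clear * - h3; positivity)
    exact this.trans_le (hS q hq).2.1
  -- size relation
  have hcube : ∀ q ∈ S, ∀ r ∈ S, DD q r (ψ q) (ψ r) < 1 / 4 → (r : ℝ) < (q : ℝ) ^ 3 := by
    intro q hq r hr hDD
    have hq3 := hS3 q hq
    have hr3 := hS3 r hr
    have hq0 : (0 : ℝ) < q := by (clear * - hq3; positivity)
    have hgcd : 0 < Nat.gcd q r := Nat.gcd_pos_of_pos_left _ (by (clear * - hq3; omega))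
    have hgR : (0 : ℝ) < Nat.gcd q r := by exact_mod_cast hgcd
    have hgq : (Nat.gcd q r : ℝ) ≤ q := by exact_mod_cast Nat.gcd_le_left r (by (clear * - hq3; omega))
    have h1 : (r : ℝ) * ψ q / Nat.gcd q r ≤ DD q r (ψ q) (ψ r) := by
      unfold DD
      gcongr
      exact le_max_left _ _
    have h2 : (r : ℝ) * ((q : ℝ) ^ 2)⁻¹ / q ≤ (r : ℝ) * ψ q / Nat.gcd q r := by
      have := (hS q hq).2.1
      have := hψ q
      (clear γ c₀ τ hc₀ hτ hD hδ C c X₁ hC hc hblock hi₀ hc1 C' hC' hC'0 T hT hSbig hlev0 g hF hg hg0 hψpos hDD hq0 hgcd hgR h1; gcongr)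
    have h3 : (r : ℝ) * ((q : ℝ) ^ 2)⁻¹ / q = r / (q : ℝ) ^ 3 := by
      (clear * - hq3 hr3; field_simp)
    rw [h3] at h2
    have h4 : (r : ℝ) / (q : ℝ) ^ 3 < 1 := by linarith only [hDD, h1, h2]
    rwa [div_lt_one (by (clear * - hq3; positivity))] at h4
  have hDsymm : ∀ q r : ℕ, DD q r (ψ q) (ψ r) = DD r q (ψ r) (ψ q) := by
    intro q r
    unfold DD
    rw [max_comm, Nat.gcd_comm]
  -- blocks
  set B : ℕ → Finset ℕ := fun i => S.filter (fun q => lev q = i ∨ lev q = i + 1) with hB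
  set TT : ℕ → Finset (ℕ × ℕ) := fun i => T.filter (fun p => p.1 ∈ B i ∧ p.2 ∈ B i) with hTT
  set I : ℕ := (S.sup lev) + 1 with hI
  have hlevI : ∀ q ∈ S, lev q < I := by
    intro q hq
    have := le_sup (f := lev) hq
    omega
  have hblocksum : ∀ i ∈ Ico i₀ I, ∑ p ∈ TT i, g p.1 * g p.2 / DD p.1 p.2 (ψ p.1) (ψ p.2) ≤
      C' * ∑ q ∈ B i, g q := by
    intro i hi
    rw [mem_Ico] at hi
    set X : ℝ := Real.exp ((3 : ℝ) ^ i) with hX
    have hX1 : X₁ ≤ X := by
      refine (le_max_left _ _).trans (hi₀.trans ?_)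
      rw [hX]
      apply Real.exp_le_exp.mpr
      exact pow_le_pow_right₀ (by norm_num) hi.1
    set f : ℕ → ℝ := fun q => if q ∈ B i then g q else 0 with hf
    set N : ℕ := (B i).sup id with hN
    have hBN : ∀ q ∈ B i, q ≤ N := fun q hq => le_sup (f := id) hq
    have hBS : ∀ q ∈ B i, q ∈ S := fun q hq => (mem_filter.mp hq).1
    have hfsum : ∑ q ∈ Icc 1 N, f q = ∑ q ∈ B i, g q := by
      rw [hf, ← sum_filter]
      congr 1
      ext q
      rw [mem_filter, mem_Icc]
      constructor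
      · exact fun h => h.2
      · intro h
        have := hS3 q (hBS q h)
        exact ⟨⟨by omega, hBN q h⟩, h⟩
    have hFi : ∑ q ∈ Icc 1 N, f q ≤ 2 := by
      rw [hfsum]
      refine le_trans ?_ hF
      exact sum_le_sum_of_subset_of_nonneg (filter_subset _ _) fun q _ _ => hg0 q
    have hf0 : ∀ q, 0 ≤ f q := by
      intro q; rw [hf]; dsimp only
      split_ifs
      · exact hg0 q
      · exact le_rfl
    have hfg : ∀ q, f q ≤ g q := by
      intro q; rw [hf]; dsimp only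
      split_ifs
      · exact le_rfl
      · exact hg0 q
    have hlX : Real.log X = (3 : ℝ) ^ i := by rw [hX, Real.log_exp]
    have hkey := hblock X hX1 N ψ f hψ (fun q => ⟨hf0 q, hfg q⟩) (by
      intro q hq
      have hqB : q ∈ B i := by
        by_contra h
        apply hq
        rw [hf]; dsimp only
        rw [if_neg h]
      have hqS := hBS q hqB
      have hq3 := hS3 q hqS
      have hq0 : (0 : ℝ) < q := by (clear * - hq3; positivity)
      obtain ⟨h1, h2⟩ := lev_spec hq3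
      have hl : lev q = i ∨ lev q = i + 1 := (mem_filter.mp hqB).2
      have h3 : (3 : ℝ) ^ i ≤ (3 : ℝ) ^ lev q := pow_le_pow_right₀ (by norm_num) (by omega)
      have h4 : (3 : ℝ) ^ (lev q + 1) ≤ (3 : ℝ) ^ (i + 2) :=
        pow_le_pow_right₀ (by norm_num) (by omega)
      refine ⟨?_, ?_, ?_⟩
      · rw [hX, ← Real.le_log_iff_exp_le hq0]
        linarith only [h1, h3]
      · have h5 : X ^ 9 = Real.exp ((3 : ℝ) ^ (i + 2)) := by
          rw [hX, ← Real.exp_nat_mul]
          congr 1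
          push_cast
          ring
        rw [h5, ← Real.log_le_iff_le_exp hq0]
        linarith only [h2, h4]
      · refine (hS q hqS).2.2.trans ?_
        apply Real.exp_le_exp.mpr
        apply neg_le_neg
        have h6 : 0 ≤ Real.log (Real.log X) := by
          rw [hlX]
          apply Real.log_nonneg
          exact one_le_pow₀ (by norm_num)
        apply Real.rpow_le_rpow h6 _ (by linarith only [hδ])
        apply Real.log_le_log
        · rw [hlX]; positivity
        · rw [hlX]; linarith only [h1, h3]) hFi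
    have h5 := dyadic_sum (γ := γ) (ψ := ψ) (f := f) (N := N) hC hc (B i)
      (fun q hq => ⟨by have := hS3 q (hBS q hq); omega, hBN q hq, hψpos q (hBS q hq)⟩)
      hf0 (fun q => (hfg q).trans (by
        rw [hg]; dsimp only
        calc ψ q * (q.totient / q) ≤ ψ q * 1 := by
              gcongr
              · exact hψ q
              · exact totient_div_le_one q
          _ = ψ q := mul_one _)) hkey (TT i) (by
        intro p hp
        rw [hTT, mem_filter] at hp
        obtain ⟨hp1, hp2, hp3⟩ := hp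
        exact ⟨hp2, hp3, (hT p hp1).2.2⟩)
    rw [hfsum] at h5
    refine le_trans (le_of_eq ?_) h5
    refine sum_congr rfl fun p hp => ?_
    rw [hTT, mem_filter] at hp
    rw [hf]; dsimp only
    rw [if_pos hp.2.1, if_pos hp.2.2]
  -- covering
  have hcover : ∑ p ∈ T, g p.1 * g p.2 / DD p.1 p.2 (ψ p.1) (ψ p.2) ≤
      ∑ i ∈ Ico i₀ I, ∑ p ∈ TT i, g p.1 * g p.2 / DD p.1 p.2 (ψ p.1) (ψ p.2) := by
    have hDnn : ∀ p ∈ T, 0 ≤ g p.1 * g p.2 / DD p.1 p.2 (ψ p.1) (ψ p.2) := by
      intro p hp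
      have h1 : 0 ≤ DD p.1 p.2 (ψ p.1) (ψ p.2) := by
        unfold DD
        have := hψ p.1
        (clear * - this; positivity)
      exact div_nonneg (mul_nonneg (hg0 _) (hg0 _)) h1
    have hmaps : ∀ p ∈ T, min (lev p.1) (lev p.2) ∈ Ico i₀ I := by
      intro p hp
      obtain ⟨h1, h2, _⟩ := hT p hp
      rw [mem_Ico]
      exact ⟨le_min (hlev0 _ h1) (hlev0 _ h2), (min_le_left _ _).trans_lt (hlevI _ h1)⟩
    rw [← sum_fiberwise_of_maps_to hmaps]
    refine sum_le_sum fun i _ => ?_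
    refine sum_le_sum_of_subset_of_nonneg ?_ ?_
    · intro p hp
      rw [mem_filter] at hp
      obtain ⟨hp1, hp2⟩ := hp
      obtain ⟨h1, h2, h3, _⟩ := hT p hp1
      have h4 := lev_le_of_lt_cube (hS3 _ h1) (hS3 _ h2) (hcube _ h1 _ h2 h3)
      have h5 := lev_le_of_lt_cube (hS3 _ h2) (hS3 _ h1)
        (hcube _ h2 _ h1 (by rw [← hDsymm]; exact h3))
      rw [hTT, mem_filter, hB]
      dsimp only
      rw [mem_filter, mem_filter]
      refine ⟨hp1, ⟨h1, ?_⟩, ⟨h2, ?_⟩⟩ <;>
      · rcases le_total (lev p.1) (lev p.2) with h | h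
        · rw [min_eq_left h] at hp2; omega
        · rw [min_eq_right h] at hp2; omega
    · intro p hp _
      rw [hTT, mem_filter] at hp
      exact hDnn p hp.1
  have hdouble : ∑ i ∈ Ico i₀ I, ∑ q ∈ B i, g q ≤ 2 * ∑ q ∈ S, g q := by
    have h1 : ∀ i, ∑ q ∈ B i, g q =
        ∑ q ∈ S, (if lev q = i ∨ lev q = i + 1 then g q else 0) := by
      intro i
      rw [hB, sum_filter]
    simp only [h1]
    rw [sum_comm, mul_sum]
    refine sum_le_sum fun q _ => ?_
    have h2 : ∑ i ∈ Ico i₀ I, (if lev q = i ∨ lev q = i + 1 then g q else 0) ≤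
        ∑ i ∈ Ico i₀ I, ((if lev q = i then g q else 0) + (if lev q = i + 1 then g q else 0)) := by
      refine sum_le_sum fun i _ => ?_
      have := hg0 q
      split_ifs <;> first | linarith only [this] | omega
    refine h2.trans ?_
    rw [sum_add_distrib, two_mul]
    have h3 : ∑ i ∈ Ico i₀ I, (if lev q = i then g q else 0) ≤ g q := by
      rw [sum_ite_eq]
      split_ifs
      · exact le_rfl
      · exact hg0 q
    have h4 : ∑ i ∈ Ico i₀ I, (if lev q = i + 1 then g q else 0) ≤ g q := by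
      have h5 : ∀ i ∈ Ico i₀ I, (if lev q = i + 1 then g q else 0)
          = (if lev q - 1 = i then (if lev q = i + 1 then g q else 0) else 0) := by
        intro i _
        by_cases h : lev q = i + 1
        · rw [if_pos h, if_pos (by (clear * - h; omega))]
        · rw [if_neg h]; simp only [ite_self]
      rw [sum_congr rfl h5, sum_ite_eq]
      have := hg0 q
      split_ifs <;> linarith only [this]
    linarith only [h3, h4]
  calc ∑ p ∈ T, g p.1 * g p.2 / DD p.1 p.2 (ψ p.1) (ψ p.2)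
      ≤ ∑ i ∈ Ico i₀ I, ∑ p ∈ TT i, g p.1 * g p.2 / DD p.1 p.2 (ψ p.1) (ψ p.2) := hcover
    _ ≤ ∑ i ∈ Ico i₀ I, C' * ∑ q ∈ B i, g q := sum_le_sum hblocksum
    _ = C' * ∑ i ∈ Ico i₀ I, ∑ q ∈ B i, g q := (mul_sum _ _ _).symm
    _ ≤ C' * (2 * ∑ q ∈ S, g q) := by (clear * - hdouble hC hc1; gcongr)
    _ = 2 * C' * ∑ q ∈ S, g q := by ring

end Vale.P028
end

section

/-!
# Assembly of the main theorem
-/

namespace Vale.P028

open Finset MeasureTheory Filter Topology

theorem exists_block (g : ℕ → ℝ) (hg0 : ∀ q, 0 ≤ g q) (hns : ¬ Summable g) (N : ℕ)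
    (hg1 : ∀ q, N ≤ q → g q ≤ 1) :
    ∃ S : Finset ℕ, (∀ q ∈ S, N ≤ q ∧ 0 < g q) ∧ 1 ≤ ∑ q ∈ S, g q ∧ ∑ q ∈ S, g q ≤ 2 := by
  classical
  have hex : ∃ M : ℕ, 1 ≤ ∑ q ∈ Ico N M, g q := by
    by_contra hcon
    push Not at hcon
    apply hns
    have hns' : Summable (fun q => g (q + N)) := by
      refine summable_of_sum_range_le (c := 1) (fun q => hg0 _) ?_
      intro n
      have h1 := hcon (N + n)
      rw [sum_Ico_eq_sum_range, Nat.add_sub_cancel_left] at h1
      have h2 : ∑ i ∈ range n, g (i + N) = ∑ i ∈ range n, g (N + i) := by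
        refine sum_congr rfl fun i _ => ?_
        rw [add_comm]
      rw [h2]
      exact h1.le
    exact (summable_nat_add_iff N).mp hns'
  obtain ⟨M, hM, hMmin⟩ : ∃ M : ℕ, 1 ≤ ∑ q ∈ Ico N M, g q ∧
      ∀ M' < M, ¬ 1 ≤ ∑ q ∈ Ico N M', g q :=
    ⟨Nat.find hex, Nat.find_spec hex, fun M' h => Nat.find_min hex h⟩
  have hMN : N < M := by
    by_contra h
    rw [Ico_eq_empty (by omega)] at hM
    simp only [sum_empty] at hM
    (clear * - hM; linarith)
  have h2 : ∑ q ∈ Ico N M, g q ≤ 2 := by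
    obtain ⟨M', rfl⟩ : ∃ M', M = M' + 1 := ⟨M - 1, by omega⟩
    have h3 := hMmin M' (by omega)
    push Not at h3
    rw [sum_Ico_succ_top (by (clear * - hMN; omega))]
    have h4 := hg1 M' (by omega)
    linarith only [h3, h4]
  refine ⟨(Ico N M).filter (fun q => 0 < g q), ?_, ?_, ?_⟩
  · intro q hq
    rw [mem_filter, mem_Ico] at hq
    exact ⟨hq.1.1, hq.2⟩
  · have : ∑ q ∈ (Ico N M).filter (fun q => 0 < g q), g q = ∑ q ∈ Ico N M, g q := by
      apply sum_filter_of_ne
      intro q _ hne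
      exact lt_of_le_of_ne (hg0 q) (Ne.symm hne)
    rw [this]; exact hM
  · have : ∑ q ∈ (Ico N M).filter (fun q => 0 < g q), g q = ∑ q ∈ Ico N M, g q := by
      apply sum_filter_of_ne
      intro q _ hne
      exact lt_of_le_of_ne (hg0 q) (Ne.symm hne)
    rw [this]; exact h2

theorem W_mono {γ : ℝ} {ψ ψ' : ℕ → ℝ} (h : ∀ᶠ q in atTop, ψ' q ≤ ψ q)
    (h0 : volume (W γ ψ')ᶜ = 0) : volume (W γ ψ)ᶜ = 0 := by
  refine measure_mono_null (Set.compl_subset_compl.mpr ?_) h0
  intro x hx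
  obtain ⟨N, hN⟩ := eventually_atTop.mp h
  have h1 : ({q : ℕ | 0 < q ∧ distInt (q * x - γ) < ψ' q} \ (Set.Iio N)).Infinite :=
    Set.Infinite.diff hx (Set.finite_Iio N)
  refine h1.mono ?_
  rintro q ⟨⟨h2, h3⟩, h4⟩
  rw [Set.mem_Iio, not_lt] at h4
  exact ⟨h2, h3.trans_le (hN q h4)⟩

theorem full_classII {γ c₀ τ : ℝ} (hc₀ : 0 < c₀) (hτ : 1 ≤ τ) (hD : Dioph γ c₀ τ) {ε : ℝ}
    (hε : 0 < ε) (ψ : ℕ → ℝ) (hψ : ∀ q, 0 ≤ ψ q ∧ ψ q ≤ 1 / 4)
    (hns : ¬ Summable (fun q : ℕ => ψ q * (q.totient / q) * omegaW ε (ψ q))) :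
    volume (W γ ψ)ᶜ = 0 := by
  classical
  obtain ⟨C, c, hC, hc, hbound⟩ := classII_bound hc₀ hτ hD hε
  have hc1 : (1 / 2 : ℝ) ^ c < 1 := Real.rpow_lt_one (by norm_num) (by norm_num) hc
  set C' : ℝ := 1 + 2 * C / (1 - (1 / 2 : ℝ) ^ c) with hC'
  have hC'0 : 0 ≤ C' := by
    have : 0 ≤ 2 * C / (1 - (1 / 2 : ℝ) ^ c) := div_nonneg (by (clear * - hC; positivity)) (by linarith only [hc1])
    linarith only [this]
  refine fullMeasure_of_blocks γ ψ C' hC'0 ?_
  intro N₀
  set N : ℕ := max N₀ 1 with hN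
  set g : ℕ → ℝ := fun q => ψ q * (q.totient / q) * omegaW ε (ψ q) with hg
  have hω0 : ∀ q, 0 < omegaW ε (ψ q) := fun q =>
    omegaW_pos (hψ q).1 (by linarith only [(hψ q).2])
  have hω1 : ∀ q, omegaW ε (ψ q) ≤ 1 := fun q =>
    omegaW_le_one hε (hψ q).1 (by linarith only [(hψ q).2])
  have hg0 : ∀ q, 0 ≤ g q := fun q =>
    mul_nonneg (mul_nonneg (hψ q).1 (totient_div_nonneg q)) (hω0 q).le
  have hgψ : ∀ q, g q ≤ ψ q := by
    intro q
    rw [hg]; dsimp only
    calc ψ q * (q.totient / q) * omegaW ε (ψ q) ≤ ψ q * 1 * 1 := by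
          have := (hψ q).1
          have := hω1 q
          have := totient_div_le_one q
          have := (hω0 q).le
          (clear γ c₀ τ hc₀ hτ hD C c hC hc hbound hc1 C' hC' hC'0 N₀ N hN g hns hg hg0; gcongr)
      _ = ψ q := by ring
  obtain ⟨S, hS1, hS2, hS3⟩ := exists_block g hg0 hns N
    (fun q _ => (hgψ q).trans (by linarith only [(hψ q).2]))
  have hψpos : ∀ q ∈ S, 0 < ψ q := fun q hq => (hS1 q hq).2.trans_le (hgψ q)
  refine ⟨S, fun q => (q.totient / q) * omegaW ε (ψ q), ?_, ?_, ?_, ?_⟩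
  · intro q hq
    exact ⟨(le_max_left _ _).trans (hS1 q hq).1, hψpos q hq, by linarith only [(hψ q).2]⟩
  · intro q _
    exact mul_nonneg (totient_div_nonneg q) (hω0 q).le
  · have : ∑ q ∈ S, (q.totient / q) * omegaW ε (ψ q) * ψ q = ∑ q ∈ S, g q := by
      refine sum_congr rfl fun q _ => ?_
      rw [hg]; ring
    rw [this]; linarith only [hS2]
  · intro T hT
    have hsum : ∑ q ∈ S, (q.totient / q) * omegaW ε (ψ q) * ψ q = ∑ q ∈ S, g q := by
      refine sum_congr rfl fun q _ => ?_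
      rw [hg]; ring
    rw [hsum]
    set M : ℕ := S.sup id with hM
    have hSM : ∀ q ∈ S, q ≤ M := fun q hq => le_sup (f := id) hq
    have hSpos : ∀ q ∈ S, 0 < q := fun q hq => by
      have := (le_max_right N₀ 1).trans (hS1 q hq).1
      (clear * - this; omega)
    set f : ℕ → ℝ := fun q => if q ∈ S then g q else 0 with hf
    have hf0 : ∀ q, 0 ≤ f q := by
      intro q; rw [hf]; dsimp only
      split_ifs
      · exact hg0 q
      · exact le_rfl
    have hfg : ∀ q, f q ≤ g q := by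
      intro q; rw [hf]; dsimp only
      split_ifs
      · exact le_rfl
      · exact hg0 q
    have hfsum : ∑ q ∈ Icc 1 M, f q = ∑ q ∈ S, g q := by
      rw [hf, ← sum_filter]
      congr 1
      ext q
      rw [mem_filter, mem_Icc]
      constructor
      · exact fun h => h.2
      · intro h
        exact ⟨⟨hSpos q h, hSM q h⟩, h⟩
    have hkey := hbound M ψ f hψ (fun q => ⟨hf0 q, hfg q⟩) (by rw [hfsum]; exact hS3)
    have h5 := dyadic_sum (γ := γ) (ψ := ψ) (f := f) (N := M) hC hc S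
      (fun q hq => ⟨hSpos q hq, hSM q hq, hψpos q hq⟩)
      hf0 (fun q => (hfg q).trans (hgψ q)) hkey T hT
    rw [hfsum] at h5
    have h6 : ∑ p ∈ T, (((p.1.totient / p.1) * omegaW ε (ψ p.1)) *
        ((p.2.totient / p.2) * omegaW ε (ψ p.2)) *
        (ψ p.1 * ψ p.2 / DD p.1 p.2 (ψ p.1) (ψ p.2))) =
        ∑ p ∈ T, f p.1 * f p.2 / DD p.1 p.2 (ψ p.1) (ψ p.2) := by
      refine sum_congr rfl fun p hp => ?_
      rw [hf]; dsimp only
      rw [if_pos (hT p hp).1, if_pos (hT p hp).2.1, hg]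
      ring
    rw [h6]
    refine h5.trans ?_
    have h8 : ∑ q ∈ S, g q ≤ (∑ q ∈ S, g q) ^ 2 := by
      rw [sq]
      exact le_mul_of_one_le_right (by linarith only [hS2]) hS2
    exact mul_le_mul_of_nonneg_left h8 hC'0

theorem full_classI {γ c₀ τ : ℝ} (hc₀ : 0 < c₀) (hτ : 1 ≤ τ) (hD : Dioph γ c₀ τ) {δ : ℝ}
    (hδ : 0 < δ) (ψ : ℕ → ℝ) (hψ : ∀ q, 0 ≤ ψ q)
    (hev : ∀ᶠ q : ℕ in atTop, ψ q ≤ Real.exp (-(Real.log (Real.log q)) ^ (2 + δ)))
    (hns : ¬ Summable (fun q : ℕ => ψ q * (q.totient / q))) :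
    volume (W γ ψ)ᶜ = 0 := by
  classical
  obtain ⟨C, Q₀, hC, hT⟩ := classI_T hc₀ hτ hD hδ
  set ψ' : ℕ → ℝ := fun q => if ((q : ℝ) ^ 2)⁻¹ ≤ ψ q ∧
    ψ q ≤ Real.exp (-(Real.log (Real.log q)) ^ (2 + δ)) then ψ q else 0 with hψ'
  have hψ'0 : ∀ q, 0 ≤ ψ' q := by
    intro q; rw [hψ']; dsimp only
    split_ifs
    · exact hψ q
    · exact le_rfl
  have hle : ∀ q, ψ' q ≤ ψ q := by
    intro q; rw [hψ']; dsimp only
    split_ifs
    · exact le_rfl
    · exact hψ q
  have hns' : ¬ Summable (fun q : ℕ => ψ' q * (q.totient / q)) := by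
    intro hsum
    apply hns
    have h2 : Summable (fun q : ℕ => ψ' q * (q.totient / q) + ((q : ℝ) ^ 2)⁻¹) :=
      hsum.add (Real.summable_nat_pow_inv.mpr (by norm_num))
    refine Summable.of_norm_bounded_eventually_nat h2 ?_
    filter_upwards [hev] with q hq
    rw [Real.norm_of_nonneg (mul_nonneg (hψ q) (totient_div_nonneg q))]
    rw [hψ']; dsimp only
    by_cases h3 : ((q : ℝ) ^ 2)⁻¹ ≤ ψ q
    · rw [if_pos ⟨h3, hq⟩]
      have : 0 ≤ ((q : ℝ) ^ 2)⁻¹ := by (clear * -; positivity)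
      linarith
    · rw [if_neg (fun h => h3 h.1)]
      push Not at h3
      calc ψ q * (q.totient / q) ≤ ((q : ℝ) ^ 2)⁻¹ * 1 := by
            gcongr
            exact totient_div_le_one q
        _ = 0 * (q.totient / q) + ((q : ℝ) ^ 2)⁻¹ := by ring
  apply W_mono (ψ' := ψ') (Eventually.of_forall hle)
  refine fullMeasure_of_blocks γ ψ' C hC ?_
  intro N₀
  obtain ⟨Q₁, hQ₁⟩ : ∃ Q₁ : ℕ, ∀ q : ℕ, Q₁ ≤ q → 2 ≤ Real.log (Real.log q) := by
    refine ⟨⌈Real.exp (Real.exp 2)⌉₊, fun q hq => ?_⟩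
    have h1 : Real.exp (Real.exp 2) ≤ q := Nat.ceil_le.mp hq
    have hq0 : (0 : ℝ) < q := (Real.exp_pos _).trans_le h1
    have h2 : Real.exp 2 ≤ Real.log q := by rwa [Real.le_log_iff_exp_le hq0]
    rwa [Real.le_log_iff_exp_le ((Real.exp_pos _).trans_le h2)]
  set N : ℕ := max (max N₀ 1) (max Q₀ Q₁) with hN
  set g : ℕ → ℝ := fun q => ψ' q * (q.totient / q) with hg
  have hg0 : ∀ q, 0 ≤ g q := fun q => mul_nonneg (hψ'0 q) (totient_div_nonneg q)
  have hgψ : ∀ q, g q ≤ ψ' q := by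
    intro q
    rw [hg]; dsimp only
    calc ψ' q * (q.totient / q) ≤ ψ' q * 1 := by
          gcongr
          · exact hψ'0 q
          · exact totient_div_le_one q
      _ = ψ' q := by ring
  have hsmall : ∀ q, N ≤ q → ψ' q ≤ 1 / 4 := by
    intro q hq
    have h1 := hQ₁ q ((le_max_right _ _).trans ((le_max_right _ _).trans hq))
    rw [hψ']; dsimp only
    split_ifs with h2
    · refine h2.2.trans ?_
      have h3 : (2 : ℝ) ^ (2 : ℝ) ≤ Real.log (Real.log q) ^ (2 + δ) := by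
        calc (2 : ℝ) ^ (2 : ℝ) ≤ (2 : ℝ) ^ (2 + δ) :=
              Real.rpow_le_rpow_of_exponent_le (by norm_num) (by linarith only [hδ])
          _ ≤ Real.log (Real.log q) ^ (2 + δ) :=
              Real.rpow_le_rpow (by norm_num) h1 (by linarith only [hδ])
      have h4 : (2 : ℝ) ^ (2 : ℝ) = 4 := by norm_num
      rw [h4] at h3
      have h5 : Real.exp (-(Real.log (Real.log q)) ^ (2 + δ)) ≤ Real.exp (-4) :=
        Real.exp_le_exp.mpr (by linarith only [h3])
      have h6 : Real.exp (-4) ≤ 1 / 4 := by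
        rw [Real.exp_neg, inv_eq_one_div]
        apply one_div_le_one_div_of_le (by norm_num)
        have := Real.add_one_le_exp (4 : ℝ)
        linarith only [this]
      linarith only [h5, h6]
    · norm_num
  obtain ⟨S, hS1, hS2, hS3⟩ := exists_block g hg0 hns' N
    (fun q hq => (hgψ q).trans (by linarith only [hsmall q hq]))
  have hψpos : ∀ q ∈ S, 0 < ψ' q := fun q hq => (hS1 q hq).2.trans_le (hgψ q)
  refine ⟨S, fun q => (q.totient / q), ?_, ?_, ?_, ?_⟩
  · intro q hq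
    exact ⟨(le_max_left _ _).trans ((le_max_left _ _).trans (hS1 q hq).1), hψpos q hq,
      by linarith only [hsmall q (hS1 q hq).1]⟩
  · intro q _
    exact totient_div_nonneg q
  · have : ∑ q ∈ S, (q.totient / q) * ψ' q = ∑ q ∈ S, g q := by
      refine sum_congr rfl fun q _ => ?_
      rw [hg]; ring
    rw [this]; linarith only [hS2]
  · intro T hTT
    have hsum : ∑ q ∈ S, (q.totient / q) * ψ' q = ∑ q ∈ S, g q := by
      refine sum_congr rfl fun q _ => ?_
      rw [hg]; ring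
    rw [hsum]
    have h5 := hT S ψ' hψ'0 (by
      intro q hq
      have hp := hψpos q hq
      have h6 : ((q : ℝ) ^ 2)⁻¹ ≤ ψ q ∧
        ψ q ≤ Real.exp (-(Real.log (Real.log q)) ^ (2 + δ)) := by
        by_contra h
        rw [hψ'] at hp
        dsimp only at hp
        rw [if_neg h] at hp
        exact lt_irrefl _ hp
      have h7 : ψ' q = ψ q := by
        rw [hψ']; dsimp only; rw [if_pos h6]
      rw [h7]
      exact ⟨(le_max_left _ _).trans ((le_max_right _ _).trans (hS1 q hq).1), h6.1, h6.2⟩)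
      hS3 T hTT
    have h6 : ∑ p ∈ T, ((p.1.totient / p.1 : ℝ) * (p.2.totient / p.2) *
        (ψ' p.1 * ψ' p.2 / DD p.1 p.2 (ψ' p.1) (ψ' p.2))) =
        ∑ p ∈ T, (ψ' p.1 * (p.1.totient / p.1)) * (ψ' p.2 * (p.2.totient / p.2)) /
        DD p.1 p.2 (ψ' p.1) (ψ' p.2) := by
      refine sum_congr rfl fun p hp => ?_
      ring
    rw [h6]
    refine h5.trans ?_
    have h8 : ∑ q ∈ S, g q ≤ (∑ q ∈ S, g q) ^ 2 := by
      rw [sq]
      exact le_mul_of_one_le_right (by linarith only [hS2]) hS2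
    exact mul_le_mul_of_nonneg_left h8 hC

theorem distInt_le_half (t : ℝ) : distInt t ≤ 1 / 2 := abs_sub_round t

theorem eventually_loglog_ge (A : ℝ) : ∀ᶠ q : ℕ in atTop, A ≤ Real.log (Real.log q) := by
  have h1 : Tendsto (fun q : ℕ => Real.log (Real.log (q : ℝ))) atTop atTop :=
    Real.tendsto_log_atTop.comp (Real.tendsto_log_atTop.comp tendsto_natCast_atTop_atTop)
  exact h1.eventually_ge_atTop A

/-- Main theorem, `Dioph` form. -/
theorem main_dioph {γ c₀ τ : ℝ} (hc₀ : 0 < c₀) (hτ : 1 ≤ τ) (hD : Dioph γ c₀ τ) {ε : ℝ}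
    (hε : 0 < ε) (ψ : ℕ → ℝ) (hψ : ∀ q, 0 ≤ ψ q)
    (hns : ¬ Summable (fun q : ℕ => (q.totient / q : ℝ) * ψ q / Real.log (Real.log q) ^ ε)) :
    volume (W γ ψ)ᶜ = 0 := by
  classical
  by_cases hinf : {q : ℕ | 1 / 2 < ψ q}.Infinite
  · have : W γ ψ = Set.univ := by
      rw [Set.eq_univ_iff_forall]
      intro x
      have h1 : ({q : ℕ | 1 / 2 < ψ q} \ {0}).Infinite := hinf.diff (Set.finite_singleton 0)
      refine h1.mono ?_
      rintro q ⟨h2, h3⟩
      refine ⟨Nat.pos_of_ne_zero h3, ?_⟩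
      exact (distInt_le_half _).trans_lt h2
    rw [this]; simp
  · rw [Set.not_infinite] at hinf
    have hev : ∀ᶠ q : ℕ in atTop, ψ q ≤ 1 / 2 := by
      have h1 := hinf.eventually_cofinite_notMem
      rw [Nat.cofinite_eq_atTop] at h1
      filter_upwards [h1] with q hq
      exact not_lt.mp hq
    set ψ₁ : ℕ → ℝ := fun q => min (ψ q) (1 / 4) with hψ₁
    have hψ₁0 : ∀ q, 0 ≤ ψ₁ q := fun q => le_min (hψ q) (by norm_num)
    have hψ₁4 : ∀ q, ψ₁ q ≤ 1 / 4 := fun q => min_le_right _ _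
    have hψ₁le : ∀ q, ψ₁ q ≤ ψ q := fun q => min_le_left _ _
    have hLL := eventually_loglog_ge 1
    set ψI : ℕ → ℝ := fun q => if ψ₁ q ≤ Real.exp (-(Real.log (Real.log q)) ^ (2 + (1 : ℝ)))
      then ψ₁ q else 0 with hψI
    set ψII : ℕ → ℝ := fun q => if ψ₁ q ≤ Real.exp (-(Real.log (Real.log q)) ^ (2 + (1 : ℝ)))
      then 0 else ψ₁ q with hψII
    have hadd : ∀ q, ψI q + ψII q = ψ₁ q := by
      intro q; rw [hψI, hψII]; dsimp only
      split_ifs <;> ring
    have hI0 : ∀ q, 0 ≤ ψI q := by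
      intro q; rw [hψI]; dsimp only
      split_ifs
      · exact hψ₁0 q
      · exact le_rfl
    have hII0 : ∀ q, 0 ≤ ψII q := by
      intro q; rw [hψII]; dsimp only
      split_ifs
      · exact le_rfl
      · exact hψ₁0 q
    have hIle : ∀ q, ψI q ≤ ψ q := fun q => by
      have := hadd q; have := hII0 q; have := hψ₁le q; (clear γ c₀ τ hc₀ hτ hD ε hε hns hinf hev hψ₁ hψ₁4 hLL hI0; linarith)
    have hIIle : ∀ q, ψII q ≤ ψ₁ q := fun q => by
      have := hadd q; have := hI0 q; (clear γ c₀ τ hc₀ hτ hD ε hε hns hinf hev hψ₁ hψ₁4 hψ₁le hLL hII0 hIle; linarith)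
    by_cases hsI : Summable (fun q : ℕ => ψI q * (q.totient / q))
    · -- class II
      have hnsII : ¬ Summable (fun q : ℕ => ψII q * (q.totient / q) * omegaW (ε / 3) (ψII q)) := by
        intro hsII
        apply hns
        have h2 : Summable (fun q : ℕ => 2 * (ψI q * (q.totient / q)) + 2 * (2 : ℝ) ^ (ε / 3) *
            (ψII q * (q.totient / q) * omegaW (ε / 3) (ψII q))) :=
          (hsI.mul_left 2).add (hsII.mul_left _)
        refine Summable.of_norm_bounded_eventually_nat h2 ?_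
        filter_upwards [hev, hLL] with q hq hL
        have hLε : 1 ≤ Real.log (Real.log q) ^ ε := Real.one_le_rpow hL hε.le
        have hLε0 : 0 < Real.log (Real.log q) ^ ε := by linarith only [hLε]
        have ht := totient_div_nonneg q
        rw [Real.norm_of_nonneg (by have := hψ q; (clear * - this hL; positivity))]
        have h3 : ψ q ≤ 2 * (ψI q + ψII q) := by
          rw [hadd, hψ₁]; dsimp only
          rcases le_total (ψ q) (1 / 4) with h | h
          · rw [min_eq_left h]; have := hψ q; linarith only [this]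
          · rw [min_eq_right h]; linarith only [hq]
        have h4 : ψII q / Real.log (Real.log q) ^ ε ≤
            (2 : ℝ) ^ (ε / 3) * (ψII q * omegaW (ε / 3) (ψII q)) := by
          by_cases hc : ψ₁ q ≤ Real.exp (-(Real.log (Real.log q)) ^ (2 + (1 : ℝ)))
          · have : ψII q = 0 := by rw [hψII]; dsimp only; rw [if_pos hc]
            rw [this]; simp only [zero_div, zero_mul, mul_zero, Std.le_refl]
          · have he : ψII q = ψ₁ q := by rw [hψII]; dsimp only; rw [if_neg hc]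
            rw [he]
            push Not at hc
            set L : ℝ := Real.log (Real.log q) with hLdef
            have hL0 : 0 < L := by linarith only [hL]
            have hψpos : 0 < ψ₁ q := (Real.exp_pos _).trans hc
            have h5 : Real.log (1 / ψ₁ q) ≤ L ^ (3 : ℝ) := by
              rw [one_div, Real.log_inv]
              have := (Real.lt_log_iff_exp_lt hψpos).mpr hc
              have e : (2 : ℝ) + 1 = 3 := by norm_num
              rw [e] at this
              linarith only [this]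
            have hL3 : 1 ≤ L ^ (3 : ℝ) := Real.one_le_rpow hL (by norm_num)
            have h6 : 1 + Real.log (1 / ψ₁ q) ≤ 2 * L ^ (3 : ℝ) := by linarith only [h5, hL3]
            have h7 := log_inv_nonneg (hψ₁0 q) (by linarith only [hψ₁4 q])
            have h8 : (2 * L ^ (3 : ℝ)) ^ (-(ε / 3)) ≤ omegaW (ε / 3) (ψ₁ q) :=
              Real.rpow_le_rpow_of_nonpos (by linarith only [h7]) h6 (by linarith only [hε])
            have h9 : (2 : ℝ) ^ (ε / 3) * (2 * L ^ (3 : ℝ)) ^ (-(ε / 3)) = (L ^ ε)⁻¹ := by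
              rw [Real.mul_rpow (by norm_num) (by (clear * - hL; positivity)), ← mul_assoc,
                ← Real.rpow_add (by norm_num), ← Real.rpow_mul hL0.le]
              have e1 : ε / 3 + -(ε / 3) = 0 := by ring
              have e2 : 3 * -(ε / 3) = -ε := by ring
              rw [e1, e2, Real.rpow_zero, one_mul, Real.rpow_neg hL0.le]
            calc ψ₁ q / L ^ ε = ψ₁ q * (L ^ ε)⁻¹ := by rw [div_eq_mul_inv]
              _ = (2 : ℝ) ^ (ε / 3) * (ψ₁ q * (2 * L ^ (3 : ℝ)) ^ (-(ε / 3))) := by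
                  rw [← h9]; ring
              _ ≤ (2 : ℝ) ^ (ε / 3) * (ψ₁ q * omegaW (ε / 3) (ψ₁ q)) := by (clear * - h8 hψpos; gcongr)
        calc (q.totient / q : ℝ) * ψ q / Real.log (Real.log q) ^ ε
            ≤ (q.totient / q : ℝ) * (2 * (ψI q + ψII q)) / Real.log (Real.log q) ^ ε := by
              (clear * - h3 hL; gcongr)
          _ = 2 * ((q.totient / q : ℝ) * (ψI q / Real.log (Real.log q) ^ ε)) +
              2 * ((q.totient / q : ℝ) * (ψII q / Real.log (Real.log q) ^ ε)) := by ring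
          _ ≤ 2 * ((q.totient / q : ℝ) * ψI q) +
              2 * ((q.totient / q : ℝ) *
                ((2 : ℝ) ^ (ε / 3) * (ψII q * omegaW (ε / 3) (ψII q)))) := by
              have := div_le_self (hI0 q) hLε
              (clear * - this h4; gcongr)
          _ = _ := by ring
      have h10 := full_classII hc₀ hτ hD (ε := ε / 3) (by positivity) ψII
        (fun q => ⟨hII0 q, (hIIle q).trans (hψ₁4 q)⟩) hnsII
      exact W_mono (Eventually.of_forall fun q => (hIIle q).trans (hψ₁le q)) h10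
    · -- class I
      have h10 := full_classI hc₀ hτ hD (δ := 1) one_pos ψI hI0
        (Eventually.of_forall fun q => by
          rw [hψI]; dsimp only
          split_ifs with h
          · exact h
          · exact (Real.exp_pos _).le) hsI
      exact W_mono (Eventually.of_forall hIle) h10

end Vale.P028
end

section

/-!
# Class I with the exponent `1 + δ`
-/

namespace Vale.P028

open Finset MeasureTheory Filter Topology

theorem full_classI' {γ c₀ τ : ℝ} (hc₀ : 0 < c₀) (hτ : 1 ≤ τ) (hD : Dioph γ c₀ τ) {δ : ℝ}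
    (hδ : 0 < δ) (ψ : ℕ → ℝ) (hψ : ∀ q, 0 ≤ ψ q)
    (hev : ∀ᶠ q : ℕ in atTop, ψ q ≤ Real.exp (-(Real.log (Real.log q)) ^ (1 + δ)))
    (hns : ¬ Summable (fun q : ℕ => ψ q * (q.totient / q))) :
    volume (W γ ψ)ᶜ = 0 := by
  classical
  obtain ⟨A, X₁, hA, hBB⟩ := block2 hc₀ hτ hD hδ
  obtain ⟨C, Q₀, hC, hT⟩ := levels_T hA hBB
  set ψ' : ℕ → ℝ := fun q => if ((q : ℝ) ^ 2)⁻¹ ≤ ψ q ∧
    ψ q ≤ Real.exp (-(Real.log (Real.log q)) ^ (1 + δ)) then ψ q else 0 with hψ'
  have hψ'0 : ∀ q, 0 ≤ ψ' q := by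
    intro q; rw [hψ']; dsimp only
    split_ifs
    · exact hψ q
    · exact le_rfl
  have hle : ∀ q, ψ' q ≤ ψ q := by
    intro q; rw [hψ']; dsimp only
    split_ifs
    · exact le_rfl
    · exact hψ q
  have hns' : ¬ Summable (fun q : ℕ => ψ' q * (q.totient / q)) := by
    intro hsum
    apply hns
    have h2 : Summable (fun q : ℕ => ψ' q * (q.totient / q) + ((q : ℝ) ^ 2)⁻¹) :=
      hsum.add (Real.summable_nat_pow_inv.mpr (by norm_num))
    refine Summable.of_norm_bounded_eventually_nat h2 ?_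
    filter_upwards [hev] with q hq
    rw [Real.norm_of_nonneg (mul_nonneg (hψ q) (totient_div_nonneg q))]
    rw [hψ']; dsimp only
    by_cases h3 : ((q : ℝ) ^ 2)⁻¹ ≤ ψ q
    · rw [if_pos ⟨h3, hq⟩]
      have : 0 ≤ ((q : ℝ) ^ 2)⁻¹ := by (clear * -; positivity)
      linarith only [this]
    · rw [if_neg (fun h => h3 h.1)]
      push Not at h3
      calc ψ q * (q.totient / q) ≤ ((q : ℝ) ^ 2)⁻¹ * 1 := by
            gcongr
            exact totient_div_le_one q
        _ = 0 * (q.totient / q) + ((q : ℝ) ^ 2)⁻¹ := by ring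
  apply W_mono (ψ' := ψ') (Eventually.of_forall hle)
  refine fullMeasure_of_blocks γ ψ' C hC ?_
  intro N₀
  obtain ⟨Q₁, hQ₁⟩ : ∃ Q₁ : ℕ, ∀ q : ℕ, Q₁ ≤ q → 4 ≤ Real.log (Real.log q) :=
    eventually_atTop.mp (eventually_loglog_ge 4)
  set N : ℕ := max (max N₀ 1) (max Q₀ Q₁) with hN
  set g : ℕ → ℝ := fun q => ψ' q * (q.totient / q) with hg
  have hg0 : ∀ q, 0 ≤ g q := fun q => mul_nonneg (hψ'0 q) (totient_div_nonneg q)
  have hgψ : ∀ q, g q ≤ ψ' q := by
    intro q
    rw [hg]; dsimp only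
    calc ψ' q * (q.totient / q) ≤ ψ' q * 1 := by
          gcongr
          · exact hψ'0 q
          · exact totient_div_le_one q
      _ = ψ' q := by ring
  have hsmall : ∀ q, N ≤ q → ψ' q ≤ 1 / 4 := by
    intro q hq
    have h1 := hQ₁ q ((le_max_right _ _).trans ((le_max_right _ _).trans hq))
    rw [hψ']; dsimp only
    split_ifs with h2
    · refine h2.2.trans ?_
      have h3 : (4 : ℝ) ≤ Real.log (Real.log q) ^ (1 + δ) := by
        calc (4 : ℝ) = (4 : ℝ) ^ (1 : ℝ) := by rw [Real.rpow_one]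
          _ ≤ (4 : ℝ) ^ (1 + δ) :=
              Real.rpow_le_rpow_of_exponent_le (by norm_num) (by linarith only [hδ])
          _ ≤ Real.log (Real.log q) ^ (1 + δ) :=
              Real.rpow_le_rpow (by norm_num) h1 (by linarith only [hδ])
      have h5 : Real.exp (-(Real.log (Real.log q)) ^ (1 + δ)) ≤ Real.exp (-4) :=
        Real.exp_le_exp.mpr (by linarith only [h3])
      have h6 : Real.exp (-4) ≤ 1 / 4 := by
        rw [Real.exp_neg, inv_eq_one_div]
        apply one_div_le_one_div_of_le (by norm_num)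
        have := Real.add_one_le_exp (4 : ℝ)
        linarith only [this]
      linarith only [h5, h6]
    · norm_num
  obtain ⟨S, hS1, hS2, hS3⟩ := exists_block g hg0 hns' N
    (fun q hq => (hgψ q).trans (by linarith only [hsmall q hq]))
  have hψpos : ∀ q ∈ S, 0 < ψ' q := fun q hq => (hS1 q hq).2.trans_le (hgψ q)
  have hSQ₁ : ∀ q ∈ S, Q₁ ≤ q := fun q hq =>
    (le_max_right _ _).trans ((le_max_right _ _).trans (hS1 q hq).1)
  refine ⟨S, fun q => (q.totient / q), ?_, ?_, ?_, ?_⟩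
  · intro q hq
    exact ⟨(le_max_left _ _).trans ((le_max_left _ _).trans (hS1 q hq).1), hψpos q hq,
      by linarith only [hsmall q (hS1 q hq).1]⟩
  · intro q _
    exact totient_div_nonneg q
  · have : ∑ q ∈ S, (q.totient / q) * ψ' q = ∑ q ∈ S, g q := by
      refine sum_congr rfl fun q _ => ?_
      rw [hg]; ring
    rw [this]; linarith only [hS2]
  · intro T hTT
    have hsum : ∑ q ∈ S, (q.totient / q) * ψ' q = ∑ q ∈ S, g q := by
      refine sum_congr rfl fun q _ => ?_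
      rw [hg]; ring
    rw [hsum]
    have hq' : ∀ q ∈ S, ((q : ℝ) ^ 2)⁻¹ ≤ ψ' q ∧
        ψ' q ≤ Real.exp (-(Real.log (Real.log q)) ^ (1 + δ)) := by
      intro q hq
      have hp := hψpos q hq
      have h6 : ((q : ℝ) ^ 2)⁻¹ ≤ ψ q ∧
        ψ q ≤ Real.exp (-(Real.log (Real.log q)) ^ (1 + δ)) := by
        by_contra h
        rw [hψ'] at hp
        dsimp only at hp
        rw [if_neg h] at hp
        exact lt_irrefl _ hp
      have h7 : ψ' q = ψ q := by
        rw [hψ']; dsimp only; rw [if_pos h6]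
      rw [h7]
      exact h6
    have h5 := hT S ψ' g hψ'0 (fun q => ⟨hg0 q, le_rfl⟩)
      (fun q hq => ⟨(le_max_left _ _).trans ((le_max_right _ _).trans (hS1 q hq).1),
        (hq' q hq).1⟩)
      (by
        intro i q hne
        have hqS : q ∈ S ∧ (lv q = i ∨ lv q = i + 1) := by
          by_contra h
          apply hne
          dsimp only
          rw [if_neg h]
        obtain ⟨hqS, hl⟩ := hqS
        refine (hq' q hqS).2.trans (Real.exp_le_exp.mpr (neg_le_neg ?_))
        have h4 := hQ₁ q (hSQ₁ q hqS)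
        have hq3 : 3 ≤ q := by
          by_contra hlt
          push Not at hlt
          have : (q : ℝ) ≤ 2 := by exact_mod_cast (by (clear * - hlt; omega) : q ≤ 2)
          have hlq : Real.log q ≤ 1 := by
            rcases Nat.eq_zero_or_pos q with h0 | h0
            · rw [h0]; simp only [CharP.cast_eq_zero, Real.log_zero, zero_le_one]
            · have := Real.log_le_sub_one_of_pos (by exact_mod_cast h0 : (0 : ℝ) < q)
              (clear γ c₀ τ hc₀ hτ hD δ hδ ψ hψ hev hns A X₁ hA hBB C hC hT ψ' hψ' hψ'0 hle hQ₁ N hN g hns' hg hg0 hgψ hsmall S hS1 hS2 hS3 hψpos hSQ₁ T hTT hsum hq' i hne hqS hl h4; linarith)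
          have hlq0 : 0 ≤ Real.log q := Real.log_natCast_nonneg q
          have := Real.log_nonpos hlq0 hlq
          linarith only [h4, this]
        obtain ⟨h1, h2⟩ := lv_spec hq3
        have h3 : (3 : ℝ) ^ i ≤ (3 : ℝ) ^ lv q := pow_le_pow_right₀ (by norm_num) (by omega)
        have h7 : (3 : ℝ) ^ i ≤ Real.log q := h3.trans h1
        rw [Real.log_exp]
        have h8 : (1 : ℝ) ≤ (3 : ℝ) ^ i := one_le_pow₀ (by norm_num)
        apply Real.rpow_le_rpow (Real.log_nonneg h8) _ (by linarith only [hδ])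
        exact Real.log_le_log (by linarith only [h8]) h7)
      hS3 T hTT
    have h6 : ∑ p ∈ T, ((p.1.totient / p.1 : ℝ) * (p.2.totient / p.2) *
        (ψ' p.1 * ψ' p.2 / DD p.1 p.2 (ψ' p.1) (ψ' p.2))) =
        ∑ p ∈ T, g p.1 * g p.2 /
        DD p.1 p.2 (ψ' p.1) (ψ' p.2) := by
      refine sum_congr rfl fun p hp => ?_
      rw [hg]
      ring
    rw [h6]
    refine h5.trans ?_
    have h8 : ∑ q ∈ S, g q ≤ (∑ q ∈ S, g q) ^ 2 := by
      rw [sq]
      exact le_mul_of_one_le_right (by linarith only [hS2]) hS2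
    exact mul_le_mul_of_nonneg_left h8 hC

end Vale.P028
end

section

/-!
# Definitions for Theorem A (all real `γ`): sifting by the convergents with big gaps
-/

namespace Vale.P028

open Finset

/-- `B` is the first `h ≥ 1` with `‖h γ‖ ≤ 4 s`. -/
def First (γ s : ℝ) (B : ℕ) : Prop :=
  0 < B ∧ distInt (B * γ) ≤ 4 * s ∧ ∀ h : ℕ, 0 < h → h < B → 4 * s < distInt (h * γ)

/-- The scale `s` is bad with denominator `B`: `B` is the first `h ≥ 1` with `‖h γ‖ ≤ 4 s` and it
is at most `s ^ (-1/4)`. -/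
def BadAt (γ s : ℝ) (B : ℕ) : Prop := First γ s B ∧ (B : ℝ) ^ 4 * s ≤ 1

/-- `B` is a bad denominator (for some scale `s ≤ s₁`). -/
def Bad (γ s₁ : ℝ) (B : ℕ) : Prop := ∃ s : ℝ, 0 < s ∧ s ≤ s₁ ∧ BadAt γ s B

/-- The pair of cofactors `(u,v)` is far from the bad denominator (if there is one) at scale `s`. -/
def Far (γ s : ℝ) (u v : ℕ) : Prop :=
  ∀ B : ℕ, BadAt γ s B → 1 ≤ 4 * distInt (B * γ) * max (u : ℝ) (v : ℝ)

/-- The centre `(γ + α) / q` is allowed. -/
def Allowed (γ s₁ R : ℝ) (q : ℕ) (α : ℤ) : Prop :=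
  ∀ B : ℕ, Bad γ s₁ B → (Int.gcd (α * B + round (B * γ)) q : ℝ) ≤ max (B : ℝ) R

/-- The sifted set: union of the intervals of radius `ψ q / q` around allowed centres. -/
def Gset (γ s₁ R : ℝ) (ψ : ℕ → ℝ) (q : ℕ) : Set ℝ :=
  {x : ℝ | ∃ α : ℤ, |q * x - γ - α| < ψ q ∧ Allowed γ s₁ R q α}

end Vale.P028
end

section

/-!
# Limsup sets from lower bounds on intervals
-/

namespace Vale.P028

open MeasureTheory Set Filter Topology

theorem ioc_grid {n : ℕ} (hn : 0 < n) {x : ℝ} (hx : x ∈ Ioc (0 : ℝ) 1) :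
    ∃ k : ℕ, k < n ∧ x ∈ Ioc ((k : ℝ) / n) ((k + 1) / n) := by
  have hn0 : (0 : ℝ) < n := by exact_mod_cast hn
  have h1 : 0 < (n : ℝ) * x := mul_pos hn0 hx.1
  have h2 : 0 < ⌈(n : ℝ) * x⌉₊ := Nat.ceil_pos.mpr h1
  obtain ⟨k, hk⟩ : ∃ k, ⌈(n : ℝ) * x⌉₊ = k + 1 := ⟨⌈(n : ℝ) * x⌉₊ - 1, by omega⟩
  have h3 : (n : ℝ) * x ≤ (k : ℝ) + 1 := by
    have := Nat.le_ceil ((n : ℝ) * x)
    rw [hk] at this
    push_cast at this
    exact this
  have h4 : (k : ℝ) < (n : ℝ) * x := by
    have : k < ⌈(n : ℝ) * x⌉₊ := by omega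
    exact Nat.lt_ceil.mp this
  refine ⟨k, ?_, ?_, ?_⟩
  · have h5 : (k : ℝ) < n := by nlinarith only [h4, hx.2]
    exact_mod_cast h5
  · rw [div_lt_iff₀ hn0]; linarith only [h4]
  · rw [le_div_iff₀ hn0]; linarith only [h3]

theorem ioc_grid_disjoint {n : ℕ} (hn : 0 < n) {k l : ℕ} (h : k ≠ l) :
    Disjoint (Ioc ((k : ℝ) / n) ((k + 1) / n)) (Ioc ((l : ℝ) / n) ((l + 1) / n)) := by
  have hn0 : (0 : ℝ) < n := by exact_mod_cast hn
  rw [Set.disjoint_left]
  rintro x ⟨h1, h2⟩ ⟨h3, h4⟩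
  rw [div_lt_iff₀ hn0] at h1 h3
  rw [le_div_iff₀ hn0] at h2 h4
  have h5 : (k : ℝ) < l + 1 := by linarith only [h1, h4]
  have h6 : (l : ℝ) < k + 1 := by linarith only [h2, h3]
  have h7 : k < l + 1 := by exact_mod_cast h5
  have h8 : l < k + 1 := by exact_mod_cast h6
  omega

theorem ioc_grid_subset {n : ℕ} (hn : 0 < n) {k : ℕ} (hk : k < n) :
    Ioc ((k : ℝ) / n) ((k + 1) / n) ⊆ Ioc (0 : ℝ) 1 := by
  have hn0 : (0 : ℝ) < n := by exact_mod_cast hn
  apply Ioc_subset_Ioc
  · positivity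
  · rw [div_le_one hn0]
    exact_mod_cast hk

/-- Nonnegative test functions supported on tails, bounded in `L²`, whose integral over every
interval is eventually at least `c` times its length, force full measure in `(0,1]`. -/
theorem ae_infinite_of_lower_Ioc (A : ℕ → Set ℝ) (F : ℕ → ℝ → ℝ) (hA : ∀ q, MeasurableSet (A q))
    (hFm : ∀ j, Measurable (F j)) (B : ℕ → ℝ) (hFb : ∀ j x, F j x ≤ B j) (hF0 : ∀ j x, 0 ≤ F j x)
    (hsupp : ∀ j x, F j x ≠ 0 → ∃ q, j ≤ q ∧ x ∈ A q)
    {C c : ℝ} (hc : 0 < c) (h2 : ∀ j, ∫ x in Ioc (0 : ℝ) 1, (F j x) ^ 2 ≤ C)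
    (hlow : ∀ u v : ℝ, 0 ≤ u → u < v → v ≤ 1 →
      ∀ᶠ j in atTop, c * (v - u) ≤ ∫ x in Ioc u v, F j x) :
    ∀ᵐ x ∂(volume.restrict (Ioc (0 : ℝ) 1)), {q | x ∈ A q}.Infinite := by
  set Z : ℕ → Set ℝ := fun N => Ioc (0 : ℝ) 1 ∩ ⋂ q ∈ Ici N, (A q)ᶜ with hZ
  have hZm : ∀ N, MeasurableSet (Z N) := by
    intro N
    apply measurableSet_Ioc.inter
    exact MeasurableSet.biInter (to_countable _) (fun q _ => (hA q).compl)
  have hZ0 : ∀ N, volume (Z N) = 0 := by
    intro N
    by_contra hne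
    obtain ⟨K, hKZ, hKc, hKpos⟩ := (hZm N).exists_lt_isCompact (pos_iff_ne_zero.mpr hne)
    have hK01 : K ⊆ Ioc (0 : ℝ) 1 := hKZ.trans inter_subset_left
    have hKfin : volume K ≠ ⊤ := hKc.measure_lt_top.ne
    set κ : ℝ := volume.real K with hκ
    have hκ0 : 0 < κ := by
      rw [hκ, Measure.real]
      exact ENNReal.toReal_pos hKpos.ne' hKfin
    have hC0 : 0 ≤ C := (integral_nonneg (fun x => sq_nonneg _)).trans (h2 0)
    set t : ℝ := c * κ / (2 * (C + 1)) with ht
    have ht0 : 0 < t := by (clear * - hc hκ0 hC0; positivity)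
    set e : ℝ := t * (c * κ) / 2 with he
    have he0 : 0 < e := by (clear * - hc hκ0 hC0; positivity)
    obtain ⟨O, hKO, hO, hOe⟩ := hKc.exists_isOpen_lt_add (μ := volume)
      (ε := ENNReal.ofReal e) (by simp only [ne_eq, ENNReal.ofReal_eq_zero, not_le, he0])
    obtain ⟨δ, hδ, hδO⟩ := hKc.exists_thickening_subset_open hO hKO
    obtain ⟨n, hn⟩ := exists_nat_gt (1 / δ)
    have hn0 : (0 : ℝ) < n := lt_trans (by (clear * - hδ; positivity)) hn
    have hn1 : 0 < n := by exact_mod_cast hn0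
    have hnδ : 1 / (n : ℝ) < δ := by
      rw [div_lt_iff₀ hδ] at hn
      rw [div_lt_iff₀ hn0]; linarith only [hn]
    classical
    set S : Finset ℕ := (Finset.range n).filter
      (fun k => ∃ x ∈ K, x ∈ Ioc ((k : ℝ) / n) ((k + 1) / n)) with hS
    set U : Set ℝ := ⋃ k ∈ S, Ioc ((k : ℝ) / n) ((k + 1) / n) with hU
    have hlen : ∀ k : ℕ, ((k : ℝ) + 1) / n - k / n = 1 / n := by
      intro k; ring
    have hUO : U ⊆ O := by
      rw [hU]
      apply iUnion₂_subset
      intro k hk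
      rw [hS, Finset.mem_filter] at hk
      obtain ⟨_, x, hxK, hx⟩ := hk
      intro y hy
      apply hδO
      rw [Metric.mem_thickening_iff]
      refine ⟨x, hxK, ?_⟩
      rw [Real.dist_eq]
      have h5 := hlen k
      rw [abs_lt]
      constructor
      · linarith only [hnδ, h5, hy.1, hx.2]
      · linarith only [hnδ, h5, hy.2, hx.1]
    have hKU : K ⊆ U := by
      intro x hx
      obtain ⟨k, hk, hxk⟩ := ioc_grid hn1 (hK01 hx)
      rw [hU, mem_iUnion₂]
      exact ⟨k, by rw [hS, Finset.mem_filter, Finset.mem_range]; exact ⟨hk, x, hx, hxk⟩, hxk⟩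
    have hU01 : U ⊆ Ioc (0 : ℝ) 1 := by
      rw [hU]
      apply iUnion₂_subset
      intro k hk
      rw [hS, Finset.mem_filter, Finset.mem_range] at hk
      exact ioc_grid_subset hn1 hk.1
    have hUm : MeasurableSet U := Finset.measurableSet_biUnion _ (fun _ _ => measurableSet_Ioc)
    have hUfin : volume U ≠ ⊤ := ((measure_mono hU01).trans_lt (by simp only [Real.volume_Ioc, sub_zero, ENNReal.ofReal_one, ENNReal.one_lt_top])).ne
    have hcard : κ ≤ S.card * (1 / (n : ℝ)) := by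
      have h5 : volume K ≤ ∑ k ∈ S, volume (Ioc ((k : ℝ) / n) ((k + 1) / n)) :=
        (measure_mono hKU).trans (measure_biUnion_finset_le _ _)
      have h6 : ∑ k ∈ S, volume (Ioc ((k : ℝ) / n) ((k + 1) / n))
          = ENNReal.ofReal (S.card * (1 / (n : ℝ))) := by
        simp only [Real.volume_Ioc, hlen]
        rw [Finset.sum_const, nsmul_eq_mul, ENNReal.ofReal_mul (Nat.cast_nonneg _),
          ENNReal.ofReal_natCast]
      rw [h6] at h5
      rw [hκ, Measure.real]
      exact ENNReal.toReal_le_of_le_ofReal (by (clear * - hn1; positivity)) h5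
    have hUK : volume.real (U \ K) ≤ e := by
      have h5 : volume (U \ K) ≤ ENNReal.ofReal e := by
        calc volume (U \ K) ≤ volume (O \ K) := measure_mono (sdiff_subset_sdiff_left hUO)
          _ = volume O - volume K := measure_sdiff hKO hKc.nullMeasurableSet hKfin
          _ ≤ ENNReal.ofReal e := by
              rw [tsub_le_iff_left]
              exact hOe.le
      rw [Measure.real]
      exact ENNReal.toReal_le_of_le_ofReal he0.le h5
    have hev : ∀ᶠ j in atTop, ∀ k ∈ S, c * (1 / (n : ℝ)) ≤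
        ∫ x in Ioc ((k : ℝ) / n) ((k + 1) / n), F j x := by
      rw [Filter.eventually_all_finset]
      intro k hk
      rw [hS, Finset.mem_filter, Finset.mem_range] at hk
      have h5 := hlow ((k : ℝ) / n) ((k + 1) / n) (by (clear * - hn1; positivity))
        (by rw [div_lt_div_iff_of_pos_right hn0]; linarith only [])
        (by rw [div_le_one hn0]; exact_mod_cast hk.1)
      rw [hlen] at h5
      exact h5
    obtain ⟨j, hj1, hj2⟩ := (hev.and (eventually_ge_atTop N)).exists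
    have hint : ∀ E : Set ℝ, volume E ≠ ⊤ → IntegrableOn (F j) E volume := by
      intro E hE
      apply Measure.integrableOn_of_bounded (M := B j) hE (hFm j).aestronglyMeasurable
      filter_upwards with x
      rw [Real.norm_eq_abs, abs_of_nonneg (hF0 j x)]
      exact hFb j x
    have hint2 : ∀ E : Set ℝ, volume E ≠ ⊤ → IntegrableOn (fun x => (F j x) ^ 2) E volume := by
      intro E hE
      apply Measure.integrableOn_of_bounded (M := (B j) ^ 2) hE
        ((hFm j).pow_const 2).aestronglyMeasurable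
      filter_upwards with x
      rw [Real.norm_eq_abs, abs_of_nonneg (sq_nonneg _)]
      exact pow_le_pow_left₀ (hF0 j x) (hFb j x) 2
    have hsum : ∫ x in U, F j x = ∑ k ∈ S, ∫ x in Ioc ((k : ℝ) / n) ((k + 1) / n), F j x := by
      rw [hU]
      apply integral_biUnion_finset
      · intro k _; exact measurableSet_Ioc
      · intro k _ l _ hkl
        exact ioc_grid_disjoint hn1 hkl
      · intro k _
        exact hint _ (by rw [Real.volume_Ioc]; exact ENNReal.ofReal_ne_top)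
    have hlowU : S.card * (c * (1 / (n : ℝ))) ≤ ∫ x in U, F j x := by
      rw [hsum, ← nsmul_eq_mul, ← Finset.sum_const]
      exact Finset.sum_le_sum fun k hk => hj1 k hk
    have hzero : ∀ x ∈ K, F j x = 0 := by
      intro x hx
      by_contra hne
      obtain ⟨q, hq1, hq2⟩ := hsupp j x hne
      have h5 := (hKZ hx).2
      rw [mem_iInter₂] at h5
      exact h5 q (mem_Ici.mpr (hj2.trans hq1)) hq2
    have hsplit : ∫ x in U, F j x = ∫ x in U \ K, F j x := by
      rw [← integral_inter_add_sdiff hKc.measurableSet (hint U hUfin)]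
      have : ∫ x in U ∩ K, F j x = 0 := by
        rw [setIntegral_congr_fun (hUm.inter hKc.measurableSet) (g := fun _ => (0 : ℝ))
          (fun x hx => hzero x hx.2)]
        simp
      rw [this, zero_add]
    have hUKfin : volume (U \ K) ≠ ⊤ := ((measure_mono sdiff_subset).trans_lt hUfin.lt_top).ne
    have hup : ∫ x in U \ K, F j x ≤ t / 2 * C + e / (2 * t) := by
      calc ∫ x in U \ K, F j x ≤ ∫ x in U \ K, (t / 2 * (F j x) ^ 2 + 1 / (2 * t)) := by
            apply setIntegral_mono (hint _ hUKfin)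
            · apply Integrable.add
              · exact (hint2 _ hUKfin).const_mul _
              · exact integrableOn_const hUKfin
            · intro x
              have h5 : 0 ≤ t / 2 * (F j x - 1 / t) ^ 2 := by (clear * - hc hκ0 hC0; positivity)
              have h6 : t / 2 * (F j x - 1 / t) ^ 2
                  = t / 2 * (F j x) ^ 2 + 1 / (2 * t) - F j x := by
                field_simp
                ring
              rw [h6] at h5
              change F j x ≤ t / 2 * (F j x) ^ 2 + 1 / (2 * t)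
              linarith only [h5]
        _ = t / 2 * (∫ x in U \ K, (F j x) ^ 2) + volume.real (U \ K) * (1 / (2 * t)) := by
            rw [integral_add ((hint2 _ hUKfin).const_mul _) (integrableOn_const hUKfin),
              integral_const_mul, setIntegral_const, smul_eq_mul]
        _ ≤ t / 2 * C + e * (1 / (2 * t)) := by
            have h5 : ∫ x in U \ K, (F j x) ^ 2 ≤ C := by
              refine le_trans ?_ (h2 j)
              apply setIntegral_mono_set
              · exact hint2 _ (by simp only [Real.volume_Ioc, sub_zero, ENNReal.ofReal_one, ne_eq, ENNReal.one_ne_top, not_false_eq_true])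
              · exact Eventually.of_forall fun x => sq_nonneg _
              · exact (sdiff_subset.trans hU01).eventuallyLE
            (clear * - h5 hc hκ0 hC0 hUK; gcongr)
        _ = t / 2 * C + e / (2 * t) := by ring
    have hfinal : c * κ ≤ t / 2 * C + e / (2 * t) := by
      calc c * κ ≤ c * (S.card * (1 / (n : ℝ))) := mul_le_mul_of_nonneg_left hcard hc.le
        _ = S.card * (c * (1 / (n : ℝ))) := by ring
        _ ≤ ∫ x in U, F j x := hlowU
        _ = ∫ x in U \ K, F j x := hsplit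
        _ ≤ _ := hup
    have h7 : e / (2 * t) = c * κ / 4 := by
      rw [he]; field_simp; ring
    have h8 : t / 2 * C ≤ c * κ / 4 := by
      rw [ht, div_div, div_mul_eq_mul_div, div_le_div_iff₀ (by (clear * - hC0; positivity)) (by norm_num)]
      have : 0 < c * κ := mul_pos hc hκ0
      nlinarith only [this]
    have : 0 < c * κ := mul_pos hc hκ0
    linarith only [hfinal, h7, h8, this]
  rw [ae_restrict_iff' measurableSet_Ioc, ae_iff]
  refine measure_mono_null ?_ (measure_iUnion_null hZ0)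
  intro x hx
  simp only [mem_ofPred_eq, Classical.not_imp, Set.not_infinite] at hx
  obtain ⟨hx1, hx2⟩ := hx
  obtain ⟨N, hN⟩ := hx2.bddAbove
  rw [mem_iUnion]
  refine ⟨N + 1, hx1, ?_⟩
  rw [mem_iInter₂]
  intro q hq hxq
  have h5 := hN (show q ∈ {q | x ∈ A q} from hxq)
  have h6 := mem_Ici.mp hq
  omega

end Vale.P028
end

section

/-!
# Full measure from sifted sets of centres
-/

namespace Vale.P028

open MeasureTheory Set Filter Topology

/-- The points `x` with `|q x - γ - al| < α` for some integer `al` satisfying `P`. -/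
def GS (γ : ℝ) (q : ℕ) (α : ℝ) (P : ℤ → Prop) : Set ℝ :=
  {x | ∃ al : ℤ, P al ∧ |(q : ℝ) * x - γ - al| < α}

theorem isOpen_GS (γ : ℝ) (q : ℕ) (α : ℝ) (P : ℤ → Prop) : IsOpen (GS γ q α P) := by
  have e : GS γ q α P = ⋃ al : ℤ, ⋃ (_ : P al), {x : ℝ | |(q : ℝ) * x - γ - al| < α} := by
    ext x
    simp only [GS, mem_ofPred_eq, mem_iUnion, exists_prop]
  rw [e]
  refine isOpen_iUnion fun al => isOpen_iUnion fun _ => ?_
  exact isOpen_lt (by fun_prop) continuous_const

theorem GS_subset (γ : ℝ) (q : ℕ) (α : ℝ) (P : ℤ → Prop) :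
    GS γ q α P ⊆ {x | distInt (q * x - γ) < α} := by
  rintro x ⟨al, _, h⟩
  exact lt_of_le_of_lt (round_le _ al) h

open Classical in
theorem GS_lower (γ : ℝ) {q : ℕ} (hq : 0 < q) {α : ℝ} (hα : 0 < α) (hα2 : α ≤ 1 / 2)
    (P : ℤ → Prop) (u v : ℝ) (m n : ℤ) (hm : q * u - γ + α ≤ m + 1) (hn : n ≤ q * v - γ - α) :
    (((Finset.Ioc m n).filter P).card : ℝ) * (2 * α / q) ≤
      volume.real (GS γ q α P ∩ Ioc u v) := by
  have hq0 : (0 : ℝ) < q := by exact_mod_cast hq
  set T := (Finset.Ioc m n).filter P with hT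
  set J : ℤ → Set ℝ := fun al => Ioo ((γ + al - α) / q) ((γ + al + α) / q) with hJ
  have hsub : (⋃ al ∈ T, J al) ⊆ GS γ q α P ∩ Ioc u v := by
    apply iUnion₂_subset
    intro al hal x hx
    rw [hT, Finset.mem_filter, Finset.mem_Ioc] at hal
    obtain ⟨⟨h1, h2⟩, h3⟩ := hal
    simp only [hJ, mem_Ioo] at hx
    obtain ⟨hx1, hx2⟩ := hx
    rw [div_lt_iff₀ hq0] at hx1
    rw [lt_div_iff₀ hq0] at hx2
    refine ⟨⟨al, h3, ?_⟩, ?_, ?_⟩
    · rw [abs_lt]; constructor <;> linarith only [hx1, hx2]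
    · have h4 : (m : ℝ) + 1 ≤ al := by exact_mod_cast h1
      have h5 : (q : ℝ) * u < q * x := by linarith only [hm, hx1, h4]
      exact lt_of_mul_lt_mul_left h5 hq0.le
    · have h4 : (al : ℝ) ≤ n := by exact_mod_cast h2
      have h5 : (q : ℝ) * x ≤ q * v := by linarith only [hn, hx2, h4]
      exact le_of_mul_le_mul_left h5 hq0
  have hdisj : (T : Set ℤ).PairwiseDisjoint J := by
    intro a _ b _ hab
    change Disjoint (J a) (J b)
    rw [Set.disjoint_left]
    intro x hx hx'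
    simp only [hJ, mem_Ioo] at hx hx'
    obtain ⟨h1, h2⟩ := hx
    obtain ⟨h3, h4⟩ := hx'
    rw [div_lt_iff₀ hq0] at h1 h3
    rw [lt_div_iff₀ hq0] at h2 h4
    have h5 : (a : ℝ) < b + 1 := by linarith only [hα2, h1, h4]
    have h6 : (b : ℝ) < a + 1 := by linarith only [hα2, h2, h3]
    have h7 : a < b + 1 := by exact_mod_cast h5
    have h8 : b < a + 1 := by exact_mod_cast h6
    exact hab (by omega)
  have hvol : volume (⋃ al ∈ T, J al) = ENNReal.ofReal (T.card * (2 * α / q)) := by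
    rw [measure_biUnion_finset hdisj (fun _ _ => measurableSet_Ioo)]
    have : ∀ al : ℤ, (γ + al + α) / q - (γ + al - α) / q = 2 * α / q := by
      intro al; field_simp; ring
    simp only [hJ, Real.volume_Ioo, this]
    rw [Finset.sum_const, nsmul_eq_mul, ENNReal.ofReal_mul (Nat.cast_nonneg _),
      ENNReal.ofReal_natCast]
  have hfin : volume (GS γ q α P ∩ Ioc u v) ≠ ⊤ :=
    ((measure_mono inter_subset_right).trans_lt (by rw [Real.volume_Ioc]; exact
      ENNReal.ofReal_lt_top)).ne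
  have h9 : volume.real (⋃ al ∈ T, J al) ≤ volume.real (GS γ q α P ∩ Ioc u v) :=
    measureReal_mono hsub hfin
  rw [Measure.real, hvol, ENNReal.toReal_ofReal (by (clear * - hα hq; positivity))] at h9
  exact h9

theorem volume_real_inter_le {E : Set UnitAddCircle} (hE : MeasurableSet E) {E' : Set ℝ}
    (h : ∀ x ∈ E', (x : UnitAddCircle) ∈ E) : volume (E' ∩ Ioc (0 : ℝ) 1) ≤ volume E := by
  have hmp := UnitAddCircle.measurePreserving_mk (0 : ℝ)
  rw [← hmp.measure_preimage hE.nullMeasurableSet, Measure.restrict_apply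
    (hmp.measurable hE)]
  apply measure_mono
  rintro x ⟨h1, h2⟩
  exact ⟨h x h1, by simpa only [zero_add, mem_Ioc] using h2⟩

theorem GS_inter_le (γ : ℝ) (q r : ℕ) (α β : ℝ) (P Q : ℤ → Prop) :
    volume (GS γ q α P ∩ GS γ r β Q ∩ Ioc (0 : ℝ) 1) ≤
      volume (arcSet q γ α ∩ arcSet r γ β) := by
  apply volume_real_inter_le ((measurableSet_arcSet _ _ _).inter (measurableSet_arcSet _ _ _))
  rintro x ⟨h1, h2⟩
  exact ⟨(mem_arcSet_coe q γ α x).mpr (GS_subset _ _ _ _ h1),
    (mem_arcSet_coe r γ β x).mpr (GS_subset _ _ _ _ h2)⟩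

/-- Full measure on `(0,1]` gives full measure on the line. -/
theorem volume_compl_W_of_unit_Ioc (γ : ℝ) (ψ : ℕ → ℝ)
    (h : ∀ᵐ x ∂(volume.restrict (Ioc (0 : ℝ) 1)),
      {q : ℕ | 0 < q ∧ distInt (q * x - γ) < ψ q}.Infinite) :
    volume (W γ ψ)ᶜ = 0 := by
  rw [ae_restrict_iff' measurableSet_Ioc, ae_iff] at h
  set Z : Set ℝ := {a | ¬(a ∈ Ioc (0 : ℝ) 1 → {q : ℕ | 0 < q ∧ distInt (q * a - γ) < ψ q}.Infinite)}
    with hZ
  have hsub : (W γ ψ)ᶜ ⊆ ⋃ n : ℤ, (fun x : ℝ => x + (n : ℝ)) ⁻¹' Z := by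
    intro x hx
    rw [mem_iUnion]
    refine ⟨-(⌈x⌉ - 1), ?_⟩
    simp only [mem_preimage, hZ, mem_ofPred_eq, Classical.not_imp]
    refine ⟨⟨?_, ?_⟩, ?_⟩
    · push_cast
      have := Int.ceil_lt_add_one x
      linarith only [this]
    · push_cast
      have := Int.le_ceil x
      linarith only [this]
    · intro hinf
      apply hx
      have e : {q : ℕ | 0 < q ∧ distInt (q * (x + ((-(⌈x⌉ - 1) : ℤ) : ℝ)) - γ) < ψ q}
          = {q : ℕ | 0 < q ∧ distInt (q * x - γ) < ψ q} := by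
        ext q
        simp only [mem_ofPred_eq]
        have e2 : (q : ℝ) * (x + ((-(⌈x⌉ - 1) : ℤ) : ℝ)) - γ
            = (q * x - γ) + (((q : ℤ) * (-(⌈x⌉ - 1)) : ℤ) : ℝ) := by
          push_cast; ring
        have e3 : distInt ((q * x - γ) + (((q : ℤ) * (-(⌈x⌉ - 1)) : ℤ) : ℝ))
            = distInt (q * x - γ) := by
          unfold distInt
          rw [round_add_intCast]
          congr 1
          push_cast
          ring
        rw [e2, e3]
      rw [e] at hinf
      exact hinf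
  refine measure_mono_null hsub (measure_iUnion_null fun n => ?_)
  rw [measure_preimage_add_right]
  exact h

open Classical in
/-- **Sifted block criterion.** -/
theorem fullMeasure_of_sifted (γ : ℝ) (ψ : ℕ → ℝ) {C c : ℝ} (hC : 0 ≤ C) (hc : 0 < c)
    (h : ∀ N : ℕ, ∃ (S : Finset ℕ) (w : ℕ → ℝ) (P : ℕ → ℤ → Prop),
      (∀ q ∈ S, N ≤ q ∧ 0 < ψ q ∧ ψ q ≤ 1 / 2) ∧
      (∀ q ∈ S, 0 ≤ w q) ∧ 0 < ∑ q ∈ S, w q * ψ q ∧
      (∀ q ∈ S, ∀ m n : ℤ, (q : ℝ) / (N + 1) ≤ (n : ℝ) - m →
        c * ((n : ℝ) - m) ≤ (((Finset.Ioc m n).filter (P q)).card : ℝ)) ∧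
      ∀ T : Finset (ℕ × ℕ), (∀ p ∈ T, p.1 ∈ S ∧ p.2 ∈ S ∧ DD p.1 p.2 (ψ p.1) (ψ p.2) < 1 / 4 ∧
        ∃ al be : ℤ, P p.1 al ∧ P p.2 be ∧
          |((al : ℝ) + γ) * (cofac p.2 p.1 : ℝ) - ((be : ℝ) + γ) * (cofac p.1 p.2 : ℝ)| <
            (cofac p.2 p.1 : ℝ) * ψ p.1 + (cofac p.1 p.2 : ℝ) * ψ p.2) →
      ∑ p ∈ T, w p.1 * w p.2 * (ψ p.1 * ψ p.2 / DD p.1 p.2 (ψ p.1) (ψ p.2)) ≤
      C * (∑ q ∈ S, w q * ψ q) ^ 2) :
    volume (W γ ψ)ᶜ = 0 := by
  apply volume_compl_W_of_unit_Ioc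
  choose S w P hS hw hpos hcount hsec using fun N => h (N + 1)
  set G : ℕ → ℕ → Set ℝ := fun j q => GS γ q (ψ q) (P j q) with hG
  set A : ℕ → Set ℝ := fun q => if 0 < q then {x | distInt (q * x - γ) < ψ q} else ∅ with hA
  set M : ℕ → ℝ := fun j => ∑ q ∈ S j, w j q * ψ q with hM
  have hM0 : ∀ j, 0 < M j := hpos
  set F : ℕ → ℝ → ℝ := fun j x =>
    (M j)⁻¹ * ∑ q ∈ S j, w j q * (G j q).indicator (fun _ => (1 : ℝ)) x with hF
  have hGm : ∀ j q, MeasurableSet (G j q) := fun j q => (isOpen_GS _ _ _ _).measurableSet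
  have hindm : ∀ j q, Measurable ((G j q).indicator (fun _ => (1 : ℝ))) := fun j q =>
    measurable_const.indicator (hGm j q)
  have hFm : ∀ j, Measurable (F j) := by
    intro j
    apply Measurable.const_mul
    apply Finset.measurable_fun_sum
    intro q _
    exact (hindm j q).const_mul _
  have hind0 : ∀ j q x, 0 ≤ (G j q).indicator (fun _ => (1 : ℝ)) x := fun j q x =>
    Set.indicator_nonneg (fun _ _ => zero_le_one) _
  have hind1 : ∀ j q x, (G j q).indicator (fun _ => (1 : ℝ)) x ≤ 1 := by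
    intro j q x
    by_cases hx : x ∈ G j q
    · simp [hx]
    · simp only [hx, not_false_eq_true, indicator_of_notMem, zero_le_one]
  have hAm : ∀ q, MeasurableSet (A q) := by
    intro q
    by_cases hq : 0 < q
    · have e : A q = GS γ q (ψ q) (fun _ => True) := by
        simp only [hA, hq, if_true]
        ext x
        simp only [GS, mem_ofPred_eq, true_and]
        constructor
        · intro h1; exact ⟨round ((q : ℝ) * x - γ), h1⟩
        · rintro ⟨al, h1⟩; exact lt_of_le_of_lt (round_le _ al) h1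
      rw [e]; exact (isOpen_GS _ _ _ _).measurableSet
    · simp only [hA, hq, if_false]; exact MeasurableSet.empty
  have hintG : ∀ (E E' : Set ℝ), MeasurableSet E → MeasurableSet E' → volume E' ≠ ⊤ →
      ∫ x in E', E.indicator (fun _ => (1 : ℝ)) x = volume.real (E ∩ E') := by
    intro E E' hE hE' hfin
    rw [integral_indicator hE, setIntegral_const, smul_eq_mul, mul_one,
      measureReal_restrict_apply hE]
  have hintI : ∀ (E E' : Set ℝ), MeasurableSet E → volume E' ≠ ⊤ →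
      Integrable (fun x => E.indicator (fun _ => (1 : ℝ)) x) (volume.restrict E') := by
    intro E E' hE hfin
    have : IsFiniteMeasure (volume.restrict E') := ⟨by
      rw [Measure.restrict_apply_univ]; exact hfin.lt_top⟩
    exact (integrable_const (1 : ℝ)).indicator hE
  have main := ae_infinite_of_lower_Ioc A F hAm hFm (fun j => (M j)⁻¹ * ∑ q ∈ S j, w j q) (by
      intro j x
      apply mul_le_mul_of_nonneg_left _ (inv_nonneg.mpr (hM0 j).le)
      apply Finset.sum_le_sum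
      intro q hq
      calc w j q * (G j q).indicator (fun _ => (1 : ℝ)) x ≤ w j q * 1 :=
            mul_le_mul_of_nonneg_left (hind1 j q x) (hw j q hq)
        _ = w j q := mul_one _) (by
      intro j x
      exact mul_nonneg (inv_nonneg.mpr (hM0 j).le) (Finset.sum_nonneg fun q hq =>
        mul_nonneg (hw j q hq) (hind0 j q x))) (by
      intro j x hx
      have : ∑ q ∈ S j, w j q * (G j q).indicator (fun _ => (1 : ℝ)) x ≠ 0 := by
        intro h0
        apply hx
        simp only [hF]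
        rw [h0, mul_zero]
      obtain ⟨q, hq, hq2⟩ := Finset.exists_ne_zero_of_sum_ne_zero this
      have hqN := (hS j q hq).1
      have hq0 : 0 < q := by omega
      refine ⟨q, by omega, ?_⟩
      simp only [hA, hq0, if_true]
      by_contra hxA
      apply hq2
      rw [Set.indicator_of_notMem (fun hx' => hxA (GS_subset _ _ _ _ hx')), mul_zero])
    (C := 16 + 2 * C) (c := c) hc (by
      intro j
      have e : ∀ x, (F j x) ^ 2 = ((M j)⁻¹) ^ 2 * ∑ q ∈ S j, ∑ r ∈ S j, w j q * w j r *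
          ((G j q ∩ G j r).indicator (fun _ => (1 : ℝ)) x) := by
        intro x
        simp only [hF]
        rw [mul_pow, sq (∑ q ∈ S j, _), Finset.sum_mul_sum]
        congr 1
        apply Finset.sum_congr rfl
        intro q _
        apply Finset.sum_congr rfl
        intro r _
        by_cases h1 : x ∈ G j q <;> by_cases h2 : x ∈ G j r <;> simp [h1, h2]
      have hint : ∀ q r, Integrable (fun x => (G j q ∩ G j r).indicator (fun _ => (1 : ℝ)) x)
          (volume.restrict (Ioc (0 : ℝ) 1)) := fun q r =>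
        hintI _ _ ((hGm j q).inter (hGm j r)) (by simp only [Real.volume_Ioc, sub_zero, ENNReal.ofReal_one, ne_eq, ENNReal.one_ne_top, not_false_eq_true])
      simp only [e]
      rw [integral_const_mul, integral_finsetSum _ (fun q _ =>
        integrable_finsetSum _ (fun r _ => (hint q r).const_mul _))]
      have e2 : ∀ q ∈ S j, ∫ x in Ioc (0 : ℝ) 1, ∑ r ∈ S j, w j q * w j r *
          ((G j q ∩ G j r).indicator (fun _ => (1 : ℝ)) x)
          = ∑ r ∈ S j, w j q * w j r * volume.real (G j q ∩ G j r ∩ Ioc (0 : ℝ) 1) := by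
        intro q _
        rw [integral_finsetSum _ (fun r _ => (hint q r).const_mul _)]
        apply Finset.sum_congr rfl
        intro r _
        rw [integral_const_mul, hintG _ _ ((hGm j q).inter (hGm j r)) measurableSet_Ioc (by simp only [Real.volume_Ioc, sub_zero, ENNReal.ofReal_one, ne_eq, ENNReal.one_ne_top, not_false_eq_true])]
      rw [Finset.sum_congr rfl e2]
      -- the pairs
      set T : Finset (ℕ × ℕ) := (S j ×ˢ S j).filter (fun p => DD p.1 p.2 (ψ p.1) (ψ p.2) < 1 / 4 ∧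
        ∃ al be : ℤ, P j p.1 al ∧ P j p.2 be ∧
          |((al : ℝ) + γ) * (cofac p.2 p.1 : ℝ) - ((be : ℝ) + γ) * (cofac p.1 p.2 : ℝ)| <
            (cofac p.2 p.1 : ℝ) * ψ p.1 + (cofac p.1 p.2 : ℝ) * ψ p.2) with hTdef
      have hTb := hsec j T (by
        intro p hp
        rw [hTdef, Finset.mem_filter, Finset.mem_product] at hp
        exact ⟨hp.1.1, hp.1.2, hp.2.1, hp.2.2⟩)
      have hDpos : ∀ q ∈ S j, ∀ r ∈ S j, 0 < DD q r (ψ q) (ψ r) := by
        intro q hq r hr
        obtain ⟨h1, h2, _⟩ := hS j q hq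
        obtain ⟨h3, h4, _⟩ := hS j r hr
        have hg : 0 < Nat.gcd q r := Nat.gcd_pos_of_pos_left _ (by omega)
        have hrR : (0 : ℝ) < r := by exact_mod_cast (by omega : 0 < r)
        rw [DD]
        apply div_pos _ (by exact_mod_cast hg)
        exact lt_max_of_lt_left (mul_pos hrR h2)
      have hpair : ∀ q ∈ S j, ∀ r ∈ S j,
          volume.real (G j q ∩ G j r ∩ Ioc (0 : ℝ) 1)
          ≤ 16 * (ψ q * ψ r) + (if (q, r) ∈ T then 2 * (ψ q * ψ r / DD q r (ψ q) (ψ r)) else 0) := by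
        intro q hq r hr
        obtain ⟨h1, h2, h2'⟩ := hS j q hq
        obtain ⟨h3, h4, h4'⟩ := hS j r hr
        have hD0 := hDpos q hq r hr
        have hle := GS_inter_le γ q r (ψ q) (ψ r) (P j q) (P j r)
        rcases le_or_gt (1 / 4) (DD q r (ψ q) (ψ r)) with hD | hD
        · have := volume_inter_le_of_quarter_le q r (by omega) (by omega) γ γ (ψ q) (ψ r)
            h2.le h4.le hD
          have h5 : volume.real (G j q ∩ G j r ∩ Ioc (0 : ℝ) 1) ≤ 16 * ψ q * ψ r :=
            ENNReal.toReal_le_of_le_ofReal (by (clear * - h2 h4; positivity)) (hle.trans this)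
          have h6 : 0 ≤ (if (q, r) ∈ T then 2 * (ψ q * ψ r / DD q r (ψ q) (ψ r)) else 0) := by
            split_ifs
            · (clear * - h2 h4 hD0; positivity)
            · exact le_rfl
          linarith only [h5, h6]
        · by_cases hT' : (q, r) ∈ T
          · rw [if_pos hT']
            have := volume_inter_le_of_lt_quarter q r (by omega) (by omega) γ γ (ψ q) (ψ r)
              h2.le h4.le hD0 hD
            have h5 : volume.real (G j q ∩ G j r ∩ Ioc (0 : ℝ) 1)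
                ≤ 2 * ψ q * ψ r / DD q r (ψ q) (ψ r) :=
              ENNReal.toReal_le_of_le_ofReal (by (clear * - h2 h4 hD0; positivity)) (hle.trans this)
            have h6 : 2 * ψ q * ψ r / DD q r (ψ q) (ψ r)
                = 2 * (ψ q * ψ r / DD q r (ψ q) (ψ r)) := by
              ring
            have h7 : 0 ≤ ψ q * ψ r := by (clear * - h2 h4; positivity)
            linarith only [h5, h6, h7]
          · rw [if_neg hT']
            have h0 : G j q ∩ G j r ∩ Ioc (0 : ℝ) 1 = ∅ := by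
              rw [Set.eq_empty_iff_forall_notMem]
              rintro x ⟨⟨⟨al, hal, hx1⟩, ⟨be, hbe, hx2⟩⟩, _⟩
              apply hT'
              rw [hTdef, Finset.mem_filter, Finset.mem_product]
              refine ⟨⟨hq, hr⟩, hD, al, be, hal, hbe, ?_⟩
              have hg : 0 < Nat.gcd q r := Nat.gcd_pos_of_pos_left _ (by omega)
              have hgR : (0 : ℝ) < Nat.gcd q r := by exact_mod_cast hg
              have ha : 0 < cofac q r := Nat.div_pos (Nat.gcd_le_left _ (by omega)) hg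
              have hb : 0 < cofac r q := by
                unfold cofac
                rw [Nat.gcd_comm]
                exact Nat.div_pos (Nat.gcd_le_right _ (by omega)) hg
              have haR : (0 : ℝ) < cofac q r := by exact_mod_cast ha
              have hbR : (0 : ℝ) < cofac r q := by exact_mod_cast hb
              have e3 : (q : ℝ) * cofac r q = r * cofac q r := by
                have e4 : q * cofac r q = r * cofac q r := by
                  unfold cofac
                  rw [Nat.gcd_comm r q, ← Nat.mul_div_assoc _ (Nat.gcd_dvd_right q r),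
                    ← Nat.mul_div_assoc _ (Nat.gcd_dvd_left q r), Nat.mul_comm]
                exact_mod_cast e4
              dsimp only
              have e5 : ((al : ℝ) + γ) * (cofac r q : ℝ) - ((be : ℝ) + γ) * (cofac q r : ℝ)
                  = (cofac q r : ℝ) * ((r : ℝ) * x - γ - be)
                    - (cofac r q : ℝ) * ((q : ℝ) * x - γ - al) := by
                linear_combination x * e3
              rw [e5]
              calc |(cofac q r : ℝ) * ((r : ℝ) * x - γ - be)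
                    - (cofac r q : ℝ) * ((q : ℝ) * x - γ - al)|
                  ≤ |(cofac q r : ℝ) * ((r : ℝ) * x - γ - be)|
                    + |(cofac r q : ℝ) * ((q : ℝ) * x - γ - al)| := abs_sub _ _
                _ = (cofac q r : ℝ) * |(r : ℝ) * x - γ - be|
                    + (cofac r q : ℝ) * |(q : ℝ) * x - γ - al| := by
                    rw [abs_mul, abs_mul, abs_of_pos haR, abs_of_pos hbR]
                _ < (cofac q r : ℝ) * ψ r + (cofac r q : ℝ) * ψ q := by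
                    (clear * - hx2 ha hx1 hb; gcongr)
                _ = _ := by ring
            rw [h0, measureReal_empty]
            have h7 : 0 ≤ ψ q * ψ r := by (clear * - h2 h4; positivity)
            linarith only [h7]
      have hsumT : ∑ q ∈ S j, ∑ r ∈ S j, w j q * w j r *
          volume.real (G j q ∩ G j r ∩ Ioc (0 : ℝ) 1) ≤ (16 + 2 * C) * (M j) ^ 2 := by
        calc ∑ q ∈ S j, ∑ r ∈ S j, w j q * w j r * volume.real (G j q ∩ G j r ∩ Ioc (0 : ℝ) 1)
            ≤ ∑ q ∈ S j, ∑ r ∈ S j, w j q * w j r * (16 * (ψ q * ψ r) +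
              (if (q, r) ∈ T then 2 * (ψ q * ψ r / DD q r (ψ q) (ψ r)) else 0)) := by
              apply Finset.sum_le_sum
              intro q hq
              apply Finset.sum_le_sum
              intro r hr
              exact mul_le_mul_of_nonneg_left (hpair q hq r hr)
                (mul_nonneg (hw j q hq) (hw j r hr))
          _ = 16 * (∑ q ∈ S j, w j q * ψ q) ^ 2 + 2 * ∑ p ∈ T, w j p.1 * w j p.2 *
              (ψ p.1 * ψ p.2 / DD p.1 p.2 (ψ p.1) (ψ p.2)) := by
              simp only [mul_add, Finset.sum_add_distrib]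
              congr 1
              · rw [sq, Finset.sum_mul_sum, Finset.mul_sum]
                apply Finset.sum_congr rfl
                intro q _
                rw [Finset.mul_sum]
                apply Finset.sum_congr rfl
                intro r _
                ring
              · have hTs : T ⊆ S j ×ˢ S j := Finset.filter_subset _ _
                have e1 : ∑ p ∈ T, w j p.1 * w j p.2 *
                    (ψ p.1 * ψ p.2 / DD p.1 p.2 (ψ p.1) (ψ p.2))
                    = ∑ p ∈ S j ×ˢ S j, if p ∈ T then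
                      w j p.1 * w j p.2 * (ψ p.1 * ψ p.2 / DD p.1 p.2 (ψ p.1) (ψ p.2)) else 0 := by
                  rw [Finset.sum_ite_mem, Finset.inter_eq_right.mpr hTs]
                rw [e1, Finset.sum_product, Finset.mul_sum]
                apply Finset.sum_congr rfl
                intro q _
                rw [Finset.mul_sum]
                apply Finset.sum_congr rfl
                intro r _
                split_ifs
                · ring
                · ring
          _ ≤ 16 * (M j) ^ 2 + 2 * (C * (M j) ^ 2) := by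
              have := hTb
              simp only [hM]
              linarith only [hTb]
          _ = (16 + 2 * C) * (M j) ^ 2 := by ring
      have hMj := hM0 j
      calc ((M j)⁻¹) ^ 2 * ∑ q ∈ S j, ∑ r ∈ S j, w j q * w j r *
            volume.real (G j q ∩ G j r ∩ Ioc (0 : ℝ) 1)
          ≤ ((M j)⁻¹) ^ 2 * ((16 + 2 * C) * (M j) ^ 2) :=
            mul_le_mul_of_nonneg_left hsumT (by (clear * - hMj; positivity))
        _ = 16 + 2 * C := by
            have : M j ≠ 0 := hMj.ne'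
            (clear * - this hC; field_simp)) (by
      intro u v hu huv hv
      obtain ⟨j₀, hj₀⟩ := exists_nat_gt (4 / (v - u))
      filter_upwards [eventually_ge_atTop j₀] with j hj
      have hvu : 0 < v - u := by linarith only [huv]
      have hjR : (j₀ : ℝ) ≤ j := by exact_mod_cast hj
      have hj4 : 4 / (v - u) < j := lt_of_lt_of_le hj₀ hjR
      have hj4' : 4 < j * (v - u) := by rwa [div_lt_iff₀ hvu] at hj4
      have hfin : volume (Ioc u v) ≠ ⊤ := by rw [Real.volume_Ioc]; exact ENNReal.ofReal_ne_top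
      have e1 : ∫ x in Ioc u v, F j x
          = (M j)⁻¹ * ∑ q ∈ S j, w j q * volume.real (G j q ∩ Ioc u v) := by
        simp only [hF]
        rw [integral_const_mul, integral_finsetSum _ (fun q _ =>
          (hintI _ _ (hGm j q) hfin).const_mul _)]
        congr 1
        apply Finset.sum_congr rfl
        intro q _
        rw [integral_const_mul, hintG _ _ (hGm j q) measurableSet_Ioc hfin]
      rw [e1]
      have hMj := hM0 j
      rw [inv_mul_eq_div, le_div_iff₀ hMj]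
      simp only [hM]
      rw [Finset.mul_sum]
      apply Finset.sum_le_sum
      intro q hq
      obtain ⟨h1, h2, h2'⟩ := hS j q hq
      have hq0 : 0 < q := by (clear * - hj h1; omega)
      have hq0' : (0 : ℝ) < q := by exact_mod_cast hq0
      have hqj : (j : ℝ) ≤ q := by
        have : j ≤ q := by omega
        exact_mod_cast this
      set m : ℤ := ⌈(q : ℝ) * u - γ + ψ q⌉ - 1 with hm
      set n : ℤ := ⌊(q : ℝ) * v - γ - ψ q⌋ with hn
      have hm1 : (q : ℝ) * u - γ + ψ q ≤ m + 1 := by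
        rw [hm]; push_cast
        have := Int.le_ceil ((q : ℝ) * u - γ + ψ q)
        linarith only [this]
      have hm2 : (m : ℝ) < (q : ℝ) * u - γ + ψ q := by
        rw [hm]; push_cast
        have := Int.ceil_lt_add_one ((q : ℝ) * u - γ + ψ q)
        linarith only [this]
      have hn1 : (n : ℝ) ≤ (q : ℝ) * v - γ - ψ q := Int.floor_le _
      have hn2 : (q : ℝ) * v - γ - ψ q < n + 1 := Int.lt_floor_add_one _
      have hq4 : 4 < q * (v - u) := by nlinarith only [hj4', huv, hqj]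
      have hnm : q * (v - u) / 2 ≤ (n : ℝ) - m := by linarith
      have h5 := GS_lower γ hq0 h2 h2' (P j q) u v m n hm1 hn1
      have h6 := hcount j q hq m n (by
        refine le_trans ?_ hnm
        push_cast
        rw [div_le_iff₀ (by (clear * -; positivity))]
        have : (2 : ℝ) ≤ (v - u) * (j + 1 + 1) := by nlinarith only [hj4']
        nlinarith only [hj4', hq4])
      calc c * (v - u) * (w j q * ψ q)
          = w j q * ((c * (q * (v - u) / 2)) * (2 * ψ q / q)) := by (clear * - hq0 h2 hvu hc; field_simp)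
        _ ≤ w j q * ((((Finset.Ioc m n).filter (P j q)).card : ℝ) * (2 * ψ q / q)) := by
            apply mul_le_mul_of_nonneg_left _ (hw j q hq)
            apply mul_le_mul_of_nonneg_right _ (by (clear * - h2 hq0; positivity))
            exact (mul_le_mul_of_nonneg_left hnm hc.le).trans h6
        _ ≤ w j q * volume.real (G j q ∩ Ioc u v) :=
            mul_le_mul_of_nonneg_left h5 (hw j q hq))
  filter_upwards [main] with x hx
  apply hx.mono
  intro q hq
  simp only [mem_ofPred_eq, hA] at hq ⊢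
  by_cases hq0 : 0 < q
  · rw [if_pos hq0] at hq
    exact ⟨hq0, hq⟩
  · rw [if_neg hq0] at hq
    exact absurd hq (Set.notMem_empty _)

/-- The elimination step: if `γ` is well approximated by `A/B` and the two centres are close, then
both centres are divisible. -/
theorem kill_dvd {γ s β : ℝ} {A : ℤ} {B a b : ℕ} (hβ : |(B : ℝ) * γ - A| ≤ β)
    (hab : Nat.Coprime a b) (hsmall : 2 * s * B + β * |(b : ℝ) - a| ≤ 1) (hB : 0 < B) {al be : ℤ}
    (h : |((al : ℝ) + γ) * b - ((be : ℝ) + γ) * a| < 2 * s) :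
    (a : ℤ) ∣ al * B + A ∧ (b : ℤ) ∣ be * B + A := by
  have hB0 : (0 : ℝ) < B := by exact_mod_cast hB
  set e : ℝ := (B : ℝ) * γ - A with he
  have h1 : (((al * B + A) * b - (be * B + A) * a : ℤ) : ℝ)
      = B * (((al : ℝ) + γ) * b - ((be : ℝ) + γ) * a) - e * ((b : ℝ) - a) := by
    rw [he]; push_cast; ring
  have h2 : |(((al * B + A) * b - (be * B + A) * a : ℤ) : ℝ)| < 1 := by
    rw [h1]
    calc |(B : ℝ) * (((al : ℝ) + γ) * b - ((be : ℝ) + γ) * a) - e * ((b : ℝ) - a)|
        ≤ |(B : ℝ) * (((al : ℝ) + γ) * b - ((be : ℝ) + γ) * a)| + |e * ((b : ℝ) - a)| :=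
          abs_sub _ _
      _ = B * |((al : ℝ) + γ) * b - ((be : ℝ) + γ) * a| + |e| * |(b : ℝ) - a| := by
          rw [abs_mul, abs_mul, abs_of_pos hB0]
      _ < B * (2 * s) + β * |(b : ℝ) - a| := by
          have h3 : B * |((al : ℝ) + γ) * b - ((be : ℝ) + γ) * a| < B * (2 * s) :=
            mul_lt_mul_of_pos_left h hB0
          have h4 : |e| * |(b : ℝ) - a| ≤ β * |(b : ℝ) - a| :=
            mul_le_mul_of_nonneg_right hβ (abs_nonneg _)
          linarith only [h3, h4]
      _ ≤ 1 := by linarith only [hsmall]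
  have h3 : (al * B + A) * b - (be * B + A) * a = 0 := by
    rw [← Int.cast_abs] at h2
    have h4 : |(al * B + A) * b - (be * B + A) * a| < 1 := by exact_mod_cast h2
    exact Int.abs_lt_one_iff.mp h4
  have hcop : IsCoprime (a : ℤ) (b : ℤ) := Nat.isCoprime_iff_coprime.mpr hab
  constructor
  · apply hcop.dvd_of_dvd_mul_right
    exact ⟨be * B + A, by linear_combination h3⟩
  · apply hcop.symm.dvd_of_dvd_mul_right
    exact ⟨al * B + A, by linear_combination -h3⟩

end Vale.P028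
end

section

/-!
# Structure of the bad denominators, kill lemma
-/

namespace Vale.P028

open Finset MeasureTheory Filter

theorem distInt_le_abs_sub' (x : ℝ) (z : ℤ) : distInt x ≤ |x - z| := round_le x z

theorem BadAt.gcd_eq_one {γ s : ℝ} {B : ℕ} (_hs : 0 < s) (_hs2 : s ≤ 1 / 1000)
    (h : BadAt γ s B) : Int.gcd (round ((B : ℝ) * γ)) B = 1 := by
  obtain ⟨⟨hB, h1, h2⟩, _⟩ := h
  set A := round ((B : ℝ) * γ) with hA
  by_contra hne
  have hB0 : (B : ℤ) ≠ 0 := by exact_mod_cast hB.ne'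
  have hd0 : 0 < Int.gcd A B := Int.gcd_pos_of_ne_zero_right _ hB0
  have hd2 : 2 ≤ Int.gcd A B := by omega
  obtain ⟨A', hA'⟩ := Int.gcd_dvd_left A (B : ℤ)
  obtain ⟨k, hk⟩ : Int.gcd A B ∣ B := by
    have := Int.gcd_dvd_right A (B : ℤ)
    exact_mod_cast this
  set d := Int.gcd A B with hd
  have hk0 : 0 < k := by
    rcases Nat.eq_zero_or_pos k with h0 | h0
    · rw [h0, mul_zero] at hk; omega
    · exact h0
  have hkB : k < B := by rw [hk]; nlinarith only [hd2, hk0]
  have h3 := h2 k hk0 hkB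
  have hdR : (0 : ℝ) < d := by exact_mod_cast hd0
  have h4 : distInt (k * γ) ≤ distInt (B * γ) := by
    have h5 : distInt (B * γ) = d * |(k : ℝ) * γ - A'| := by
      have e : (B : ℝ) * γ - A = d * ((k : ℝ) * γ - A') := by
        rw [hA', hk]; push_cast; ring
      unfold distInt
      rw [← hA, e, abs_mul, abs_of_pos hdR]
    rw [h5]
    calc distInt (k * γ) ≤ |(k : ℝ) * γ - A'| := distInt_le_abs_sub' _ _
      _ = 1 * |(k : ℝ) * γ - A'| := (one_mul _).symm
      _ ≤ d * |(k : ℝ) * γ - A'| := by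
          apply mul_le_mul_of_nonneg_right _ (abs_nonneg _)
          exact_mod_cast hd0
  linarith only [h1, h3, h4]

theorem BadAt.mul_le {γ s : ℝ} {B : ℕ} (hs : 0 < s) (hs2 : s ≤ 1 / 1000) (h : BadAt γ s B) :
    s * B ≤ 1 / 16 := by
  by_contra hne
  rw [not_le] at hne
  have h1 : (1 / 16 : ℝ) ^ 4 < (s * B) ^ 4 := pow_lt_pow_left₀ hne (by norm_num) (by norm_num)
  have h2 : (s * (B : ℝ)) ^ 4 = ((B : ℝ) ^ 4 * s) * s ^ 3 := by ring
  have h3 : ((B : ℝ) ^ 4 * s) * s ^ 3 ≤ 1 * (1 / 1000) ^ 3 := by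
    apply mul_le_mul h.2 (pow_le_pow_left₀ hs.le hs2 3) (by positivity) zero_le_one
  rw [h2] at h1
  norm_num at h1 h3
  linarith only [h1, h3]

theorem Bad.gap {γ s₁ : ℝ} {B B' : ℕ} (hs1 : s₁ ≤ 1 / 1000) (h : Bad γ s₁ B) (h' : Bad γ s₁ B')
    (hlt : B < B') : 3 / 16 * max ((B : ℝ) ^ 4) (1 / s₁) ≤ B' := by
  obtain ⟨s, hs, hss₁, hb⟩ := h
  obtain ⟨s', hs', hss₁', hb'⟩ := h'
  have hg := hb.gcd_eq_one hs (hss₁.trans hs1)
  have hg' := hb'.gcd_eq_one hs' (hss₁'.trans hs1)
  have hm := hb.mul_le hs (hss₁.trans hs1)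
  obtain ⟨⟨hB, h1, h2⟩, h3⟩ := hb
  obtain ⟨⟨hB', h1', h2'⟩, h3'⟩ := hb'
  have hBR : (0 : ℝ) < B := by exact_mod_cast hB
  have hBR' : (0 : ℝ) < B' := by exact_mod_cast hB'
  have h4 := h2' B hB hlt
  set A := round ((B : ℝ) * γ) with hA
  set A' := round ((B' : ℝ) * γ) with hA'
  have hne : A' * B - A * B' ≠ 0 := by
    intro h0
    have h5 : A' * B = A * B' := by linarith only [h0]
    have h6 : (B : ℤ) ∣ B' := by
      have : (B : ℤ) ∣ A * B' := ⟨A', by rw [← h5]; ring⟩
      exact (Int.isCoprime_iff_gcd_eq_one.mpr hg).symm.dvd_of_dvd_mul_left this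
    have h7 : (B' : ℤ) ∣ B := by
      have : (B' : ℤ) ∣ A' * B := ⟨A, by rw [h5]; ring⟩
      exact (Int.isCoprime_iff_gcd_eq_one.mpr hg').symm.dvd_of_dvd_mul_left this
    have h8 : B ∣ B' := by exact_mod_cast h6
    have h9 : B' ∣ B := by exact_mod_cast h7
    have := Nat.dvd_antisymm h8 h9
    omega
  have h5 : (1 : ℝ) ≤ |((A' * B - A * B' : ℤ) : ℝ)| := by
    rw [← Int.cast_abs]
    exact_mod_cast Int.one_le_abs hne
  set β := distInt (B * γ) with hβ
  set β' := distInt (B' * γ) with hβ'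
  have h6 : |((A' * B - A * B' : ℤ) : ℝ)| ≤ B * β' + B' * β := by
    have e : ((A' * B - A * B' : ℤ) : ℝ) = B' * ((B : ℝ) * γ - A) - B * ((B' : ℝ) * γ - A') := by
      push_cast; ring
    rw [e]
    calc |(B' : ℝ) * ((B : ℝ) * γ - A) - B * ((B' : ℝ) * γ - A')|
        ≤ |(B' : ℝ) * ((B : ℝ) * γ - A)| + |(B : ℝ) * ((B' : ℝ) * γ - A')| := abs_sub _ _
      _ = B * β' + B' * β := by
          rw [abs_mul, abs_mul, abs_of_pos hBR, abs_of_pos hBR', hβ, hβ']
          unfold distInt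
          ring
  have h7 : B * β' ≤ 1 / 4 := by
    have : (B : ℝ) * β' ≤ B * (4 * s) := mul_le_mul_of_nonneg_left (by linarith only [h1, h4, h1']) hBR.le
    linarith only [hm, this]
  have h8 : 3 / 4 ≤ B' * β := by (clear * - h5 h6 h7; linarith)
  have h9 : 3 / 16 ≤ B' * s := by
    have : (B' : ℝ) * β ≤ B' * (4 * s) := mul_le_mul_of_nonneg_left h1 hBR'.le
    linarith only [h5, h6, h7, this]
  have h10 : 3 / 16 * (1 / s) ≤ B' := by
    rw [mul_one_div, div_le_iff₀ hs]; exact h9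
  have h11 : (B : ℝ) ^ 4 ≤ 1 / s := by
    rw [le_div_iff₀ hs]; exact h3
  have h12 : 1 / s₁ ≤ 1 / s := one_div_le_one_div_of_le hs hss₁
  have h13 : max ((B : ℝ) ^ 4) (1 / s₁) ≤ 1 / s := max_le h11 h12
  linarith only [h10, h13]

theorem kill {γ s s₁ R : ℝ} {ψ : ℕ → ℝ} (hs : 0 < s) (hs1 : s ≤ s₁) (hs2 : s ≤ 1 / 1000)
    {q r : ℕ} (hq : 0 < q) (hr : 0 < r) (hqr : q ≠ r)
    (hD1 : (cofac r q : ℝ) * ψ q ≤ s) (hD2 : (cofac q r : ℝ) * ψ r ≤ s)
    (hR : R < max (cofac q r : ℝ) (cofac r q : ℝ)) (hF : ¬ Far γ s (cofac q r) (cofac r q)) :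
    Gset γ s₁ R ψ q ∩ Gset γ s₁ R ψ r = ∅ := by
  rw [Set.eq_empty_iff_forall_notMem]
  rintro x ⟨⟨al, hx1, hal⟩, ⟨be, hx2, hbe⟩⟩
  unfold Far at hF
  push Not at hF
  obtain ⟨B, hB, hlt⟩ := hF
  have hmul := hB.mul_le hs hs2
  have hBad : Bad γ s₁ B := ⟨s, hs, hs1, hB⟩
  have hB0 : 0 < B := hB.1.1
  have hBR : (0 : ℝ) < B := by exact_mod_cast hB0
  have hg : 0 < Nat.gcd q r := Nat.gcd_pos_of_pos_left _ hq
  have ha : 0 < cofac q r := Nat.div_pos (Nat.gcd_le_left _ hq) hg
  have hb : 0 < cofac r q := by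
    unfold cofac
    rw [Nat.gcd_comm]
    exact Nat.div_pos (Nat.gcd_le_right _ hr) hg
  have haR : (0 : ℝ) < cofac q r := by exact_mod_cast ha
  have hbR : (0 : ℝ) < cofac r q := by exact_mod_cast hb
  have haR1 : (1 : ℝ) ≤ cofac q r := by exact_mod_cast ha
  have hbR1 : (1 : ℝ) ≤ cofac r q := by exact_mod_cast hb
  have e4 : q * cofac r q = r * cofac q r := by
    unfold cofac
    rw [Nat.gcd_comm r q, ← Nat.mul_div_assoc _ (Nat.gcd_dvd_right q r),
      ← Nat.mul_div_assoc _ (Nat.gcd_dvd_left q r), Nat.mul_comm]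
  have e3 : (q : ℝ) * cofac r q = r * cofac q r := by exact_mod_cast e4
  have hcop : Nat.Coprime (cofac q r) (cofac r q) := by
    unfold cofac
    rw [Nat.gcd_comm r q]
    exact Nat.coprime_div_gcd_div_gcd hg
  have haq : cofac q r ∣ q := Nat.div_dvd_of_dvd (Nat.gcd_dvd_left q r)
  have hbr : cofac r q ∣ r := Nat.div_dvd_of_dvd (Nat.gcd_dvd_left r q)
  have hab : cofac q r ≠ cofac r q := by
    intro h
    rw [h] at e4
    exact hqr (Nat.eq_of_mul_eq_mul_right hb e4)
  set a := cofac q r with hadef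
  set b := cofac r q with hbdef
  have hclose : |((al : ℝ) + γ) * b - ((be : ℝ) + γ) * a| < 2 * s := by
    have e5 : ((al : ℝ) + γ) * b - ((be : ℝ) + γ) * a
        = (a : ℝ) * ((r : ℝ) * x - γ - be) - (b : ℝ) * ((q : ℝ) * x - γ - al) := by
      linear_combination x * e3
    rw [e5]
    calc |(a : ℝ) * ((r : ℝ) * x - γ - be) - (b : ℝ) * ((q : ℝ) * x - γ - al)|
        ≤ |(a : ℝ) * ((r : ℝ) * x - γ - be)| + |(b : ℝ) * ((q : ℝ) * x - γ - al)| := abs_sub _ _
      _ = (a : ℝ) * |(r : ℝ) * x - γ - be| + (b : ℝ) * |(q : ℝ) * x - γ - al| := by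
          rw [abs_mul, abs_mul, abs_of_pos haR, abs_of_pos hbR]
      _ < (a : ℝ) * ψ r + (b : ℝ) * ψ q := by (clear * - hx2 ha hx1 hb; gcongr)
      _ ≤ s + s := add_le_add hD2 hD1
      _ = 2 * s := by ring
  have hmaxab : |(b : ℝ) - a| < max (a : ℝ) (b : ℝ) := by
    rw [abs_lt]
    constructor
    · have := le_max_left (a : ℝ) (b : ℝ)
      linarith only [hbR1, this]
    · have := le_max_right (a : ℝ) (b : ℝ)
      linarith only [haR1, this]
  have hβ0 : 0 ≤ distInt (B * γ) := abs_nonneg _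
  obtain ⟨hd1, hd2⟩ := kill_dvd (γ := γ) (s := s) (β := distInt (B * γ))
    (A := round ((B : ℝ) * γ)) (B := B) le_rfl hcop (by
      have h1 : distInt (B * γ) * |(b : ℝ) - a| ≤ distInt (B * γ) * max (a : ℝ) (b : ℝ) :=
        mul_le_mul_of_nonneg_left hmaxab.le hβ0
      nlinarith only [hmul, hlt, h1]) hB0 hclose
  -- |a - b| ≥ B
  have hBlt : (B : ℝ) < max (a : ℝ) (b : ℝ) := by
    refine lt_of_le_of_lt ?_ hmaxab
    set h : ℕ := ((b : ℤ) - a).natAbs with hh
    have hh0 : 0 < h := by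
      rw [hh, Int.natAbs_pos, sub_ne_zero]
      exact_mod_cast hab.symm
    have hhR : (h : ℝ) = |(b : ℝ) - a| := by
      rw [hh, Nat.cast_natAbs, Int.cast_abs]
      push_cast
      rfl
    rw [← hhR]
    by_contra hcon
    rw [not_le] at hcon
    have hhB : h < B := by exact_mod_cast hcon
    have h5 := hB.1.2.2 h hh0 hhB
    have h6 : distInt (h * γ) < 2 * s := by
      rcases le_total (a : ℝ) b with hle | hle
      · have h7 : (h : ℝ) = b - a := by rw [hhR, abs_of_nonneg (by linarith only [hle])]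
        refine lt_of_le_of_lt (distInt_le_abs_sub' _ (-(al * b - be * a))) ?_
        have e : (h : ℝ) * γ - ((-(al * b - be * a) : ℤ) : ℝ)
            = ((al : ℝ) + γ) * b - ((be : ℝ) + γ) * a := by
          rw [h7]; push_cast; ring
        rw [e]; exact hclose
      · have h7 : (h : ℝ) = a - b := by
          rw [hhR, abs_of_nonpos (by linarith only [hle])]; ring
        refine lt_of_le_of_lt (distInt_le_abs_sub' _ (al * b - be * a)) ?_
        have e : (h : ℝ) * γ - ((al * b - be * a : ℤ) : ℝ)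
            = -(((al : ℝ) + γ) * b - ((be : ℝ) + γ) * a) := by
          rw [h7]; push_cast; ring
        rw [e, abs_neg]; exact hclose
    linarith only [hs, h5, h6]
  have hboth : max (B : ℝ) R < max (a : ℝ) (b : ℝ) := max_lt hBlt hR
  rcases le_total (a : ℝ) b with hle | hle
  · rw [max_eq_right hle] at hboth
    have h5 := hbe B hBad
    have h6 : (b : ℤ) ∣ ((Int.gcd (be * B + round ((B : ℝ) * γ)) r : ℕ) : ℤ) :=
      Int.dvd_coe_gcd hd2 (by exact_mod_cast hbr)
    have h7 : b ∣ Int.gcd (be * B + round ((B : ℝ) * γ)) r := by exact_mod_cast h6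
    have h8 : b ≤ Int.gcd (be * B + round ((B : ℝ) * γ)) r :=
      Nat.le_of_dvd (Int.gcd_pos_of_ne_zero_right _ (by exact_mod_cast hr.ne')) h7
    have h9 : (b : ℝ) ≤ (Int.gcd (be * B + round ((B : ℝ) * γ)) r : ℝ) := by exact_mod_cast h8
    linarith only [hboth, h5, h9]
  · rw [max_eq_left hle] at hboth
    have h5 := hal B hBad
    have h6 : (a : ℤ) ∣ ((Int.gcd (al * B + round ((B : ℝ) * γ)) q : ℕ) : ℤ) :=
      Int.dvd_coe_gcd hd1 (by exact_mod_cast haq)
    have h7 : a ∣ Int.gcd (al * B + round ((B : ℝ) * γ)) q := by exact_mod_cast h6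
    have h8 : a ≤ Int.gcd (al * B + round ((B : ℝ) * γ)) q :=
      Nat.le_of_dvd (Int.gcd_pos_of_ne_zero_right _ (by exact_mod_cast hq.ne')) h7
    have h9 : (a : ℝ) ≤ (Int.gcd (al * B + round ((B : ℝ) * γ)) q : ℝ) := by exact_mod_cast h8
    linarith only [hboth, h5, h9]

end Vale.P028
end

section

/-!
# Limsup lemma with lower bounds, measure of the sifted sets
-/

namespace Vale.P028

open Finset MeasureTheory Filter

theorem ae_infinite_of_lower (A : ℕ → Set ℝ) (F : ℕ → ℝ → ℝ) (hA : ∀ q, MeasurableSet (A q))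
    (hFm : ∀ j, Measurable (F j)) (B : ℕ → ℝ) (hF0 : ∀ j x, 0 ≤ F j x) (hFb : ∀ j x, F j x ≤ B j)
    (hsupp : ∀ j x, F j x ≠ 0 → ∃ q, j ≤ q ∧ x ∈ A q) (C c : ℝ) (hc : 0 < c)
    (h2 : ∀ j, ∫ x in Set.Icc (0 : ℝ) 1, (F j x) ^ 2 ≤ C)
    (h1 : ∀ a b : ℝ, 0 ≤ a → a < b → b ≤ 1 →
      ∀ᶠ j in atTop, c * (b - a) ≤ ∫ x in Set.Icc a b, F j x) :
    ∀ᵐ x ∂(volume.restrict (Set.Icc (0 : ℝ) 1)), {q | x ∈ A q}.Infinite := by
  rw [← Measure.restrict_congr_set (Ioc_ae_eq_Icc (μ := (volume : Measure ℝ)))]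
  refine ae_infinite_of_lower_Ioc A F hA hFm B hFb hF0 hsupp hc (C := C) ?_ ?_
  · intro j
    rw [← integral_Icc_eq_integral_Ioc]
    exact h2 j
  · intro u v hu huv hv
    filter_upwards [h1 u v hu huv hv] with j hj
    rw [← integral_Icc_eq_integral_Ioc]
    exact hj

theorem volume_compl_W_of_unit (γ : ℝ) (ψ : ℕ → ℝ)
    (h : ∀ᵐ x ∂(volume.restrict (Set.Icc (0 : ℝ) 1)), x ∈ W γ ψ) : volume (W γ ψ)ᶜ = 0 := by
  apply volume_compl_W_of_unit_Ioc
  rw [Measure.restrict_congr_set (Ioc_ae_eq_Icc (μ := (volume : Measure ℝ)))]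
  exact h

theorem Gset_eq_GS (γ s₁ R : ℝ) (ψ : ℕ → ℝ) (q : ℕ) :
    Gset γ s₁ R ψ q = GS γ q (ψ q) (Allowed γ s₁ R q) := by
  ext x
  simp only [Gset, GS, Set.mem_ofPred_eq]
  constructor
  · rintro ⟨α, h1, h2⟩; exact ⟨α, h2, h1⟩
  · rintro ⟨α, h1, h2⟩; exact ⟨α, h2, h1⟩

theorem measurableSet_Gset (γ s₁ R : ℝ) (ψ : ℕ → ℝ) (q : ℕ) :
    MeasurableSet (Gset γ s₁ R ψ q) := by
  rw [Gset_eq_GS]
  exact (isOpen_GS _ _ _ _).measurableSet

open Classical in
theorem le_volume_Gset (γ s₁ R : ℝ) (ψ : ℕ → ℝ) (q : ℕ) (hq : 0 < q) (h0 : 0 < ψ q)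
    (h1 : ψ q ≤ 1 / 2) (a b : ℝ) (_hab : a ≤ b) (m : ℤ) (n : ℕ) (hm : q * a - γ + 1 / 2 ≤ m)
    (hn : (m : ℝ) + n ≤ q * b - γ + 1 / 2) :
    (((Finset.Ico m (m + n)).filter (fun α => Allowed γ s₁ R q α)).card : ℝ) * (2 * ψ q / q) ≤
      volume.real (Gset γ s₁ R ψ q ∩ Set.Icc a b) := by
  rw [Gset_eq_GS]
  have h2 := GS_lower γ hq h0 h1 (Allowed γ s₁ R q) a b (m - 1) (m + n - 1)
    (by push_cast; linarith) (by push_cast; linarith only [h1, hn])
  have e : Finset.Ioc (m - 1) (m + n - 1) = Finset.Ico m (m + n) := by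
    ext x
    simp only [mem_Ioc, mem_Ico]
    omega
  rw [e] at h2
  refine h2.trans (measureReal_mono ?_ ?_)
  · exact Set.inter_subset_inter_right _ Set.Ioc_subset_Icc_self
  · exact ((measure_mono Set.inter_subset_right).trans_lt (by rw [Real.volume_Icc]; exact
      ENNReal.ofReal_lt_top)).ne

theorem volume_Gset_inter_le (γ s₁ R : ℝ) (ψ : ℕ → ℝ) (q r : ℕ) :
    volume.real (Gset γ s₁ R ψ q ∩ Gset γ s₁ R ψ r ∩ Set.Icc (0 : ℝ) 1) ≤
      (volume : Measure UnitAddCircle).real (arcSet q γ (ψ q) ∩ arcSet r γ (ψ r)) := by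
  rw [Gset_eq_GS, Gset_eq_GS]
  have h1 := GS_inter_le γ q r (ψ q) (ψ r) (Allowed γ s₁ R q) (Allowed γ s₁ R r)
  have h2 : volume (GS γ q (ψ q) (Allowed γ s₁ R q) ∩ GS γ r (ψ r) (Allowed γ s₁ R r) ∩
      Set.Icc (0 : ℝ) 1) = volume (GS γ q (ψ q) (Allowed γ s₁ R q) ∩
      GS γ r (ψ r) (Allowed γ s₁ R r) ∩ Set.Ioc (0 : ℝ) 1) :=
    measure_congr ((ae_eq_refl _).inter Ioc_ae_eq_Icc.symm)
  rw [Measure.real, Measure.real, h2]
  exact ENNReal.toReal_mono (measure_ne_top _ _) h1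

end Vale.P028
end
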