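import Vale.Agent.P028.MathlibUsed
import Vale.Agent.P028.Bdl.B5
import Vale.Agent.P028.Bdl.B1
import Vale.Agent.P028.Bdl.B4
import Vale.Agent.P028.Bdl.B3
attribute [-instance] ProperSMul.toContinuousSMul IsTopologicalTorsor.toContinuousSMul IdemSemiring.toCanonicallyOrderedAdd IdemSemiring.toMulLeftMono IdemSemiring.toMulRightMono AddQuantale.instAddLeftMono AddQuantale.instAddRightMono Quantale.instMulLeftMono Quantale.instMulRightMono FiniteDimensional.rclike_to_real IsScalarTower.complexToReal FiniteDimensional.complexToReal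

set_option linter.all false

section

/-!
# Second moment of the sifted sets (Theorem A)
-/

namespace Vale.P028

open Finset MeasureTheory Filter

/-- Summation over dyadic levels. -/
theorem am_dyadic_general (T : Finset (ℕ × ℕ)) (D g : ℕ × ℕ → ℝ) (hD : ∀ p ∈ T, 0 < D p ∧ D p ≤ 1)
    (hg : ∀ p ∈ T, 0 ≤ g p) (b : ℕ → ℝ) (K : ℝ)
    (hb : ∀ i, ∑ p ∈ T with (1 / 2 : ℝ) ^ (i + 1) < D p ∧ D p ≤ (1 / 2) ^ i, g p
      ≤ (1 / 2) ^ i * b i)
    (hK : ∀ I, ∑ i ∈ range I, b i ≤ K) :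
    ∑ p ∈ T, g p / D p ≤ 2 * K := by
  classical
  have hex : ∀ p : ℕ × ℕ, ∃ i : ℕ, p ∈ T → (1 / 2 : ℝ) ^ (i + 1) < D p ∧ D p ≤ (1 / 2) ^ i := by
    intro p
    by_cases hp : p ∈ T
    · obtain ⟨n, hn⟩ := exists_nat_pow_near_of_lt_one (hD p hp).1 (hD p hp).2
        (by norm_num : (0 : ℝ) < 1 / 2) (by norm_num)
      exact ⟨n, fun _ => hn⟩
    · exact ⟨0, fun h => absurd h hp⟩
  choose i hi using hex
  set I := T.sup i + 1 with hI
  have hlt : ∀ p ∈ T, i p ∈ range I := by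
    intro p hp
    rw [mem_range, hI]
    exact Nat.lt_succ_of_le (le_sup hp)
  rw [← sum_fiberwise_of_maps_to hlt]
  calc ∑ k ∈ range I, ∑ p ∈ T with i p = k, g p / D p
      ≤ ∑ k ∈ range I, 2 * b k := by
        refine sum_le_sum fun k _ => ?_
        have h1 : ∑ p ∈ T with i p = k, g p / D p
            ≤ ∑ p ∈ T with i p = k, 2 * 2 ^ k * g p := by
          refine sum_le_sum fun p hp => ?_
          rw [mem_filter] at hp
          have h2 := hi p hp.1
          rw [hp.2] at h2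
          have h3 := hD p hp.1
          rw [div_le_iff₀ h3.1]
          have h4 : (1 : ℝ) ≤ 2 * 2 ^ k * D p := by
            have : (2 : ℝ) * 2 ^ k * (1 / 2) ^ (k + 1) = 1 := by
              rw [pow_succ, one_div, inv_pow]
              (clear * -; field_simp)
            calc (1 : ℝ) = 2 * 2 ^ k * (1 / 2) ^ (k + 1) := this.symm
              _ ≤ 2 * 2 ^ k * D p := by
                apply mul_le_mul_of_nonneg_left h2.1.le (by positivity)
          calc g p = 1 * g p := (one_mul _).symm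
            _ ≤ (2 * 2 ^ k * D p) * g p := mul_le_mul_of_nonneg_right h4 (hg p hp.1)
            _ = 2 * 2 ^ k * g p * D p := by ring
        refine h1.trans ?_
        rw [← mul_sum]
        have h5 : ∑ p ∈ T with i p = k, g p ≤
            ∑ p ∈ T with (1 / 2 : ℝ) ^ (k + 1) < D p ∧ D p ≤ (1 / 2) ^ k, g p := by
          apply sum_le_sum_of_subset_of_nonneg
          · intro p hp
            rw [mem_filter] at hp ⊢
            refine ⟨hp.1, ?_⟩
            have := hi p hp.1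
            rwa [hp.2] at this
          · intro p hp _
            rw [mem_filter] at hp
            exact hg p hp.1
        have h6 := h5.trans (hb k)
        calc (2 : ℝ) * 2 ^ k * ∑ p ∈ T with i p = k, g p
            ≤ 2 * 2 ^ k * ((1 / 2) ^ k * b k) := mul_le_mul_of_nonneg_left h6 (by positivity)
          _ = 2 * b k := by
            rw [one_div, inv_pow]
            field_simp
    _ = 2 * ∑ k ∈ range I, b k := by rw [mul_sum]
    _ ≤ 2 * K := by linarith only [hK I]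

theorem am_cofac_pos {q r : ℕ} (hq : 0 < q) : 0 < cofac q r :=
  Nat.div_pos (Nat.gcd_le_left _ hq) (Nat.gcd_pos_of_pos_left _ hq)

theorem am_cofac_le (q r : ℕ) : cofac q r ≤ q := Nat.div_le_self _ _

theorem am_cofac_inj {q r r' : ℕ}
    (h1 : cofac q r = cofac q r') (h2 : cofac r q = cofac r' q) (hq : 0 < q) : r = r' := by
  unfold cofac at h1 h2
  have e1 : q.gcd r = q.gcd r' := by
    have a1 := Nat.div_mul_cancel (Nat.gcd_dvd_left q r)
    have a2 := Nat.div_mul_cancel (Nat.gcd_dvd_left q r')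
    have hpos : 0 < q / q.gcd r := Nat.div_pos (Nat.gcd_le_left _ hq) (Nat.gcd_pos_of_pos_left _ hq)
    rw [← h1] at a2
    exact Nat.eq_of_mul_eq_mul_left hpos (a1.trans a2.symm)
  have b1 := Nat.div_mul_cancel (Nat.gcd_dvd_left r q)
  have b2 := Nat.div_mul_cancel (Nat.gcd_dvd_left r' q)
  rw [← b1, ← b2, h2, Nat.gcd_comm r q, Nat.gcd_comm r' q, e1]

open Classical in
theorem am_card_small_cofac (S : Finset ℕ) (hS : ∀ r ∈ S, 0 < r) (R : ℝ) (hR : 0 ≤ R) (q : ℕ)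
    (hq : 0 < q) :
    ((S.filter (fun r => (cofac q r : ℝ) ≤ R ∧ (cofac r q : ℝ) ≤ R)).card : ℝ) ≤ R ^ 2 := by
  set T := S.filter (fun r => (cofac q r : ℝ) ≤ R ∧ (cofac r q : ℝ) ≤ R) with hT
  have h1 : T.card ≤ (Icc 1 ⌊R⌋₊ ×ˢ Icc 1 ⌊R⌋₊).card := by
    apply card_le_card_of_injOn (fun r => (cofac q r, cofac r q))
    · intro r hr
      rw [mem_coe, hT, mem_filter] at hr
      rw [mem_coe, mem_product, mem_Icc, mem_Icc]
      exact ⟨⟨am_cofac_pos hq, Nat.le_floor hr.2.1⟩, ⟨am_cofac_pos (hS r hr.1), Nat.le_floor hr.2.2⟩⟩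
    · intro r hr r' hr' he
      rw [mem_coe, hT, mem_filter] at hr hr'
      simp only [Prod.mk.injEq] at he
      exact am_cofac_inj he.1 he.2 hq
  rw [card_product, Nat.card_Icc] at h1
  simp only [add_tsub_cancel_right] at h1
  have h2 : (T.card : ℝ) ≤ (⌊R⌋₊ : ℝ) * ⌊R⌋₊ := by exact_mod_cast h1
  have h3 := Nat.floor_le hR
  calc (T.card : ℝ) ≤ (⌊R⌋₊ : ℝ) * ⌊R⌋₊ := h2
    _ ≤ R * R := mul_le_mul h3 h3 (by (clear * -; positivity)) hR
    _ = R ^ 2 := by ring

/-- Second moment of the sifted sets, in terms of the bilinear bounds at the dyadic levels. -/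
theorem moment_split (γ : ℝ) (ψ : ℕ → ℝ) (S : Finset ℕ) (N : ℕ)
    (hS : ∀ q ∈ S, 0 < q ∧ q ≤ N ∧ 0 < ψ q ∧ ψ q ≤ 1 / 2) (w : ℕ → ℝ)
    (hw : ∀ q, 0 ≤ w q ∧ w q ≤ 1) (f : ℕ → ℝ) (hf : ∀ q, f q = if q ∈ S then w q * ψ q else 0)
    (J : ℕ) (hJ : (1 / 2 : ℝ) ^ J ≤ 1 / 1000) (R : ℝ) (hR : 0 ≤ R) (b : ℕ → ℝ) (K : ℝ)
    (hK : ∀ I, ∑ i ∈ range I, b i ≤ K)
    (hT1 : ∀ i, i ≤ J → psum (fun q r => (cofac r q : ℝ) * ψ q ≤ (1 / 2) ^ i ∧
      (cofac q r : ℝ) * ψ r ≤ (1 / 2) ^ i) N f f ≤ (1 / 2) ^ i * b i)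
    (hnear : ∀ i, J < i → psum (fun q r => Rel γ ψ ((1 / 2) ^ i) q r ∧
      Far γ ((1 / 2) ^ i) (cofac q r) (cofac r q) ∧ cofac q r ≤ N ∧ cofac r q ≤ N) N f f ≤
      (1 / 2) ^ i * b i) :
    ∑ q ∈ S, ∑ r ∈ S, w q * w r * volume.real
      (Gset γ ((1 / 2) ^ J) R ψ q ∩ Gset γ ((1 / 2) ^ J) R ψ r ∩ Set.Icc 0 1) ≤
      2 * (∑ q ∈ S, w q * ψ q) + 16 * (∑ q ∈ S, w q * ψ q) ^ 2 +
        2 * R ^ 2 * (∑ q ∈ S, w q * ψ q) + 4 * K := by
  classical
  set M := ∑ q ∈ S, w q * ψ q with hM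
  set vol : ℕ → ℕ → ℝ := fun q r => volume.real
      (Gset γ ((1 / 2) ^ J) R ψ q ∩ Gset γ ((1 / 2) ^ J) R ψ r ∩ Set.Icc 0 1) with hvol
  have hf0 : ∀ q, 0 ≤ f q := by
    intro q
    rw [hf]
    split_ifs with h
    · exact mul_nonneg (hw q).1 (hS q h).2.2.1.le
    · exact le_rfl
  have hfS : ∀ q ∈ S, f q = w q * ψ q := fun q hq => by rw [hf, if_pos hq]
  -- pairs handled by the bilinear bounds
  set T : Finset (ℕ × ℕ) := (S ×ˢ S).filter (fun p => p.1 ≠ p.2 ∧
    DD p.1 p.2 (ψ p.1) (ψ p.2) < 1 / 4 ∧ R < max (cofac p.1 p.2 : ℝ) (cofac p.2 p.1 : ℝ) ∧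
    vol p.1 p.2 ≠ 0) with hTdef
  have hDpos : ∀ q ∈ S, ∀ r ∈ S, 0 < DD q r (ψ q) (ψ r) := by
    intro q hq r hr
    obtain ⟨h1, _, h2, _⟩ := hS q hq
    obtain ⟨h3, _, h4, _⟩ := hS r hr
    have hg : 0 < Nat.gcd q r := Nat.gcd_pos_of_pos_left _ h1
    have hrR : (0 : ℝ) < r := by exact_mod_cast h3
    rw [DD]
    apply div_pos _ (by exact_mod_cast hg)
    exact lt_max_of_lt_left (mul_pos hrR h2)
  have hDDeq : ∀ q ∈ S, ∀ r, DD q r (ψ q) (ψ r) =
      max ((cofac r q : ℝ) * ψ q) ((cofac q r : ℝ) * ψ r) := by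
    intro q hq r
    rw [DD_eq q r (hS q hq).1]
    unfold cofac
    rw [Nat.gcd_comm r q]
  have hpair : ∀ q ∈ S, ∀ r ∈ S, w q * w r * vol q r ≤
      (if q = r then 2 * (w q * ψ q) else 0) + 16 * ((w q * ψ q) * (w r * ψ r)) +
      (if (cofac q r : ℝ) ≤ R ∧ (cofac r q : ℝ) ≤ R then 2 * (w q * ψ q) else 0) +
      (if (q, r) ∈ T then 2 * (f q * f r / DD q r (ψ q) (ψ r)) else 0) := by
    intro q hq r hr
    obtain ⟨q0, qN, qψ, qψ'⟩ := hS q hq
    obtain ⟨r0, rN, rψ, rψ'⟩ := hS r hr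
    have hD0 := hDpos q hq r hr
    have hww : 0 ≤ w q * w r := mul_nonneg (hw q).1 (hw r).1
    have t1 : 0 ≤ (if q = r then 2 * (w q * ψ q) else 0) := by
      split_ifs
      · exact mul_nonneg (by norm_num) (mul_nonneg (hw q).1 qψ.le)
      · exact le_rfl
    have t2 : 0 ≤ 16 * ((w q * ψ q) * (w r * ψ r)) :=
      mul_nonneg (by norm_num) (mul_nonneg (mul_nonneg (hw q).1 qψ.le)
        (mul_nonneg (hw r).1 rψ.le))
    have t3 : 0 ≤ (if (cofac q r : ℝ) ≤ R ∧ (cofac r q : ℝ) ≤ R then 2 * (w q * ψ q) else 0) := by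
      split_ifs
      · exact mul_nonneg (by norm_num) (mul_nonneg (hw q).1 qψ.le)
      · exact le_rfl
    have t4 : 0 ≤ (if (q, r) ∈ T then 2 * (f q * f r / DD q r (ψ q) (ψ r)) else 0) := by
      split_ifs
      · exact mul_nonneg (by norm_num) (div_nonneg (mul_nonneg (hf0 q) (hf0 r)) hD0.le)
      · exact le_rfl
    have hle := volume_Gset_inter_le γ ((1 / 2) ^ J) R ψ q r
    have hle' : vol q r ≤ (volume : Measure UnitAddCircle).real
        (arcSet q γ (ψ q) ∩ arcSet r γ (ψ r)) := hle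
    by_cases hqr : q = r
    · subst hqr
      rw [if_pos rfl] at t1 ⊢
      have h1 : (volume : Measure UnitAddCircle).real (arcSet q γ (ψ q) ∩ arcSet q γ (ψ q))
          = 2 * ψ q := by
        rw [Set.inter_self, Measure.real, volume_arcSet q q0, min_eq_right (by linarith only [qψ']),
          ENNReal.toReal_ofReal (by linarith only [qψ])]
      rw [h1] at hle'
      have h2 : w q * w q * vol q q ≤ w q * 1 * (2 * ψ q) := by
        apply mul_le_mul _ hle' measureReal_nonneg (mul_nonneg (hw q).1 zero_le_one)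
        exact mul_le_mul_of_nonneg_left (hw q).2 (hw q).1
      (clear * - t2 t3 t4 h2; linarith)
    · rcases le_or_gt (1 / 4) (DD q r (ψ q) (ψ r)) with hD | hD
      · have h1 := volume_inter_le_of_quarter_le q r q0 r0 γ γ (ψ q) (ψ r) qψ.le rψ.le hD
        have h2 : (volume : Measure UnitAddCircle).real (arcSet q γ (ψ q) ∩ arcSet r γ (ψ r))
            ≤ 16 * ψ q * ψ r := ENNReal.toReal_le_of_le_ofReal (by (clear * - qψ rψ; positivity)) h1
        have h3 : w q * w r * vol q r ≤ w q * w r * (16 * ψ q * ψ r) :=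
          mul_le_mul_of_nonneg_left (hle'.trans h2) hww
        have h4 : w q * w r * (16 * ψ q * ψ r) = 16 * ((w q * ψ q) * (w r * ψ r)) := by ring
        linarith only [t1, t3, t4, h3]
      · have h1 := volume_inter_le_of_lt_quarter q r q0 r0 γ γ (ψ q) (ψ r) qψ.le rψ.le hD0 hD
        have h2 : (volume : Measure UnitAddCircle).real (arcSet q γ (ψ q) ∩ arcSet r γ (ψ r))
            ≤ 2 * ψ q * ψ r / DD q r (ψ q) (ψ r) :=
          ENNReal.toReal_le_of_le_ofReal (by (clear * - qψ rψ hD0; positivity)) h1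
        have h3 : w q * w r * vol q r ≤ w q * w r * (2 * ψ q * ψ r / DD q r (ψ q) (ψ r)) :=
          mul_le_mul_of_nonneg_left (hle'.trans h2) hww
        by_cases hsm : (cofac q r : ℝ) ≤ R ∧ (cofac r q : ℝ) ≤ R
        · rw [if_pos hsm] at t3 ⊢
          have h4 : ψ r ≤ DD q r (ψ q) (ψ r) := by
            rw [hDDeq q hq r]
            refine le_trans ?_ (le_max_right _ _)
            have : (1 : ℝ) ≤ cofac q r := by exact_mod_cast (am_cofac_pos (r := r) q0)
            calc ψ r = 1 * ψ r := (one_mul _).symm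
              _ ≤ (cofac q r : ℝ) * ψ r := mul_le_mul_of_nonneg_right this rψ.le
          have h5 : 2 * ψ q * ψ r / DD q r (ψ q) (ψ r) ≤ 2 * ψ q := by
            rw [div_le_iff₀ hD0]
            exact mul_le_mul_of_nonneg_left h4 (by (clear * - qψ; positivity))
          have h6 : w q * w r * (2 * ψ q * ψ r / DD q r (ψ q) (ψ r)) ≤ w q * 1 * (2 * ψ q) := by
            apply mul_le_mul _ h5 (by (clear * - qψ rψ hD0; positivity)) (mul_nonneg (hw q).1 zero_le_one)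
            exact mul_le_mul_of_nonneg_left (hw r).2 (hw q).1
          linarith only [t1, t2, t4, h3, h6]
        · by_cases hv0 : vol q r = 0
          · rw [hv0, mul_zero]
            (clear * - t1 t2 t3 t4; positivity)
          · have hmem : (q, r) ∈ T := by
              rw [hTdef, mem_filter, mem_product]
              refine ⟨⟨hq, hr⟩, hqr, hD, ?_, hv0⟩
              by_contra hcon
              rw [not_lt] at hcon
              exact hsm ⟨(le_max_left _ _).trans hcon, (le_max_right _ _).trans hcon⟩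
            rw [if_pos hmem] at t4 ⊢
            have h4 : w q * w r * (2 * ψ q * ψ r / DD q r (ψ q) (ψ r)) =
                2 * (f q * f r / DD q r (ψ q) (ψ r)) := by
              rw [hfS q hq, hfS r hr]; ring
            linarith only [t1, t2, t3, h3, h4]
  have hTsum : ∑ p ∈ T, f p.1 * f p.2 / DD p.1 p.2 (ψ p.1) (ψ p.2) ≤ 2 * K := by
    apply am_dyadic_general T (fun p => DD p.1 p.2 (ψ p.1) (ψ p.2)) (fun p => f p.1 * f p.2) ?_ ?_ b K
      ?_ hK
    · intro p hp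
      rw [hTdef, mem_filter, mem_product] at hp
      exact ⟨hDpos _ hp.1.1 _ hp.1.2, by linarith only [hp]⟩
    · intro p _
      exact mul_nonneg (hf0 _) (hf0 _)
    · intro i
      rcases le_or_gt i J with hi | hi
      · refine (sum_le_psum _ N f f hf0 hf0 _ ?_).trans (hT1 i hi)
        intro p hp
        rw [mem_filter, hTdef, mem_filter, mem_product] at hp
        obtain ⟨⟨⟨hp1, hp2⟩, -⟩, -, hle⟩ := hp
        rw [hDDeq _ hp1, max_le_iff] at hle
        refine ⟨mem_Icc.2 ⟨(hS _ hp1).1, (hS _ hp1).2.1⟩,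
          mem_Icc.2 ⟨(hS _ hp2).1, (hS _ hp2).2.1⟩, hle⟩
      · refine (sum_le_psum _ N f f hf0 hf0 _ ?_).trans (hnear i hi)
        intro p hp
        rw [mem_filter, hTdef, mem_filter, mem_product] at hp
        obtain ⟨⟨⟨hp1, hp2⟩, hne, -, hbig, hv⟩, -, hle⟩ := hp
        rw [hDDeq _ hp1, max_le_iff] at hle
        have hsi : (1 / 2 : ℝ) ^ i ≤ (1 / 2) ^ J :=
          pow_le_pow_of_le_one (by norm_num) (by norm_num) hi.le
        refine ⟨mem_Icc.2 ⟨(hS _ hp1).1, (hS _ hp1).2.1⟩,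
          mem_Icc.2 ⟨(hS _ hp2).1, (hS _ hp2).2.1⟩, ⟨?_, hle.1, hle.2, ?_⟩, ?_,
          (am_cofac_le _ _).trans (hS _ hp1).2.1, (am_cofac_le _ _).trans (hS _ hp2).2.1⟩
        · intro he
          exact hne (eq_of_cofac_eq he)
        · -- the relation
          have hne' : volume (arcSet p.1 γ (ψ p.1) ∩ arcSet p.2 γ (ψ p.2)) ≠ 0 := by
            intro h0
            have h1 := volume_Gset_inter_le γ ((1 / 2) ^ J) R ψ p.1 p.2
            have h3 : (volume : Measure UnitAddCircle).real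
                (arcSet p.1 γ (ψ p.1) ∩ arcSet p.2 γ (ψ p.2)) = 0 := by
              rw [Measure.real, h0, ENNReal.toReal_zero]
            rw [h3] at h1
            exact hv (le_antisymm h1 measureReal_nonneg)
          obtain ⟨m, hm⟩ := exists_int_of_inter_nonempty p.1 p.2 (hS _ hp1).1 γ γ (ψ p.1) (ψ p.2)
            hne'
          have h2 : distInt (((cofac p.2 p.1 : ℝ) - (cofac p.1 p.2 : ℝ)) * γ) <
              2 * (1 / 2) ^ i := by
            apply distInt_le_of_int m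
            have e : (m : ℝ) - ((cofac p.2 p.1 : ℝ) - (cofac p.1 p.2 : ℝ)) * γ =
                (m : ℝ) - ((p.2 / Nat.gcd p.1 p.2 : ℕ) * γ - (p.1 / Nat.gcd p.1 p.2 : ℕ) * γ) := by
              unfold cofac
              rw [Nat.gcd_comm p.2 p.1]; ring
            rw [e]
            refine hm.trans_le ?_
            have e1 : ((p.2 / Nat.gcd p.1 p.2 : ℕ) : ℝ) * ψ p.1 = (cofac p.2 p.1 : ℝ) * ψ p.1 := by
              unfold cofac; rw [Nat.gcd_comm p.2 p.1]
            have e2 : ((p.1 / Nat.gcd p.1 p.2 : ℕ) : ℝ) * ψ p.2 = (cofac p.1 p.2 : ℝ) * ψ p.2 :=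
              rfl
            rw [e1, e2]
            linarith only [hle]
          rw [← distInt_neg, show -(((cofac p.1 p.2 : ℝ) - (cofac p.2 p.1 : ℝ)) * γ) =
            ((cofac p.2 p.1 : ℝ) - (cofac p.1 p.2 : ℝ)) * γ by ring]
          exact h2
        · by_contra hF
          have := kill (R := R) (ψ := ψ) (s := (1 / 2) ^ i) (s₁ := (1 / 2) ^ J) (by positivity) hsi
            (hsi.trans hJ) (hS _ hp1).1 (hS _ hp2).1 hne hle.1 hle.2 hbig hF
          apply hv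
          rw [hvol]
          simp only
          rw [this, Set.empty_inter, measureReal_empty]
  -- sum up
  have hMf : 0 ≤ M := sum_nonneg fun q hq => mul_nonneg (hw q).1 (hS q hq).2.2.1.le
  calc ∑ q ∈ S, ∑ r ∈ S, w q * w r * vol q r
      ≤ ∑ q ∈ S, ∑ r ∈ S, ((if q = r then 2 * (w q * ψ q) else 0) +
        16 * ((w q * ψ q) * (w r * ψ r)) +
        (if (cofac q r : ℝ) ≤ R ∧ (cofac r q : ℝ) ≤ R then 2 * (w q * ψ q) else 0) +
        (if (q, r) ∈ T then 2 * (f q * f r / DD q r (ψ q) (ψ r)) else 0)) :=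
        sum_le_sum fun q hq => sum_le_sum fun r hr => hpair q hq r hr
    _ = ∑ q ∈ S, ∑ r ∈ S, (if q = r then 2 * (w q * ψ q) else 0) +
        ∑ q ∈ S, ∑ r ∈ S, 16 * ((w q * ψ q) * (w r * ψ r)) +
        ∑ q ∈ S, ∑ r ∈ S,
          (if (cofac q r : ℝ) ≤ R ∧ (cofac r q : ℝ) ≤ R then 2 * (w q * ψ q) else 0) +
        ∑ q ∈ S, ∑ r ∈ S,
          (if (q, r) ∈ T then 2 * (f q * f r / DD q r (ψ q) (ψ r)) else 0) := by
        simp only [sum_add_distrib]
    _ ≤ 2 * M + 16 * M ^ 2 + 2 * R ^ 2 * M + 4 * K := by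
        have e1 : ∑ q ∈ S, ∑ r ∈ S, (if q = r then 2 * (w q * ψ q) else 0) = 2 * M := by
          rw [hM, mul_sum]
          refine sum_congr rfl fun q hq => ?_
          rw [sum_ite_eq S q, if_pos hq]
        have e2 : ∑ q ∈ S, ∑ r ∈ S, 16 * ((w q * ψ q) * (w r * ψ r)) = 16 * M ^ 2 := by
          rw [hM, pow_two, sum_mul_sum, mul_sum]
          refine sum_congr rfl fun q _ => ?_
          rw [mul_sum]
        have e3 : ∑ q ∈ S, ∑ r ∈ S,
            (if (cofac q r : ℝ) ≤ R ∧ (cofac r q : ℝ) ≤ R then 2 * (w q * ψ q) else 0) ≤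
            2 * R ^ 2 * M := by
          rw [hM, mul_sum]
          refine sum_le_sum fun q hq => ?_
          rw [← sum_filter, sum_const, nsmul_eq_mul]
          have h1 := am_card_small_cofac S (fun r hr => (hS r hr).1) R hR q (hS q hq).1
          have h2 : 0 ≤ 2 * (w q * ψ q) :=
            mul_nonneg (by norm_num) (mul_nonneg (hw q).1 (hS q hq).2.2.1.le)
          calc _ ≤ R ^ 2 * (2 * (w q * ψ q)) := mul_le_mul_of_nonneg_right h1 h2
            _ = 2 * R ^ 2 * (w q * ψ q) := by ring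
        have e4 : ∑ q ∈ S, ∑ r ∈ S,
            (if (q, r) ∈ T then 2 * (f q * f r / DD q r (ψ q) (ψ r)) else 0) ≤ 4 * K := by
          rw [← sum_product' (f := fun q r =>
            if (q, r) ∈ T then 2 * (f q * f r / DD q r (ψ q) (ψ r)) else 0)]
          have h1 : ∑ x ∈ S ×ˢ S, (if (x.1, x.2) ∈ T then
              2 * (f x.1 * f x.2 / DD x.1 x.2 (ψ x.1) (ψ x.2)) else 0) =
              ∑ x ∈ T, 2 * (f x.1 * f x.2 / DD x.1 x.2 (ψ x.1) (ψ x.2)) := by
            have hsub : (S ×ˢ S).filter (fun x => (x.1, x.2) ∈ T) = T := by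
              ext x
              rw [mem_filter]
              constructor
              · exact fun h => h.2
              · intro h
                refine ⟨?_, h⟩
                rw [hTdef, mem_filter] at h
                exact h.1
            rw [← sum_filter, hsub]
          rw [h1, ← mul_sum]
          linarith only [hTsum]
        linarith

end Vale.P028
end

section

/-!
# The near theorem for all `γ`
-/

namespace Vale.P028

open Finset

/-- Passage from a bound for the sum over one variable to the double sum. -/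
theorem pair_sum_le {γ s G : ℝ} (V : ℕ)
    (hGle : ∑ n ∈ Icc 1 V, (if distInt ((n : ℝ) * γ) < 2 * s then 1 / (n : ℝ) else 0) ≤ G) :
    ∑ u ∈ Icc 1 V, ∑ v ∈ Icc 1 V,
        (if u ≠ v ∧ distInt (((u : ℝ) - v) * γ) < 2 * s then 1 / ((u : ℝ) * v) else 0) ≤
      2 * (1 + Real.log V) * G := by
  have hlog : 0 ≤ Real.log V := Real.log_natCast_nonneg V
  set g : ℕ → ℝ := fun n => if distInt (n * γ) < 2 * s then 1 / (n : ℝ) else 0 with hg
  have hg0 : ∀ n, 0 ≤ g n := by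
    intro n
    simp only [hg]
    split_ifs
    · (clear * -; positivity)
    · exact le_rfl
  have hG0 : 0 ≤ G := (Finset.sum_nonneg fun n _ => hg0 n).trans hGle
  -- shifting
  have hshift : ∀ u : ℕ, ∑ v ∈ Icc 1 V, (if u < v then g (v - u) else 0) ≤ G := by
    intro u
    refine le_trans ?_ hGle
    rw [← Finset.sum_filter]
    have hinj : Set.InjOn (fun v : ℕ => v - u) ((Icc 1 V).filter (fun v => u < v)) := by
      intro a ha b hb hab
      simp only [Finset.coe_filter, Set.mem_ofPred_eq] at ha hb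
      simp only at hab
      omega
    rw [← Finset.sum_image (f := g) hinj]
    refine Finset.sum_le_sum_of_subset_of_nonneg ?_ (fun x _ _ => hg0 x)
    intro x hx
    simp only [Finset.mem_image, Finset.mem_filter, Finset.mem_Icc] at hx ⊢
    obtain ⟨a, ha, rfl⟩ := hx
    omega
  have hterm : ∀ u ∈ Icc 1 V, ∀ v ∈ Icc 1 V,
      (if u ≠ v ∧ distInt (((u : ℝ) - v) * γ) < 2 * s then 1 / ((u : ℝ) * v) else 0) ≤
      1 / (u : ℝ) * (if u < v then g (v - u) else 0) +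
        1 / (v : ℝ) * (if v < u then g (u - v) else 0) := by
    intro u hu v hv
    have hu0 : (0 : ℝ) < u := by exact_mod_cast (Finset.mem_Icc.1 hu).1
    have hv0 : (0 : ℝ) < v := by exact_mod_cast (Finset.mem_Icc.1 hv).1
    by_cases hc : u ≠ v ∧ distInt (((u : ℝ) - v) * γ) < 2 * s
    · rw [if_pos hc]
      rcases lt_or_gt_of_ne hc.1 with h | h
      · rw [if_pos h, if_neg (by omega), mul_zero, add_zero]
        have h1 : distInt (((v - u : ℕ) : ℝ) * γ) < 2 * s := by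
          rw [Nat.cast_sub h.le, ← nb_distInt_neg]
          have e : -(((v : ℝ) - u) * γ) = ((u : ℝ) - v) * γ := by ring
          rw [e]
          exact hc.2
        simp only [hg]
        rw [if_pos h1, one_div_mul_one_div]
        refine one_div_le_one_div_of_le ?_ ?_
        · have : (0 : ℝ) < ((v - u : ℕ) : ℝ) := by exact_mod_cast Nat.sub_pos_of_lt h
          (clear * - hu0 this; positivity)
        · refine mul_le_mul_of_nonneg_left ?_ hu0.le
          exact_mod_cast Nat.sub_le v u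
      · rw [if_neg (by omega), if_pos h, mul_zero, zero_add]
        have h1 : distInt (((u - v : ℕ) : ℝ) * γ) < 2 * s := by
          rw [Nat.cast_sub h.le]
          exact hc.2
        simp only [hg]
        rw [if_pos h1, one_div_mul_one_div, mul_comm (u : ℝ)]
        refine one_div_le_one_div_of_le ?_ ?_
        · have : (0 : ℝ) < ((u - v : ℕ) : ℝ) := by exact_mod_cast Nat.sub_pos_of_lt h
          (clear * - hv0 this; positivity)
        · refine mul_le_mul_of_nonneg_left ?_ hv0.le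
          exact_mod_cast Nat.sub_le u v
    · rw [if_neg hc]
      refine add_nonneg (mul_nonneg (by (clear * - hu0; positivity)) ?_) (mul_nonneg (by positivity) ?_)
      · split_ifs
        · exact hg0 _
        · exact le_rfl
      · split_ifs
        · exact hg0 _
        · exact le_rfl
  have hA : ∑ u ∈ Icc 1 V, ∑ v ∈ Icc 1 V, 1 / (u : ℝ) * (if u < v then g (v - u) else 0)
      ≤ (1 + Real.log V) * G := by
    calc ∑ u ∈ Icc 1 V, ∑ v ∈ Icc 1 V, 1 / (u : ℝ) * (if u < v then g (v - u) else 0)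
        = ∑ u ∈ Icc 1 V, 1 / (u : ℝ) * ∑ v ∈ Icc 1 V, (if u < v then g (v - u) else 0) := by
          refine Finset.sum_congr rfl fun u _ => ?_
          rw [Finset.mul_sum]
      _ ≤ ∑ u ∈ Icc 1 V, 1 / (u : ℝ) * G :=
          Finset.sum_le_sum fun u _ => mul_le_mul_of_nonneg_left (hshift u) (by (clear * -; positivity))
      _ = (∑ u ∈ Icc 1 V, 1 / (u : ℝ)) * G := by rw [Finset.sum_mul]
      _ ≤ _ := mul_le_mul_of_nonneg_right (sum_inv_Icc_le_log V) hG0
  have hB : ∑ u ∈ Icc 1 V, ∑ v ∈ Icc 1 V, 1 / (v : ℝ) * (if v < u then g (u - v) else 0)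
      ≤ (1 + Real.log V) * G := by
    rw [Finset.sum_comm]
    exact hA
  calc ∑ u ∈ Icc 1 V, ∑ v ∈ Icc 1 V,
        (if u ≠ v ∧ distInt (((u : ℝ) - v) * γ) < 2 * s then 1 / ((u : ℝ) * v) else 0)
      ≤ ∑ u ∈ Icc 1 V, ∑ v ∈ Icc 1 V, (1 / (u : ℝ) * (if u < v then g (v - u) else 0) +
        1 / (v : ℝ) * (if v < u then g (u - v) else 0)) :=
        Finset.sum_le_sum fun u hu => Finset.sum_le_sum fun v hv => hterm u hu v hv
    _ ≤ (1 + Real.log V) * G + (1 + Real.log V) * G := by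
        simp only [Finset.sum_add_distrib]
        exact add_le_add hA hB
    _ = _ := by ring

/-- Separation at a good scale. -/
theorem good_sep {γ s : ℝ} (hs : 0 < s) (hgood : ∀ B : ℕ, ¬ BadAt γ s B) {n : ℕ} (hn : 0 < n)
    (h : distInt (n * γ) < 4 * s) : s ^ (-(1 / 4) : ℝ) ≤ n := by
  classical
  have hex : ∃ h : ℕ, 0 < h ∧ distInt (h * γ) ≤ 4 * s := ⟨n, hn, h.le⟩
  set B := Nat.find hex with hB
  have hB1 := Nat.find_spec hex
  rw [← hB] at hB1
  have hfirst : First γ s B := by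
    refine ⟨hB1.1, hB1.2, ?_⟩
    intro m hm hmB
    have := Nat.find_min hex hmB
    push Not at this
    exact this hm
  have hnb := hgood B
  have h1 : ¬ ((B : ℝ) ^ 4 * s ≤ 1) := fun h2 => hnb ⟨hfirst, h2⟩
  push Not at h1
  have hBn : B ≤ n := Nat.find_min' hex ⟨hn, h.le⟩
  have hBn' : (B : ℝ) ≤ n := by exact_mod_cast hBn
  have h2 : s⁻¹ ≤ (B : ℝ) ^ 4 := by
    rw [inv_le_iff_one_le_mul₀ hs]
    exact h1.le
  calc s ^ (-(1 / 4) : ℝ) = (s⁻¹) ^ (1 / 4 : ℝ) := by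
        rw [Real.rpow_neg hs.le, Real.inv_rpow hs.le]
    _ ≤ ((B : ℝ) ^ 4) ^ (1 / 4 : ℝ) := Real.rpow_le_rpow (by positivity) h2 (by norm_num)
    _ = B := by
        rw [← Real.rpow_natCast, ← Real.rpow_mul (Nat.cast_nonneg _)]
        norm_num
    _ ≤ n := hBn'

/-- Sum over the hits at a good scale. -/
theorem good_inv_sum {γ s : ℝ} (hs : 0 < s) (hgood : ∀ B : ℕ, ¬ BadAt γ s B) (V : ℕ) :
    ∑ n ∈ Icc 1 V, (if distInt ((n : ℝ) * γ) < 2 * s then 1 / (n : ℝ) else 0) ≤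
      s ^ (1 / 4 : ℝ) * (1 + Real.log V) := by
  classical
  rw [← Finset.sum_filter]
  set B := (Icc 1 V).filter (fun n : ℕ => distInt ((n : ℝ) * γ) < 2 * s) with hB
  have hR : 0 < s ^ (-(1 / 4) : ℝ) := Real.rpow_pos_of_pos hs _
  have h1 : ∀ n ∈ B, s ^ (-(1 / 4) : ℝ) ≤ n := by
    intro n hn
    rw [hB, Finset.mem_filter, Finset.mem_Icc] at hn
    exact good_sep hs hgood (by omega) (by linarith only [hs, hn])
  have h2 : ∀ m ∈ B, ∀ n ∈ B, m < n → s ^ (-(1 / 4) : ℝ) ≤ (n : ℝ) - m := by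
    intro m hm n hn hmn
    rw [hB, Finset.mem_filter, Finset.mem_Icc] at hn hm
    have h3 := good_sep (n := n - m) hs hgood (by omega) (by
      rw [Nat.cast_sub hmn.le, sub_mul]
      refine (nb_distInt_sub_le _ _).trans_lt ?_
      linarith only [hm, hn])
    rwa [Nat.cast_sub hmn.le] at h3
  refine (sep_sum_inv hR B h1 h2).trans ?_
  have h4 : 1 / s ^ (-(1 / 4) : ℝ) = s ^ (1 / 4 : ℝ) := by
    rw [Real.rpow_neg hs.le, one_div, inv_inv]
  rw [h4]
  refine mul_le_mul_of_nonneg_left ?_ (Real.rpow_nonneg hs.le _)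
  refine le_trans ?_ (sum_inv_le_log V)
  refine Finset.sum_le_sum_of_subset_of_nonneg ?_ (fun k _ _ => by (clear * -; positivity))
  refine Finset.range_mono ?_
  have := Finset.card_filter_le (Icc 1 V) (fun n : ℕ => distInt ((n : ℝ) * γ) < 2 * s)
  simpa only [ge_iff_le, Nat.card_Icc, add_tsub_cancel_right] using this

/-- Structure of the hits at a bad scale. -/
theorem bad_dvd {γ s : ℝ} {B h : ℕ} (hs : 0 < s) (hs2 : s ≤ 1 / 1000) (hB : BadAt γ s B)
    (hβh : 4 * distInt (B * γ) * h ≤ 1) (hh : distInt (h * γ) < 4 * s) :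
    B ∣ h ∧ (h : ℝ) * distInt (B * γ) < 4 * s * B := by
  have hg := hB.gcd_eq_one hs hs2
  have hm := hB.mul_le hs hs2
  have hB0 : 0 < B := hB.1.1
  have hBR : (0 : ℝ) < B := by exact_mod_cast hB0
  set A := round ((B : ℝ) * γ) with hA
  set m := round ((h : ℝ) * γ) with hmdef
  have hβ : distInt (B * γ) = |(B : ℝ) * γ - A| := rfl
  have hhd : distInt (h * γ) = |(h : ℝ) * γ - m| := rfl
  have hh0 : (0 : ℝ) ≤ h := Nat.cast_nonneg _
  have key : ((h * A - B * m : ℤ) : ℝ) = B * ((h : ℝ) * γ - m) - h * ((B : ℝ) * γ - A) := by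
    push_cast
    ring
  have habs : |((h * A - B * m : ℤ) : ℝ)| < 1 := by
    rw [key]
    calc |(B : ℝ) * ((h : ℝ) * γ - m) - h * ((B : ℝ) * γ - A)|
        ≤ |(B : ℝ) * ((h : ℝ) * γ - m)| + |(h : ℝ) * ((B : ℝ) * γ - A)| := abs_sub _ _
      _ = B * distInt (h * γ) + h * distInt (B * γ) := by
          rw [abs_mul, abs_mul, abs_of_pos hBR, abs_of_nonneg hh0, hβ, hhd]
      _ < B * (4 * s) + 1 / 4 := by
          have h1 := mul_lt_mul_of_pos_left hh hBR
          linarith only [hβh, h1]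
      _ ≤ 1 := by linarith only [hm]
  have hzero : (h * A - B * m : ℤ) = 0 := by
    rw [← Int.cast_abs] at habs
    have h1 : |(h * A - B * m : ℤ)| < 1 := by exact_mod_cast habs
    exact Int.abs_lt_one_iff.1 h1
  constructor
  · have h2 : (B : ℤ) ∣ A * h := ⟨m, by linarith only [hzero]⟩
    have h3 : (B : ℤ) ∣ h :=
      (Int.isCoprime_iff_gcd_eq_one.mpr hg).symm.dvd_of_dvd_mul_left h2
    exact_mod_cast h3
  · rw [hzero] at key
    have h4 : (h : ℝ) * ((B : ℝ) * γ - A) = B * ((h : ℝ) * γ - m) := by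
      push_cast at key
      linarith only [key]
    have h5 : (h : ℝ) * distInt (B * γ) = B * distInt (h * γ) := by
      have := congrArg abs h4
      rwa [abs_mul, abs_mul, abs_of_pos hBR, abs_of_nonneg hh0] at this
    rw [h5]
    have h1 := mul_lt_mul_of_pos_left hh hBR
    linarith only [h1]

/-- Number of hits in a block at a bad scale. -/
theorem bad_card {γ s : ℝ} {B : ℕ} (hs : 0 < s) (hs2 : s ≤ 1 / 1000) (hB : BadAt γ s B)
    (hβ : 0 < distInt (B * γ)) {L : ℕ} (hL : 4 * distInt (B * γ) * L ≤ 1) (v : ℕ) (a : ℕ)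
    (S : Finset ℕ) (hS1 : ∀ u ∈ S, a ≤ u ∧ u < a + L)
    (hS2 : ∀ u ∈ S, distInt (((u : ℝ) - v) * γ) < 2 * s) :
    (S.card : ℝ) ≤ 4 * s / distInt (B * γ) + 1 := by
  classical
  have hB0 : 0 < B := hB.1.1
  have hBR : (0 : ℝ) < B := by exact_mod_cast hB0
  rcases S.eq_empty_or_nonempty with h | h
  · rw [h]
    simp only [Finset.card_empty, Nat.cast_zero]
    positivity
  set m := S.min' h with hm
  have hmS : m ∈ S := S.min'_mem h
  have hdiff : ∀ u ∈ S, m ≤ u := fun u hu => S.min'_le u hu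
  have hdv : ∀ u ∈ S, B ∣ u - m ∧ ((u - m : ℕ) : ℝ) * distInt (B * γ) < 4 * s * B := by
    intro u hu
    have h1 := hdiff u hu
    refine bad_dvd hs hs2 hB ?_ ?_
    · have h2 := hS1 u hu
      have h3 := hS1 m hmS
      have h4 : ((u - m : ℕ) : ℝ) ≤ L := by
        have : u - m ≤ L := by omega
        exact_mod_cast this
      exact (mul_le_mul_of_nonneg_left h4 (by positivity)).trans hL
    · rw [Nat.cast_sub h1]
      have e : ((u : ℝ) - m) * γ = ((u : ℝ) - v) * γ - ((m : ℝ) - v) * γ := by ring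
      rw [e]
      refine (nb_distInt_sub_le _ _).trans_lt ?_
      linarith only [hS2 u hu, hS2 m hmS]
  have hinj : Set.InjOn (fun u => (u - m) / B) S := by
    intro u hu w hw huw
    simp only at huw
    obtain ⟨k, hk⟩ := (hdv u hu).1
    obtain ⟨l, hl⟩ := (hdv w hw).1
    rw [hk, hl, Nat.mul_div_cancel_left _ hB0, Nat.mul_div_cancel_left _ hB0] at huw
    have h1 := hdiff u hu
    have h2 := hdiff w hw
    rw [huw] at hk
    omega
  have hcard : S.card = (S.image (fun u => (u - m) / B)).card := (Finset.card_image_of_injOn hinj).symm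
  have hsub : S.image (fun u => (u - m) / B) ⊆ range ⌈4 * s / distInt (B * γ)⌉₊ := by
    intro k hk
    obtain ⟨u, hu, rfl⟩ := Finset.mem_image.1 hk
    obtain ⟨⟨k, hk'⟩, h2⟩ := hdv u hu
    rw [hk', Nat.mul_div_cancel_left _ hB0, Finset.mem_range, Nat.lt_ceil, lt_div_iff₀ hβ]
    rw [hk'] at h2
    push_cast at h2
    have h3 : (B : ℝ) * ((k : ℝ) * distInt (B * γ)) < B * (4 * s) := by linarith only [h2]
    exact lt_of_mul_lt_mul_left h3 hBR.le
  have h1 := Finset.card_le_card hsub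
  rw [Finset.card_range, ← hcard] at h1
  have h2 : (⌈4 * s / distInt (B * γ)⌉₊ : ℝ) < 4 * s / distInt (B * γ) + 1 :=
    Nat.ceil_lt_add_one (by positivity)
  have h3 : (S.card : ℝ) ≤ ⌈4 * s / distInt (B * γ)⌉₊ := by exact_mod_cast h1
  linarith only [h2, h3]

/-- Sum over the far hits at a bad scale. -/
theorem bad_inv_sum {γ s : ℝ} {B : ℕ} (hs : 0 < s) (hs2 : s ≤ 1 / 1000) (hB : BadAt γ s B)
    (v V : ℕ) :
    ∑ u ∈ Icc 1 V, (if distInt (((u : ℝ) - v) * γ) < 2 * s ∧ 1 ≤ 4 * distInt (B * γ) * (u : ℝ)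
      then 1 / (u : ℝ) else 0) ≤ 64 * s * (1 + Real.log V) := by
  classical
  have hlog : 0 ≤ Real.log V := Real.log_natCast_nonneg V
  set β := distInt (B * γ) with hβd
  have hβ0 : 0 ≤ β := abs_nonneg _
  rcases hβ0.eq_or_lt with h | hβ
  · rw [← h]
    have : ∀ u ∈ Icc 1 V, (if distInt (((u : ℝ) - v) * γ) < 2 * s ∧ 1 ≤ 4 * 0 * (u : ℝ)
        then 1 / (u : ℝ) else 0) = 0 := by
      intro u _
      rw [if_neg]
      rintro ⟨_, h2⟩
      (clear * - h2; norm_num at h2)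
    rw [Finset.sum_eq_zero this]
    (clear * - hs; positivity)
  have hβs : β ≤ 4 * s := hB.1.2.1
  rw [← Finset.sum_filter]
  set T := (Icc 1 V).filter (fun u : ℕ => distInt (((u : ℝ) - v) * γ) < 2 * s ∧
    1 ≤ 4 * β * (u : ℝ)) with hT
  set L := ⌊1 / (4 * β)⌋₊ with hL
  have hx : (2 : ℝ) ≤ 1 / (4 * β) := by
    rw [le_div_iff₀ (by positivity)]
    linarith only [hs2, hβs]
  have hL1 : (L : ℝ) ≤ 1 / (4 * β) := Nat.floor_le (by positivity)
  have hL2 : 1 / (4 * β) < L + 1 := Nat.lt_floor_add_one _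
  have hL3 : 1 / (8 * β) ≤ L := by
    have e : 1 / (8 * β) = 1 / (4 * β) / 2 := by
      field_simp
      ring
    rw [e]
    linarith only [hx, hL2]
  have hLpos : (0 : ℝ) < L := lt_of_lt_of_le (by positivity) hL3
  have hL0 : 0 < L := by exact_mod_cast hLpos
  have hL4 : 4 * β * L ≤ 1 := by
    rw [le_div_iff₀ (by positivity)] at hL1
    linarith only [hL1]
  have hmaps : ∀ u ∈ T, u / L ∈ Icc 1 V := by
    intro u hu
    rw [hT, Finset.mem_filter, Finset.mem_Icc] at hu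
    rw [Finset.mem_Icc]
    constructor
    · rw [Nat.le_div_iff_mul_le hL0, one_mul]
      have h1 : (L : ℝ) ≤ u := by
        refine hL1.trans ?_
        rw [div_le_iff₀ (by positivity)]
        linarith only [hu]
      exact_mod_cast h1
    · exact (Nat.div_le_self u L).trans hu.1.2
  rw [← Finset.sum_fiberwise_of_maps_to hmaps]
  have hblock : ∀ j ∈ Icc 1 V, ∑ u ∈ T.filter (fun u => u / L = j), 1 / (u : ℝ) ≤
      64 * s * (1 / (j : ℝ)) := by
    intro j hj
    have hj1 : 1 ≤ j := (Finset.mem_Icc.1 hj).1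
    have hjR : (0 : ℝ) < j := by exact_mod_cast hj1
    have hmem : ∀ u ∈ T.filter (fun u => u / L = j), j * L ≤ u ∧ u < j * L + L := by
      intro u hu
      have h1 := (Finset.mem_filter.1 hu).2
      have h2 := Nat.div_add_mod u L
      have h3 := Nat.mod_lt u hL0
      rw [h1, mul_comm] at h2
      omega
    have hcard := bad_card hs hs2 hB hβ (L := L) hL4 v (j * L)
      (T.filter (fun u => u / L = j)) hmem (fun u hu => by
        have h1 := (Finset.mem_filter.1 hu).1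
        rw [hT, Finset.mem_filter] at h1
        exact h1.2.1)
    have hcard2 : ((T.filter (fun u => u / L = j)).card : ℝ) ≤ 8 * s / β := by
      have h1 : 1 ≤ 4 * s / β := by
        rw [le_div_iff₀ hβ]
        linarith only [hβs]
      have h2 : 8 * s / β = 4 * s / β + 4 * s / β := by ring
      rw [h2]
      rw [← hβd] at hcard
      linarith only [hcard, h1]
    calc ∑ u ∈ T.filter (fun u => u / L = j), 1 / (u : ℝ)
        ≤ ∑ u ∈ T.filter (fun u => u / L = j), 1 / ((j : ℝ) * L) := by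
          refine Finset.sum_le_sum fun u hu => ?_
          refine one_div_le_one_div_of_le (by (clear * - hj1 hL0; positivity)) ?_
          exact_mod_cast (hmem u hu).1
      _ = ((T.filter (fun u => u / L = j)).card : ℝ) * (1 / ((j : ℝ) * L)) := by
          rw [Finset.sum_const, nsmul_eq_mul]
      _ ≤ 8 * s / β * (1 / ((j : ℝ) * (1 / (8 * β)))) := by
          refine mul_le_mul hcard2 ?_ (by positivity) (by positivity)
          refine one_div_le_one_div_of_le (by positivity) ?_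
          exact mul_le_mul_of_nonneg_left hL3 hjR.le
      _ = 64 * s * (1 / (j : ℝ)) := by
          field_simp
          ring
  calc ∑ j ∈ Icc 1 V, ∑ u ∈ T.filter (fun u => u / L = j), 1 / (u : ℝ)
      ≤ ∑ j ∈ Icc 1 V, 64 * s * (1 / (j : ℝ)) := Finset.sum_le_sum hblock
    _ = 64 * s * ∑ j ∈ Icc 1 V, 1 / (j : ℝ) := by rw [Finset.mul_sum]
    _ ≤ _ := mul_le_mul_of_nonneg_left (sum_inv_Icc_le_log V) (by positivity)

/-- The far pair sum. -/
theorem far_sum {γ s : ℝ} (hs : 0 < s) (hs2 : s ≤ 1 / 1000) (V : ℕ)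
    (Ω : ℕ → ℕ → Prop) [DecidableRel Ω] (hΩ : ∀ u v : ℕ,
      Ω u v ↔ (u ≠ v ∧ distInt (((u : ℝ) - v) * γ) < 2 * s) ∧ Far γ s u v) :
    ∑ u ∈ Icc 1 V, ∑ v ∈ Icc 1 V, (if Ω u v then 1 / ((u : ℝ) * v) else 0) ≤
      128 * (1 + Real.log V) ^ 2 * s ^ (1 / 4 : ℝ) := by
  classical
  have hlog : 0 ≤ Real.log V := Real.log_natCast_nonneg V
  have hs4 : 0 ≤ s ^ (1 / 4 : ℝ) := Real.rpow_nonneg hs.le _
  by_cases hgood : ∀ B : ℕ, ¬ BadAt γ s B
  · have h1 := pair_sum_le (γ := γ) (s := s) V (good_inv_sum hs hgood V)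
    refine le_trans (Finset.sum_le_sum fun u _ => Finset.sum_le_sum fun v _ => ?_)
      (h1.trans ?_)
    · by_cases h2 : Ω u v
      · rw [if_pos h2, if_pos ((hΩ u v).1 h2).1]
      · rw [if_neg h2]
        split_ifs
        · (clear * -; positivity)
        · exact le_rfl
    · have h3 : 0 ≤ (1 + Real.log V) ^ 2 * s ^ (1 / 4 : ℝ) := by (clear * - hs; positivity)
      linarith
  · push Not at hgood
    obtain ⟨B, hB⟩ := hgood
    have hss : s ≤ s ^ (1 / 4 : ℝ) := by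
      calc s = s ^ (1 : ℝ) := (Real.rpow_one s).symm
        _ ≤ s ^ (1 / 4 : ℝ) :=
          Real.rpow_le_rpow_of_exponent_ge hs (by linarith only [hs2]) (by norm_num)
    have hA : ∑ v ∈ Icc 1 V, ∑ u ∈ Icc 1 V, 1 / (v : ℝ) *
        (if distInt (((u : ℝ) - v) * γ) < 2 * s ∧ 1 ≤ 4 * distInt (B * γ) * (u : ℝ)
          then 1 / (u : ℝ) else 0) ≤ (1 + Real.log V) * (64 * s * (1 + Real.log V)) := by
      calc ∑ v ∈ Icc 1 V, ∑ u ∈ Icc 1 V, 1 / (v : ℝ) *
          (if distInt (((u : ℝ) - v) * γ) < 2 * s ∧ 1 ≤ 4 * distInt (B * γ) * (u : ℝ)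
            then 1 / (u : ℝ) else 0)
          = ∑ v ∈ Icc 1 V, 1 / (v : ℝ) * ∑ u ∈ Icc 1 V,
          (if distInt (((u : ℝ) - v) * γ) < 2 * s ∧ 1 ≤ 4 * distInt (B * γ) * (u : ℝ)
            then 1 / (u : ℝ) else 0) := by
            refine Finset.sum_congr rfl fun v _ => ?_
            rw [Finset.mul_sum]
        _ ≤ ∑ v ∈ Icc 1 V, 1 / (v : ℝ) * (64 * s * (1 + Real.log V)) :=
            Finset.sum_le_sum fun v _ =>
              mul_le_mul_of_nonneg_left (bad_inv_sum hs hs2 hB v V) (by (clear * -; positivity))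
        _ = (∑ v ∈ Icc 1 V, 1 / (v : ℝ)) * (64 * s * (1 + Real.log V)) := by
            rw [Finset.sum_mul]
        _ ≤ _ := mul_le_mul_of_nonneg_right (sum_inv_Icc_le_log V) (by positivity)
    have hterm : ∀ u ∈ Icc 1 V, ∀ v ∈ Icc 1 V, (if Ω u v then 1 / ((u : ℝ) * v) else 0) ≤
        1 / (v : ℝ) * (if distInt (((u : ℝ) - v) * γ) < 2 * s ∧
          1 ≤ 4 * distInt (B * γ) * (u : ℝ) then 1 / (u : ℝ) else 0) +
        1 / (u : ℝ) * (if distInt (((v : ℝ) - u) * γ) < 2 * s ∧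
          1 ≤ 4 * distInt (B * γ) * (v : ℝ) then 1 / (v : ℝ) else 0) := by
      intro u _ v _
      have h0 : 0 ≤ 1 / (v : ℝ) * (if distInt (((u : ℝ) - v) * γ) < 2 * s ∧
          1 ≤ 4 * distInt (B * γ) * (u : ℝ) then 1 / (u : ℝ) else 0) := by
        refine mul_nonneg (by (clear * -; positivity)) ?_
        split_ifs
        · (clear * -; positivity)
        · exact le_rfl
      have h0' : 0 ≤ 1 / (u : ℝ) * (if distInt (((v : ℝ) - u) * γ) < 2 * s ∧
          1 ≤ 4 * distInt (B * γ) * (v : ℝ) then 1 / (v : ℝ) else 0) := by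
        refine mul_nonneg (by (clear * -; positivity)) ?_
        split_ifs
        · (clear * -; positivity)
        · exact le_rfl
      by_cases h2 : Ω u v
      · rw [if_pos h2]
        obtain ⟨⟨_, h3⟩, h4⟩ := (hΩ u v).1 h2
        have h5 := h4 B hB
        rcases le_total (u : ℝ) (v : ℝ) with h | h
        · rw [max_eq_right h] at h5
          have h6 : distInt (((v : ℝ) - u) * γ) < 2 * s := by
            rw [← nb_distInt_neg]
            have e : -(((v : ℝ) - u) * γ) = ((u : ℝ) - v) * γ := by ring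
            rw [e]
            exact h3
          rw [if_pos (⟨h6, h5⟩ : distInt (((v : ℝ) - u) * γ) < 2 * s ∧
            1 ≤ 4 * distInt (B * γ) * (v : ℝ)), one_div_mul_one_div]
          linarith only [h0]
        · rw [max_eq_left h] at h5
          rw [if_pos (⟨h3, h5⟩ : distInt (((u : ℝ) - v) * γ) < 2 * s ∧
            1 ≤ 4 * distInt (B * γ) * (u : ℝ)), one_div_mul_one_div, mul_comm (v : ℝ)]
          linarith only [h0']
      · rw [if_neg h2]
        linarith only [h0, h0']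
    calc ∑ u ∈ Icc 1 V, ∑ v ∈ Icc 1 V, (if Ω u v then 1 / ((u : ℝ) * v) else 0)
        ≤ ∑ u ∈ Icc 1 V, ∑ v ∈ Icc 1 V, (1 / (v : ℝ) *
          (if distInt (((u : ℝ) - v) * γ) < 2 * s ∧
            1 ≤ 4 * distInt (B * γ) * (u : ℝ) then 1 / (u : ℝ) else 0) +
          1 / (u : ℝ) * (if distInt (((v : ℝ) - u) * γ) < 2 * s ∧
            1 ≤ 4 * distInt (B * γ) * (v : ℝ) then 1 / (v : ℝ) else 0)) :=
          Finset.sum_le_sum fun u hu => Finset.sum_le_sum fun v hv => hterm u hu v hv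
      _ ≤ (1 + Real.log V) * (64 * s * (1 + Real.log V)) +
          (1 + Real.log V) * (64 * s * (1 + Real.log V)) := by
          simp only [Finset.sum_add_distrib]
          refine add_le_add ?_ hA
          rw [Finset.sum_comm]
          exact hA
      _ = 128 * (1 + Real.log V) ^ 2 * s := by ring
      _ ≤ _ := mul_le_mul_of_nonneg_left hss (by positivity)

open Classical in
/-- Passage from the pair sum to the tensor sum, far version. -/
theorem far_step {γ s θ : ℝ} (hθ : 0 < θ) (hθ1 : θ < 1) (hs : 0 < s) (V N : ℕ)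
    (ψ f : ℕ → ℝ) (hf : ∀ q, 0 ≤ f q ∧ f q ≤ ψ q)
    (Ω : ℕ → ℕ → Prop) (hΩ : ∀ u v : ℕ,
      Ω u v ↔ (u ≠ v ∧ distInt (((u : ℝ) - v) * γ) < 2 * s) ∧ Far γ s u v) :
    psum (fun q r => Rel γ ψ s q r ∧ Far γ s (cofac q r) (cofac r q) ∧
        cofac q r ≤ V ∧ cofac r q ≤ V) N f f ≤
      s ^ (2 * (1 - θ)) * ∑ q ∈ Icc 1 N, ∑ r ∈ Icc 1 N,
        (if Ω (cofac q r) (cofac r q) ∧ cofac q r ≤ V ∧ cofac r q ≤ V then
          (f q * f r) ^ θ * ((cofac q r : ℝ) * (cofac r q : ℝ)) ^ (-(1 - θ)) else 0) := by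
  unfold psum
  rw [Finset.mul_sum]
  refine Finset.sum_le_sum fun q hq => ?_
  rw [Finset.mul_sum]
  refine Finset.sum_le_sum fun r hr => ?_
  have hq0 : 0 < q := (Finset.mem_Icc.1 hq).1
  have hr0 : 0 < r := (Finset.mem_Icc.1 hr).1
  have hu0 : (0 : ℝ) < cofac q r := by exact_mod_cast cofac_pos r hq0
  have hv0 : (0 : ℝ) < cofac r q := by exact_mod_cast cofac_pos q hr0
  have hff : 0 ≤ f q * f r := mul_nonneg (hf q).1 (hf r).1
  by_cases hc : Rel γ ψ s q r ∧ Far γ s (cofac q r) (cofac r q) ∧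
      cofac q r ≤ V ∧ cofac r q ≤ V
  · obtain ⟨⟨h1, h2, h3, h4⟩, h45, h5, h6⟩ := hc
    rw [if_pos ⟨⟨h1, h2, h3, h4⟩, h45, h5, h6⟩, if_pos ⟨(hΩ _ _).2 ⟨⟨h1, h4⟩, h45⟩, h5, h6⟩]
    have h7 : f q * f r = (f q * f r) ^ θ * (f q * f r) ^ (1 - θ) := by
      rw [← Real.rpow_add_of_nonneg hff hθ.le (by linarith only [hθ1])]
      rw [show θ + (1 - θ) = 1 by ring, Real.rpow_one]
    have h8 : (f q * f r) ^ (1 - θ) ≤
        s ^ (2 * (1 - θ)) * ((cofac q r : ℝ) * (cofac r q : ℝ)) ^ (-(1 - θ)) := by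
      have h9 : f q * f r ≤ s ^ 2 / ((cofac q r : ℝ) * (cofac r q : ℝ)) := by
        rw [le_div_iff₀ (by (clear * - hu0 hv0; positivity))]
        have ha : (cofac r q : ℝ) * f q ≤ s := (mul_le_mul_of_nonneg_left (hf q).2 hv0.le).trans h2
        have hb : (cofac q r : ℝ) * f r ≤ s := (mul_le_mul_of_nonneg_left (hf r).2 hu0.le).trans h3
        have hc := mul_le_mul ha hb (mul_nonneg hu0.le (hf r).1) hs.le
        calc f q * f r * ((cofac q r : ℝ) * (cofac r q : ℝ))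
            = (cofac r q : ℝ) * f q * ((cofac q r : ℝ) * f r) := by ring
          _ ≤ s * s := hc
          _ = s ^ 2 := by ring
      refine (Real.rpow_le_rpow hff h9 (by linarith only [hθ1])).trans (le_of_eq ?_)
      rw [Real.div_rpow (by positivity) (by (clear * - hu0 hv0; positivity)), Real.rpow_neg (by (clear * - hu0 hv0; positivity)),
        div_eq_mul_inv, ← Real.rpow_natCast, ← Real.rpow_mul hs.le]
      (clear * -; norm_num)
    calc f q * f r = (f q * f r) ^ θ * (f q * f r) ^ (1 - θ) := h7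
      _ ≤ (f q * f r) ^ θ *
          (s ^ (2 * (1 - θ)) * ((cofac q r : ℝ) * (cofac r q : ℝ)) ^ (-(1 - θ))) :=
          mul_le_mul_of_nonneg_left h8 (Real.rpow_nonneg hff _)
      _ = _ := by ring
  · rw [if_neg hc]
    refine mul_nonneg (Real.rpow_nonneg hs.le _) ?_
    split_ifs
    · exact mul_nonneg (Real.rpow_nonneg hff _) (Real.rpow_nonneg (by (clear * - hu0 hv0; positivity)) _)
    · exact le_rfl

open Classical in
/-- The near theorem for every real `γ`. -/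
theorem nearG : ∃ C > 0, ∃ k ≥ (0 : ℝ), ∀ (γ s : ℝ), 0 < s → s ≤ 1 / 1000 →
    ∀ (V N : ℕ) (ψ f : ℕ → ℝ), 1 ≤ V → (∀ q, 0 ≤ f q ∧ f q ≤ ψ q) →
      psum (fun q r => Rel γ ψ s q r ∧ Far γ s (cofac q r) (cofac r q) ∧
          cofac q r ≤ V ∧ cofac r q ≤ V) N f f ≤
        C * (1 + Real.log V) ^ k * s ^ (33 / 32 : ℝ) * (∑ q ∈ Icc 1 N, f q) ^ (33 / 32 : ℝ) := by
  have hθ : (1 / 2 : ℝ) < 33 / 64 := by norm_num
  have hθ1 : (33 / 64 : ℝ) < 1 := by norm_num
  have hμ : (0 : ℝ) < 1 / 4 := by norm_num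
  have hμ1 : (1 / 4 : ℝ) < 1 - 33 / 64 := by norm_num
  obtain ⟨A, hA, hSP⟩ := SPn_all hθ hθ1 hμ hμ1
  obtain ⟨C₁, hC₁, k, hk, hprod⟩ := prod_one_add_div_prime_le A hA
  refine ⟨C₁ * 128 ^ (1 / 4 : ℝ), by positivity, (k : ℝ) + 1 / 2, by positivity, ?_⟩
  intro γ s hs hs2 V N ψ f hV1 hf
  obtain ⟨Ω, hΩ⟩ : ∃ Ω : ℕ → ℕ → Prop, ∀ u v : ℕ,
      Ω u v ↔ (u ≠ v ∧ distInt (((u : ℝ) - v) * γ) < 2 * s) ∧ Far γ s u v :=
    ⟨_, fun _ _ => Iff.rfl⟩
  refine (far_step (θ := 33 / 64) (by norm_num) hθ1 hs V N ψ f hf Ω hΩ).trans ?_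
  have htens := tensor hθ hθ1 hμ hμ1 (fun p => 1 + A / p)
    (fun p _ => by
      have : 0 ≤ A / (p : ℝ) := by (clear * - hA; positivity)
      linarith only [this]) hSP
    Ω V N f f
    (fun q => (hf q).1) (fun q => (hf q).1)
  have hL0 : 0 ≤ Real.log V := Real.log_natCast_nonneg V
  set L : ℝ := 1 + Real.log V with hL
  have hLpos : 0 < L := by linarith only [hL0]
  have hP : ∏ p ∈ (Icc 1 V).filter Nat.Prime, (1 + A / (p : ℝ)) ≤ C₁ * L ^ (k : ℝ) := hprod V hV1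
  have hP0 : 0 ≤ ∏ p ∈ (Icc 1 V).filter Nat.Prime, (1 + A / (p : ℝ)) :=
    Finset.prod_nonneg fun p _ => by (clear * - hA; positivity)
  set T : ℝ := ∑ u ∈ Icc 1 V, ∑ v ∈ Icc 1 V,
        if Nat.Coprime u v ∧ Ω u v then 1 / ((u : ℝ) * v) else 0 with hT
  have hT0 : 0 ≤ T := by
    rw [hT]
    refine Finset.sum_nonneg fun u _ => Finset.sum_nonneg fun v _ => ?_
    split_ifs
    · (clear * -; positivity)
    · exact le_rfl
  have hTle : T ≤ 128 * L ^ 2 * s ^ (1 / 4 : ℝ) := by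
    refine le_trans ?_ (far_sum hs hs2 V Ω hΩ)
    rw [hT]
    refine Finset.sum_le_sum fun u _ => Finset.sum_le_sum fun v _ => ?_
    by_cases h2 : Ω u v
    · rw [if_pos h2]
      split_ifs
      · exact le_rfl
      · (clear * -; positivity)
    · rw [if_neg h2, if_neg (fun h3 => h2 h3.2)]
  have hS0 : 0 ≤ ∑ q ∈ Icc 1 N, f q := Finset.sum_nonneg fun q _ => (hf q).1
  have hSS : ((∑ q ∈ Icc 1 N, f q) * ∑ q ∈ Icc 1 N, f q) ^ (33 / 64 : ℝ) =
      (∑ q ∈ Icc 1 N, f q) ^ (33 / 32 : ℝ) := by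
    rw [Real.mul_rpow hS0 hS0, ← Real.rpow_add_of_nonneg hS0 (by norm_num) (by norm_num)]
    norm_num
  rw [hSS] at htens
  have hS1 : 0 ≤ (∑ q ∈ Icc 1 N, f q) ^ (33 / 32 : ℝ) := Real.rpow_nonneg hS0 _
  have hTμ : T ^ (1 / 4 : ℝ) ≤ 128 ^ (1 / 4 : ℝ) * L ^ (1 / 2 : ℝ) * s ^ (1 / 16 : ℝ) := by
    refine (Real.rpow_le_rpow hT0 hTle hμ.le).trans (le_of_eq ?_)
    rw [Real.mul_rpow (by (clear * -; positivity)) (by positivity), Real.mul_rpow (by positivity) (by (clear * -; positivity)),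
      ← Real.rpow_mul hs.le, ← Real.rpow_natCast L 2, ← Real.rpow_mul hLpos.le]
    (clear * -; norm_num)
  calc s ^ (2 * (1 - 33 / 64 : ℝ)) * ∑ q ∈ Icc 1 N, ∑ r ∈ Icc 1 N,
        (if Ω (cofac q r) (cofac r q) ∧ cofac q r ≤ V ∧ cofac r q ≤ V then
          (f q * f r) ^ (33 / 64 : ℝ) *
            ((cofac q r : ℝ) * (cofac r q : ℝ)) ^ (-(1 - 33 / 64 : ℝ)) else 0)
      ≤ s ^ (2 * (1 - 33 / 64 : ℝ)) * ((∏ p ∈ (Icc 1 V).filter Nat.Prime, (1 + A / (p : ℝ))) *
          (∑ q ∈ Icc 1 N, f q) ^ (33 / 32 : ℝ) * T ^ (1 / 4 : ℝ)) :=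
        mul_le_mul_of_nonneg_left htens (Real.rpow_nonneg hs.le _)
    _ ≤ s ^ (2 * (1 - 33 / 64 : ℝ)) * ((C₁ * L ^ (k : ℝ)) *
          (∑ q ∈ Icc 1 N, f q) ^ (33 / 32 : ℝ) *
          (128 ^ (1 / 4 : ℝ) * L ^ (1 / 2 : ℝ) * s ^ (1 / 16 : ℝ))) := by
        refine mul_le_mul_of_nonneg_left ?_ (Real.rpow_nonneg hs.le _)
        refine mul_le_mul ?_ hTμ (Real.rpow_nonneg hT0 _) (by (clear * - hC₁ hS0; positivity))
        exact mul_le_mul_of_nonneg_right hP hS1
    _ = _ := by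
        have e1 : s ^ (33 / 32 : ℝ) = s ^ (2 * (1 - 33 / 64 : ℝ)) * s ^ (1 / 16 : ℝ) := by
          rw [← Real.rpow_add hs]
          norm_num
        rw [e1, Real.rpow_add hLpos]
        ring

end Vale.P028
end

section

/-!
# Second moment bound for the sifted sets (Theorem A), choice of the constants
-/

namespace Vale.P028

open Finset MeasureTheory Filter

theorem am_eventually_pow_ge {a : ℝ} (ha : 0 < a) (A B : ℝ) :
    ∃ j₀ : ℕ, ∀ j : ℕ, j₀ ≤ j → A * j + B ≤ ((2 : ℝ) ^ j) ^ a := by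
  have h1 : (1 : ℝ) < 2 ^ a := Real.one_lt_rpow (by norm_num) ha
  have h2 : Tendsto (fun j : ℕ => (A * j + B) / ((2 : ℝ) ^ a) ^ j) atTop (nhds 0) := by
    have h3 := tendsto_pow_const_div_const_pow_of_one_lt 1 h1
    have h4 := tendsto_pow_const_div_const_pow_of_one_lt 0 h1
    have h5 := (h3.const_mul A).add (h4.const_mul B)
    simp only [mul_zero, add_zero] at h5
    refine h5.congr fun j => ?_
    rw [pow_one, pow_zero]
    ring
  have h6 := h2.eventually (gt_mem_nhds (by norm_num : (0 : ℝ) < 1))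
  obtain ⟨j₀, hj₀⟩ := eventually_atTop.1 h6
  refine ⟨j₀, fun j hj => ?_⟩
  have h7 := hj₀ j hj
  have h8 : (0 : ℝ) < ((2 : ℝ) ^ a) ^ j := by positivity
  rw [div_lt_one h8] at h7
  have h9 : ((2 : ℝ) ^ j) ^ a = ((2 : ℝ) ^ a) ^ j := by
    rw [← Real.rpow_natCast, ← Real.rpow_natCast, ← Real.rpow_mul (by norm_num),
      ← Real.rpow_mul (by norm_num), mul_comm]
  rw [h9]
  exact h7.le

theorem am_half_root_lt_one : (1 / 2 : ℝ) ^ (1 / 32 : ℝ) < 1 :=
  Real.rpow_lt_one (by norm_num) (by norm_num) (by norm_num)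

/-- The sum of the level bounds. -/
theorem am_sum_levels_le (A₁ A₂ η : ℝ) (hA₁ : 0 ≤ A₁) (hA₂ : 0 ≤ A₂) (hη : 0 < η) (J I : ℕ) :
    ∑ i ∈ range I, (if i ≤ J then A₁ * ((2 : ℝ) ^ i) ^ η else
      A₂ * ((1 / 2 : ℝ) ^ i) ^ (1 / 32 : ℝ)) ≤
    A₁ * ((J + 1) * ((2 : ℝ) ^ J) ^ η) +
      A₂ * (((1 / 2 : ℝ) ^ J) ^ (1 / 32 : ℝ) * (1 / (1 - (1 / 2 : ℝ) ^ (1 / 32 : ℝ)))) := by
  set x := (1 / 2 : ℝ) ^ (1 / 32 : ℝ) with hx
  have hx1 : x < 1 := am_half_root_lt_one
  have hx0 : 0 < x := by positivity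
  have h3 : ∀ i : ℕ, ((1 / 2 : ℝ) ^ i) ^ (1 / 32 : ℝ) = x ^ i := by
    intro i
    rw [hx, ← Real.rpow_natCast, ← Real.rpow_natCast, ← Real.rpow_mul (by norm_num),
      ← Real.rpow_mul (by norm_num), mul_comm]
  simp only [h3]
  have hb0 : ∀ i, (if i ≤ J then A₁ * ((2 : ℝ) ^ i) ^ η else A₂ * x ^ i) ≤
      (if i ≤ J then A₁ * ((2 : ℝ) ^ J) ^ η else 0) + A₂ * (if i ≤ J then 0 else x ^ i) := by
    intro i
    split_ifs with hi
    · rw [mul_zero, add_zero]
      have h2 : ((2 : ℝ) ^ i) ^ η ≤ ((2 : ℝ) ^ J) ^ η := by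
        apply Real.rpow_le_rpow (by positivity) _ hη.le
        exact pow_le_pow_right₀ (by norm_num) hi
      exact mul_le_mul_of_nonneg_left h2 hA₁
    · rw [zero_add]
  refine (sum_le_sum fun i _ => hb0 i).trans ?_
  rw [sum_add_distrib, ← mul_sum]
  have h1 : ∑ i ∈ range I, (if i ≤ J then A₁ * ((2 : ℝ) ^ J) ^ η else 0) ≤
      A₁ * ((J + 1) * ((2 : ℝ) ^ J) ^ η) := by
    rw [← sum_filter, sum_const, nsmul_eq_mul]
    have h2 : (((range I).filter (fun i => i ≤ J)).card : ℝ) ≤ J + 1 := by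
      have : ((range I).filter (fun i => i ≤ J)).card ≤ (range (J + 1)).card := by
        apply card_le_card
        intro i hi
        rw [mem_filter] at hi
        rw [mem_range]
        omega
      rw [card_range] at this
      exact_mod_cast this
    calc _ ≤ ((J : ℝ) + 1) * (A₁ * ((2 : ℝ) ^ J) ^ η) :=
          mul_le_mul_of_nonneg_right h2 (by (clear * - hA₁; positivity))
      _ = A₁ * ((J + 1) * ((2 : ℝ) ^ J) ^ η) := by ring
  have h2 : ∑ i ∈ range I, (if i ≤ J then 0 else x ^ i) ≤ x ^ J * (1 / (1 - x)) := by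
    have h4 : ∑ i ∈ range I, (if i ≤ J then 0 else x ^ i) ≤ ∑ i ∈ range I, x ^ J * x ^ i := by
      calc ∑ i ∈ range I, (if i ≤ J then 0 else x ^ i)
          = ∑ i ∈ (range I).filter (fun i => ¬ i ≤ J), x ^ i := by
            rw [sum_filter]
            refine sum_congr rfl fun i _ => ?_
            by_cases h : i ≤ J
            · rw [if_pos h, if_neg (by simpa using h)]
            · rw [if_neg h, if_pos h]
        _ = ∑ i ∈ (range I).filter (fun i => ¬ i ≤ J), x ^ J * x ^ (i - J) := by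
            refine sum_congr rfl fun i hi => ?_
            rw [mem_filter] at hi
            rw [← pow_add]
            congr 1
            omega
        _ = ∑ k ∈ ((range I).filter (fun i => ¬ i ≤ J)).image (fun i => i - J),
              x ^ J * x ^ k := by
            rw [sum_image]
            intro i hi i' hi' he
            rw [mem_coe, mem_filter] at hi hi'
            simp only at he
            omega
        _ ≤ ∑ i ∈ range I, x ^ J * x ^ i := by
            apply sum_le_sum_of_subset_of_nonneg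
            · intro k hk
              rw [mem_image] at hk
              obtain ⟨i, hi, rfl⟩ := hk
              rw [mem_filter, mem_range] at hi
              rw [mem_range]
              omega
            · intro i _ _
              positivity
    refine h4.trans ?_
    rw [← mul_sum]
    apply mul_le_mul_of_nonneg_left _ (by positivity)
    rw [le_div_iff₀ (by linarith only [hx1]), geom_sum_mul_neg]
    have : 0 ≤ x ^ I := by positivity
    linarith only [this]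
  have h4 := mul_le_mul_of_nonneg_left h2 hA₂
  linarith

/-- Numerical estimate: the total of the level bounds is at most `M ^ 2`. -/
theorem am_level_total_le {ε η CT Cn kn K0 L logN M : ℝ} {J C₅ : ℕ} (hε : 0 < ε) (hη1 : η ≤ 1 / 2)
    (hηC : C₅ * η = ε / 8) (hCT : 0 < CT) (hCn : 0 < Cn) (hkn : 0 ≤ kn)
    (hC5k : 32 * (kn + 1) ≤ C₅) (hK0 : 0 < K0) (hL1 : 1 ≤ L) (hM : L ^ (ε / 2) ≤ M)
    (hJL : (2 : ℝ) ^ J = L ^ C₅) (h2 : 2 * CT * ((J : ℝ) + 1) ≤ L ^ (ε / 8))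
    (hlogN1 : 1 ≤ logN) (hlogN2 : logN ≤ 3 * L) (h4 : 2 * (Cn * 3 ^ kn * K0) ≤ L) :
    CT * M ^ (1 + η) * ((J + 1) * ((2 : ℝ) ^ J) ^ η) +
      Cn * logN ^ kn * M ^ (33 / 32 : ℝ) * (((1 / 2 : ℝ) ^ J) ^ (1 / 32 : ℝ) * K0) ≤ M ^ 2 := by
  have hLpos : 0 < L := by linarith only [hL1]
  have hM1 : 1 ≤ M := (Real.one_le_rpow hL1 (by positivity)).trans hM
  have hMpos : 0 < M := by linarith only [hM1]
  have hA : CT * M ^ (1 + η) * ((J + 1) * ((2 : ℝ) ^ J) ^ η) ≤ M ^ 2 / 2 := by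
    have h1 : ((2 : ℝ) ^ J) ^ η = L ^ (ε / 8) := by
      rw [hJL, ← Real.rpow_natCast, ← Real.rpow_mul hLpos.le, hηC]
    have h5 : L ^ (ε / 8) * L ^ (ε / 8) ≤ M ^ (1 - η) := by
      have h6 : L ^ (ε / 8) * L ^ (ε / 8) = (L ^ (ε / 2)) ^ (1 / 2 : ℝ) := by
        rw [← Real.rpow_add hLpos, ← Real.rpow_mul hLpos.le]
        congr 1
        ring
      rw [h6]
      calc (L ^ (ε / 2)) ^ (1 / 2 : ℝ) ≤ M ^ (1 / 2 : ℝ) :=
            Real.rpow_le_rpow (by positivity) hM (by norm_num)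
        _ ≤ M ^ (1 - η) := Real.rpow_le_rpow_of_exponent_le hM1 (by linarith only [hη1])
    have h7 : M ^ (1 + η) * M ^ (1 - η) = M ^ 2 := by
      rw [← Real.rpow_add hMpos, ← Real.rpow_natCast]
      congr 1
      push_cast; ring
    rw [h1]
    have h8 : 0 < L ^ (ε / 8) := by positivity
    have h9 : 0 < M ^ (1 + η) := by positivity
    calc CT * M ^ (1 + η) * ((J + 1) * L ^ (ε / 8))
        = M ^ (1 + η) * ((2 * CT * ((J : ℝ) + 1)) * L ^ (ε / 8)) / 2 := by ring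
      _ ≤ M ^ (1 + η) * (L ^ (ε / 8) * L ^ (ε / 8)) / 2 := by (clear * - h2 hL1 hM1; gcongr)
      _ ≤ M ^ (1 + η) * M ^ (1 - η) / 2 := by (clear * - h5 hM1; gcongr)
      _ = M ^ 2 / 2 := by rw [h7]
  have hB : Cn * logN ^ kn * M ^ (33 / 32 : ℝ) * (((1 / 2 : ℝ) ^ J) ^ (1 / 32 : ℝ) * K0) ≤
      M ^ 2 / 2 := by
    have h1 : ((1 / 2 : ℝ) ^ J) ^ (1 / 32 : ℝ) ≤ L ^ (-(kn + 1)) := by
      have e1 : ((1 / 2 : ℝ) ^ J) ^ (1 / 32 : ℝ) = L ^ (-(C₅ / 32 : ℝ)) := by
        rw [one_div, inv_pow, hJL, ← Real.rpow_natCast, Real.inv_rpow (by positivity),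
          ← Real.rpow_mul hLpos.le, Real.rpow_neg hLpos.le]
        congr 2
        ring
      rw [e1]
      apply Real.rpow_le_rpow_of_exponent_le hL1
      linarith only [hC5k]
    have h2 : logN ^ kn ≤ 3 ^ kn * L ^ kn := by
      rw [← Real.mul_rpow (by norm_num) hLpos.le]
      exact Real.rpow_le_rpow (by linarith only [hlogN1]) hlogN2 hkn
    have h3 : M ^ (33 / 32 : ℝ) ≤ M ^ 2 := by
      rw [← Real.rpow_natCast]
      apply Real.rpow_le_rpow_of_exponent_le hM1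
      norm_num
    have h5 : L ^ kn * L ^ (-(kn + 1)) = L⁻¹ := by
      rw [← Real.rpow_add hLpos, ← Real.rpow_neg_one]
      congr 1; ring
    calc Cn * logN ^ kn * M ^ (33 / 32 : ℝ) * (((1 / 2 : ℝ) ^ J) ^ (1 / 32 : ℝ) * K0)
        ≤ Cn * (3 ^ kn * L ^ kn) * M ^ 2 * (L ^ (-(kn + 1)) * K0) := by (clear * - h2 hCn h3 hM1 hL1 h1 hK0; gcongr)
      _ = (Cn * 3 ^ kn * K0) * (L ^ kn * L ^ (-(kn + 1))) * M ^ 2 := by ring
      _ = (2 * (Cn * 3 ^ kn * K0)) / L * (M ^ 2 / 2) := by rw [h5]; ring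
      _ ≤ 1 * (M ^ 2 / 2) := by
          apply mul_le_mul_of_nonneg_right _ (by positivity)
          rw [div_le_one hLpos]
          exact h4
      _ = M ^ 2 / 2 := one_mul _
  linarith only [hA, hB]

/-- The weight `φ(q)/q`. -/
theorem am_totient_div_mem (q : ℕ) : 0 ≤ (q.totient : ℝ) / q ∧ (q.totient : ℝ) / q ≤ 1 := by
  refine ⟨by positivity, ?_⟩
  apply div_le_one_of_le₀ _ (by positivity)
  exact_mod_cast Nat.totient_le q

theorem second_moment {ε : ℝ} (hε : 0 < ε) (hε1 : ε ≤ 1) (C₀ : ℝ) :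
    ∃ C₅ : ℕ, C₀ ≤ C₅ ∧ ∃ j₀ : ℕ, ∀ j : ℕ, j₀ ≤ j → ∀ (γ : ℝ) (ψ : ℕ → ℝ) (S : Finset ℕ) (R : ℝ),
      (∀ q, 0 ≤ ψ q) → (∀ q ∈ S, 0 < q ∧ q ≤ 2 ^ 2 ^ (j + 1) ∧ 0 < ψ q ∧ ψ q ≤ 1 / 2) →
      0 ≤ R → R ≤ ((2 : ℝ) ^ j) ^ (ε / 4) →
      ((2 : ℝ) ^ j) ^ (ε / 2) ≤ ∑ q ∈ S, (q.totient : ℝ) / q * ψ q →
      ∑ q ∈ S, ∑ r ∈ S, (q.totient : ℝ) / q * ((r.totient : ℝ) / r) * volume.real
        (Gset γ ((1 / 2) ^ (j * C₅)) R ψ q ∩ Gset γ ((1 / 2) ^ (j * C₅)) R ψ r ∩ Set.Icc 0 1) ≤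
        24 * (∑ q ∈ S, (q.totient : ℝ) / q * ψ q) ^ 2 := by
  classical
  obtain ⟨Cn, hCn, kn, hkn, hnear⟩ := nearG
  obtain ⟨C₅, hC₅⟩ := exists_nat_ge (max C₀ (32 * (kn + 1)))
  have hC50 : C₀ ≤ C₅ := (le_max_left _ _).trans hC₅
  have hC5k : 32 * (kn + 1) ≤ C₅ := (le_max_right _ _).trans hC₅
  have hC5pos : (0 : ℝ) < C₅ := by linarith
  refine ⟨C₅, hC50, ?_⟩
  obtain ⟨η, hηpos, hη1, hηC⟩ : ∃ η : ℝ, 0 < η ∧ η ≤ 1 / 2 ∧ C₅ * η = ε / 8 := by
    refine ⟨ε / (8 * C₅), by positivity, ?_, by field_simp⟩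
    rw [div_le_iff₀ (by positivity)]
    linarith only [hε1, hkn, hC5k]
  obtain ⟨CT, hCT, hT1⟩ := T1 (θ := (1 + η) / 2) (by linarith only [hηpos]) (by linarith only [hη1])
  obtain ⟨K0, hK0⟩ : ∃ K0 : ℝ, K0 = 1 / (1 - (1 / 2 : ℝ) ^ (1 / 32 : ℝ)) := ⟨_, rfl⟩
  have hK0pos : 0 < K0 := by
    rw [hK0]
    apply one_div_pos.2
    linarith only [am_half_root_lt_one]
  obtain ⟨j₁, hj₁⟩ := am_eventually_pow_ge (a := ε / 8) (by positivity) (2 * CT * C₅) (2 * CT)
  obtain ⟨j₂, hj₂⟩ := am_eventually_pow_ge (a := 1) (by norm_num) 0 (2 * (Cn * 3 ^ kn * K0))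
  refine ⟨max (max j₁ j₂) 10, fun j hj γ ψ S R hψ hS hR0 hR hM => ?_⟩
  have hjj₁ : j₁ ≤ j := (le_max_left _ _).trans ((le_max_left _ _).trans hj)
  have hjj₂ : j₂ ≤ j := (le_max_right _ _).trans ((le_max_left _ _).trans hj)
  have hj10 : 10 ≤ j := (le_max_right _ _).trans hj
  have hj₁' := hj₁ j hjj₁
  have hj₂' := hj₂ j hjj₂
  rw [Real.rpow_one] at hj₂'
  clear hj₁ hj₂
  obtain ⟨M, hMdef⟩ : ∃ M : ℝ, M = ∑ q ∈ S, (q.totient : ℝ) / q * ψ q := ⟨_, rfl⟩
  rw [← hMdef] at hM ⊢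
  obtain ⟨L, hL⟩ : ∃ L : ℝ, L = (2 : ℝ) ^ j := ⟨_, rfl⟩
  rw [← hL] at hM hR hj₁' hj₂'
  have hL1 : 1 ≤ L := by rw [hL]; exact one_le_pow₀ (by norm_num)
  have hLpos : 0 < L := by linarith only [hL1]
  have hM1 : 1 ≤ M := (Real.one_le_rpow hL1 (by positivity)).trans hM
  obtain ⟨N, hN⟩ : ∃ N : ℕ, N = 2 ^ 2 ^ (j + 1) := ⟨_, rfl⟩
  rw [← hN] at hS
  obtain ⟨f, hf⟩ : ∃ f : ℕ → ℝ, ∀ q, f q = if q ∈ S then (q.totient : ℝ) / q * ψ q else 0 :=
    ⟨_, fun q => rfl⟩
  have hf0 : ∀ q, 0 ≤ f q := by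
    intro q
    rw [hf]
    split_ifs with h
    · exact mul_nonneg (am_totient_div_mem q).1 (hψ q)
    · exact le_rfl
  have hfψ : ∀ q, f q ≤ ψ q * ((q.totient : ℝ) / q) := by
    intro q
    rw [hf]
    split_ifs with h
    · rw [mul_comm]
    · exact mul_nonneg (hψ q) (am_totient_div_mem q).1
  have hfψ' : ∀ q, f q ≤ ψ q := by
    intro q
    refine (hfψ q).trans ?_
    calc ψ q * ((q.totient : ℝ) / q) ≤ ψ q * 1 :=
          mul_le_mul_of_nonneg_left (am_totient_div_mem q).2 (hψ q)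
      _ = ψ q := mul_one _
  have hsum : ∑ q ∈ Icc 1 N, f q = M := by
    rw [hMdef]
    simp only [hf]
    rw [sum_ite, sum_const_zero, add_zero]
    apply sum_congr _ fun q _ => rfl
    ext q
    rw [mem_filter, mem_Icc]
    constructor
    · exact fun h => h.2
    · intro h
      exact ⟨⟨(hS q h).1, (hS q h).2.1⟩, h⟩
  obtain ⟨J, hJ⟩ : ∃ J : ℕ, J = j * C₅ := ⟨_, rfl⟩
  rw [← hJ]
  have hJ10 : 10 ≤ J := by
    have : 1 ≤ C₅ := by
      have : (1 : ℝ) ≤ C₅ := by linarith only [hkn, hC5k]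
      exact_mod_cast this
    calc 10 ≤ j := hj10
      _ = j * 1 := (mul_one _).symm
      _ ≤ J := by rw [hJ]; exact Nat.mul_le_mul_left _ this
  have hJs : (1 / 2 : ℝ) ^ J ≤ 1 / 1000 := by
    calc (1 / 2 : ℝ) ^ J ≤ (1 / 2) ^ 10 := pow_le_pow_of_le_one (by norm_num) (by norm_num) hJ10
      _ ≤ 1 / 1000 := by norm_num
  have hJL : (2 : ℝ) ^ J = L ^ C₅ := by rw [hJ, hL, pow_mul]
  obtain ⟨logN, hlogN⟩ : ∃ logN : ℝ, logN = 1 + Real.log N := ⟨_, rfl⟩
  have hlogN1 : 1 ≤ logN := by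
    have : (0 : ℝ) ≤ Real.log N := Real.log_natCast_nonneg N
    linarith only [hlogN, this]
  have hlogN2 : logN ≤ 3 * L := by
    have h1 : Real.log N = 2 ^ (j + 1) * Real.log 2 := by
      rw [hN]
      push_cast
      rw [Real.log_pow]
      push_cast
      ring
    have h2 : Real.log 2 ≤ 1 := by
      have := Real.log_two_lt_d9
      linarith only [this]
    have h3 : (2 : ℝ) ^ (j + 1) = 2 * L := by rw [pow_succ, hL]; ring
    rw [hlogN, h1, h3]
    nlinarith only [hL1, h2]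
  have hT1' : ∀ i, i ≤ J → psum (fun q r => (cofac r q : ℝ) * ψ q ≤ (1 / 2) ^ i ∧
      (cofac q r : ℝ) * ψ r ≤ (1 / 2) ^ i) N f f ≤
      (1 / 2) ^ i * ((CT * M ^ (1 + η)) * ((2 : ℝ) ^ i) ^ η) := by
    intro i hi
    have h1 := hT1 ψ ψ f f ((1 / 2) ^ i) ((1 / 2) ^ i) N (by positivity) (by positivity) hψ hψ
      (fun q => ⟨hf0 q, hfψ q⟩) (fun q => ⟨hf0 q, hfψ q⟩)
    refine h1.trans (le_of_eq ?_)
    rw [hsum, ← pow_two, ← pow_two, ← Real.rpow_natCast ((1 / 2 : ℝ) ^ i) 2,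
      ← Real.rpow_natCast M 2, ← Real.rpow_mul (by positivity), ← Real.rpow_mul (by positivity)]
    have e1 : ((2 : ℕ) : ℝ) * (1 - (1 + η) / 2) = 1 - η := by push_cast; ring
    have e2 : ((2 : ℕ) : ℝ) * ((1 + η) / 2) = 1 + η := by push_cast; ring
    rw [e1, e2, Real.rpow_sub (by positivity), Real.rpow_one]
    have e3 : ((1 / 2 : ℝ) ^ i) ^ η = (((2 : ℝ) ^ i) ^ η)⁻¹ := by
      rw [one_div, inv_pow, Real.inv_rpow (by positivity)]
    rw [e3]
    have : (((2 : ℝ) ^ i) ^ η) ≠ 0 := by positivity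
    (clear * - hM1 this hCT; field_simp)
  have hnear' : ∀ i, J < i → psum (fun q r => Rel γ ψ ((1 / 2) ^ i) q r ∧
      Far γ ((1 / 2) ^ i) (cofac q r) (cofac r q) ∧ cofac q r ≤ N ∧ cofac r q ≤ N) N f f ≤
      (1 / 2) ^ i * ((Cn * logN ^ kn * M ^ (33 / 32 : ℝ)) *
        ((1 / 2 : ℝ) ^ i) ^ (1 / 32 : ℝ)) := by
    intro i hi
    have hN1 : 1 ≤ N := by rw [hN]; exact Nat.one_le_two_pow
    have h0 : (1 / 2 : ℝ) ^ i ≤ 1 / 1000 :=
      (pow_le_pow_of_le_one (by norm_num) (by norm_num) hi.le).trans hJs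
    have h1 := hnear γ ((1 / 2) ^ i) (by positivity) h0 N N ψ f hN1 (fun q => ⟨hf0 q, hfψ' q⟩)
    refine h1.trans (le_of_eq ?_)
    rw [hsum]
    have e1 : ((1 / 2 : ℝ) ^ i) ^ (33 / 32 : ℝ) =
        (1 / 2) ^ i * ((1 / 2 : ℝ) ^ i) ^ (1 / 32 : ℝ) := by
      rw [show (33 / 32 : ℝ) = 1 + 1 / 32 by norm_num, Real.rpow_add (by positivity),
        Real.rpow_one]
    rw [e1, hlogN]; ring
  obtain ⟨b, hb⟩ : ∃ b : ℕ → ℝ, ∀ i, b i = if i ≤ J then (CT * M ^ (1 + η)) * ((2 : ℝ) ^ i) ^ η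
      else (Cn * logN ^ kn * M ^ (33 / 32 : ℝ)) * ((1 / 2 : ℝ) ^ i) ^ (1 / 32 : ℝ) :=
    ⟨_, fun i => rfl⟩
  have hK : ∀ I, ∑ i ∈ range I, b i ≤ M ^ 2 := by
    intro I
    simp only [hb]
    have h1 := am_sum_levels_le (CT * M ^ (1 + η)) (Cn * logN ^ kn * M ^ (33 / 32 : ℝ)) η
      (by (clear * - hCT hM1; positivity)) (by (clear * - hCn hlogN1 hM1; positivity)) hηpos J I
    have h2 := am_level_total_le (K0 := K0) (M := M) (logN := logN) (J := J) hε hη1 hηC hCT hCn hkn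
      hC5k hK0pos hL1 hM hJL
      (by
        rw [hJ]
        push_cast
        calc 2 * CT * ((j : ℝ) * C₅ + 1) = 2 * CT * C₅ * j + 2 * CT := by ring
          _ ≤ _ := hj₁') hlogN1 hlogN2 (by linarith only [hj₂'])
    rw [← hK0] at h1
    exact h1.trans h2
  have hmain := moment_split γ ψ S N hS (fun q => (q.totient : ℝ) / q) am_totient_div_mem f hf J hJs
    R hR0 b (M ^ 2) hK
    (by
      intro i hi
      rw [hb, if_pos hi]
      exact hT1' i hi)
    (by
      intro i hi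
      rw [hb, if_neg (by (clear * - hJ hi; omega))]
      exact hnear' i hi)
  rw [← hMdef] at hmain
  have hR2 : R ^ 2 ≤ M := by
    calc R ^ 2 ≤ (L ^ (ε / 4)) ^ 2 := pow_le_pow_left₀ hR0 hR 2
      _ = L ^ (ε / 2) := by
        rw [← Real.rpow_natCast, ← Real.rpow_mul hLpos.le]
        congr 1
        push_cast; ring
      _ ≤ M := hM
  have hMM : M ≤ M ^ 2 := by nlinarith only [hM1]
  have hRM : R ^ 2 * M ≤ M ^ 2 := by nlinarith only [hR2]
  refine hmain.trans ?_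
  nlinarith only [hMM, hRM]

end Vale.P028
end
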